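import Mathlib

/-!
# P067, part D1: complexes with group action, invariant exactness

A `Sys Γ Y` is an augmented complex over `F_2` with an action of `Γ`, given by cells `Y` with a degree
(`deg` = number of vertices, so `deg = 0` is the empty cell `pt`) and a boundary (a multiset of cells).
Cochains are functions `f : Y → ZMod 2`; only the values on the cells of the relevant degree matter.
`S.Ex P p`: the complex of `P`-invariant cochains is exact at the cochains on the cells of degree `p`
(for `p = 0` this says that `d` is injective there).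
-/

namespace Vale.P067

open scoped Classical

universe u v w

/-- augmented complex with `Γ`-action -/
structure Sys (Γ : Type u) [Group Γ] (Y : Type v) [MulAction Γ Y] where
  deg : Y → ℕ
  bdy : Y → Multiset Y
  pt : Y
  deg_smul : ∀ (g : Γ) (y : Y), deg (g • y) = deg y
  deg_bdy : ∀ y : Y, ∀ y' ∈ bdy y, deg y' + 1 = deg y
  bdy_smul : ∀ (g : Γ) (y : Y), bdy (g • y) = (bdy y).map (fun y' => g • y')
  bdd : ∀ (f : Y → ZMod 2) (y : Y), ((bdy y).map fun y' => ((bdy y').map f).sum).sum = 0
  deg_pt : deg pt = 0
  eq_pt : ∀ y : Y, deg y = 0 → y = pt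
  bdy_one : ∀ y : Y, deg y = 1 → bdy y = {pt}

section basic

variable {Γ : Type u} [Group Γ] {Y : Type v} [MulAction Γ Y]

/-- invariance under a subgroup -/
def Inv (P : Subgroup Γ) (f : Y → ZMod 2) : Prop := ∀ g ∈ P, ∀ y : Y, f (g • y) = f y

/-- coboundary -/
def Sys.d (S : Sys Γ Y) (f : Y → ZMod 2) : Y → ZMod 2 := fun y => ((S.bdy y).map f).sum

/-- exactness of the invariant cochains on the cells of degree `p` -/
def Sys.Ex (S : Sys Γ Y) (P : Subgroup Γ) (p : ℕ) : Prop :=
  ∀ f : Y → ZMod 2, Inv P f → (∀ y, S.deg y = p + 1 → S.d f y = 0) →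
    ∃ b : Y → ZMod 2, Inv P b ∧ ∀ y, S.deg y = p → f y = S.d b y

/-- a cochain on cells of degree `p` is the coboundary of a `P`-invariant one -/
def Sys.Triv (S : Sys Γ Y) (P : Subgroup Γ) (p : ℕ) (f : Y → ZMod 2) : Prop :=
  ∃ b : Y → ZMod 2, Inv P b ∧ ∀ y, S.deg y = p → f y = S.d b y

end basic

/-! ## Tuples -/

section tuples

variable {Γ : Type u} [Group Γ] {E : Type v} [MulAction Γ E]

/-- the diagonal action on lists -/
instance listAction : MulAction Γ (List E) where
  smul g l := l.map (fun x => g • x)
  one_smul l := by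
    change l.map (fun x => (1 : Γ) • x) = l
    simp
  mul_smul g h l := by
    change l.map (fun x => (g * h) • x) = (l.map (fun x => h • x)).map (fun x => g • x)
    rw [List.map_map]
    congr 1
    funext x
    exact mul_smul g h x

theorem list_smul (g : Γ) (l : List E) : g • l = l.map (fun x => g • x) := rfl

theorem list_smul_nil (g : Γ) : g • ([] : List E) = [] := rfl

theorem list_smul_cons (g : Γ) (x : E) (l : List E) : g • (x :: l) = (g • x) :: (g • l) := rfl

/-- the faces of a tuple -/
def tbd {E : Type v} : List E → Multiset (List E)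
  | [] => 0
  | x :: l => l ::ₘ (tbd l).map (fun l' => x :: l')

theorem tbd_nil : tbd ([] : List E) = 0 := rfl

theorem tbd_cons (x : E) (l : List E) : tbd (x :: l) = l ::ₘ (tbd l).map (fun l' => x :: l') := rfl

theorem tbd_len {E : Type v} : ∀ (l : List E), ∀ l' ∈ tbd l, l'.length + 1 = l.length
  | [], l', h => by simp [tbd] at h
  | x :: l, l', h => by
    rw [tbd, Multiset.mem_cons, Multiset.mem_map] at h
    rcases h with rfl | ⟨l'', h'', rfl⟩
    · rfl
    · have := tbd_len l l'' h''
      simp only [List.length_cons]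
      omega

theorem tbd_map {E : Type v} {E' : Type w} (φ : E → E') :
    ∀ (l : List E), tbd (l.map φ) = (tbd l).map (fun l' => l'.map φ)
  | [] => by simp [tbd]
  | x :: l => by
    rw [List.map_cons, tbd, tbd_map φ l, tbd, Multiset.map_cons, Multiset.map_map, Multiset.map_map]
    rfl

theorem tbd_tbd {E : Type v} : ∀ (l : List E) (f : List E → ZMod 2),
    ((tbd l).map fun l' => ((tbd l').map f).sum).sum = 0
  | [], f => by simp [tbd]
  | x :: l, f => by
    rw [tbd, Multiset.map_cons, Multiset.sum_cons, Multiset.map_map]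
    have h1 : ((tbd l).map ((fun l' => ((tbd l').map f).sum) ∘ fun l' => x :: l')) =
        (tbd l).map (fun l' => f l' + ((tbd l').map (fun l'' => f (x :: l''))).sum) := by
      refine Multiset.map_congr rfl fun l' _ => ?_
      simp only [Function.comp]
      rw [tbd, Multiset.map_cons, Multiset.sum_cons, Multiset.map_map]
      rfl
    rw [h1, Multiset.sum_map_add, tbd_tbd l (fun l'' => f (x :: l'')), add_zero]
    exact CharTwo.add_self_eq_zero _

variable (Γ E) in
/-- the complex of tuples -/
def tup : Sys Γ (List E) where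
  deg l := l.length
  bdy l := tbd l
  pt := []
  deg_smul g l := by
    rw [list_smul, List.length_map]
  deg_bdy l l' h := tbd_len l l' h
  bdy_smul g l := tbd_map (fun x => g • x) l
  bdd f l := tbd_tbd l f
  deg_pt := rfl
  eq_pt l h := List.eq_nil_of_length_eq_zero h
  bdy_one l h := by
    obtain ⟨x, rfl⟩ := List.length_eq_one_iff.1 h
    rfl

end tuples

/-! ## Good groups -/

/-- existence of a left invariant `F_2`-valued mean -/
def Good (Γ : Type u) [Group Γ] : Prop :=
  ∃ m : (Γ → ZMod 2) →ₗ[ZMod 2] ZMod 2, m (fun _ => 1) = 1 ∧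
    ∀ (a : Γ) (φ : Γ → ZMod 2), m (fun x => φ (a * x)) = m φ

/-- every finite subset is contained in a finite subgroup of odd order -/
def LocOdd (Γ : Type u) [Group Γ] : Prop :=
  ∀ s : Finset Γ, ∃ F : Subgroup Γ, (s : Set Γ) ⊆ F ∧ Finite F ∧ Odd (Nat.card F)

end Vale.P067
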