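import Mathlib
import Vale.Agent.Lib.P067.D1.Sys

/-!
# P067, part D1: equivariant choices
-/

namespace Vale.P067

open scoped Classical

universe u v w

/-- orbit representatives: `w = t w • r w`, `r` constant on orbits.
Proof: `r w = Quotient.out (Quotient.mk (MulAction.orbitRel Γ W) w)`. -/
theorem exists_rep (Γ : Type u) [Group Γ] (W : Type w) [MulAction Γ W] :
    ∃ (r : W → W) (t : W → Γ), (∀ x, t x • r x = x) ∧ ∀ (g : Γ) (x : W), r (g • x) = r x := by
  classical
  have hrel : ∀ x : W, ∃ a : Γ,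
      a • (Quotient.mk (MulAction.orbitRel Γ W) x).out = x := by
    intro x
    have h1 : (MulAction.orbitRel Γ W).r (Quotient.mk (MulAction.orbitRel Γ W) x).out x :=
      Quotient.mk_out (s := MulAction.orbitRel Γ W) x
    obtain ⟨a, ha⟩ := (MulAction.orbitRel_apply.1 h1)
    refine ⟨a⁻¹, ?_⟩
    rw [← ha]
    exact inv_smul_smul a x
  choose t ht using hrel
  refine ⟨fun x => (Quotient.mk (MulAction.orbitRel Γ W) x).out, t, ht, fun a x => ?_⟩
  have h2 : Quotient.mk (MulAction.orbitRel Γ W) (a • x)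
      = Quotient.mk (MulAction.orbitRel Γ W) x :=
    Quotient.sound (MulAction.orbitRel_apply.2 (MulAction.mem_orbit x a))
  show (Quotient.mk (MulAction.orbitRel Γ W) (a • x)).out
    = (Quotient.mk (MulAction.orbitRel Γ W) x).out
  rw [h2]

/-- orbit representatives for a subgroup (apply `exists_rep` to `↥P`) -/
theorem exists_rep_sub {Γ : Type u} [Group Γ] (P : Subgroup Γ) (W : Type w) [MulAction Γ W] :
    ∃ (r : W → W) (t : W → Γ), (∀ x, t x ∈ P) ∧ (∀ x, t x • r x = x) ∧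
      ∀ g ∈ P, ∀ x : W, r (g • x) = r x := by
  obtain ⟨r, t, h1, h2⟩ := exists_rep P W
  exact ⟨r, fun x => (t x : Γ), fun x => (t x).2, fun x => h1 x, fun a ha x => h2 ⟨a, ha⟩ x⟩

/-- Equivariant choice of primitives with parameters in a `Γ`-set `Z`.
Proof: let `r, t` be as in `exists_rep_sub P Z`.  For every `z` with `T z` also `T (r z)`
(`r z = (t z)⁻¹ • z`), so choose `b_{r z}`, invariant under `P ⊓ stabilizer (r z)`, with
`F (r z) y = d b_{r z} y` on degree `p` (put `b = 0` if `¬ T`; choose `b` as a function of the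
representative `r z`).  Put `G z y = b (r z) ((t z)⁻¹ • y)`.
Invariance: for `g ∈ P`, `r (g • z) = r z` and `(t (g • z))⁻¹ * g * t z ∈ P ⊓ stabilizer (r z)`.
`F z y = F (t z • r z) (t z • ((t z)⁻¹ • y)) = F (r z) ((t z)⁻¹ • y)`, and `d` commutes with the
action by `bdy_smul`. -/
theorem par_choice {Γ : Type u} [Group Γ] {Y : Type v} [MulAction Γ Y] {Z : Type w} [MulAction Γ Z]
    (S : Sys Γ Y) (P : Subgroup Γ) (T : Z → Prop) (hT : ∀ g ∈ P, ∀ z, T z → T (g • z)) (p : ℕ)
    (F : Z → Y → ZMod 2) (hF : ∀ g ∈ P, ∀ z y, F (g • z) (g • y) = F z y)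
    (h : ∀ z, T z → S.Triv (P ⊓ MulAction.stabilizer Γ z) p (F z)) :
    ∃ G : Z → Y → ZMod 2, (∀ g ∈ P, ∀ z y, G (g • z) (g • y) = G z y) ∧
      ∀ z, T z → ∀ y, S.deg y = p → F z y = S.d (G z) y := by
  obtain ⟨r, t, htP, htr, hr⟩ := exists_rep_sub P Z
  have hb : ∀ z : Z, ∃ b : Y → ZMod 2, Inv (P ⊓ MulAction.stabilizer Γ z) b ∧
      (T z → ∀ y, S.deg y = p → F z y = S.d b y) := by
    intro z
    by_cases hz : T z
    · obtain ⟨b, hb1, hb2⟩ := h z hz
      exact ⟨b, hb1, fun _ => hb2⟩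
    · exact ⟨fun _ => 0, fun _ _ _ => rfl, fun hz' => absurd hz' hz⟩
  choose b hb1 hb2 using hb
  refine ⟨fun z y => b (r z) ((t z)⁻¹ • y), ?_, ?_⟩
  · intro a ha z y
    show b (r (a • z)) ((t (a • z))⁻¹ • (a • y)) = b (r z) ((t z)⁻¹ • y)
    rw [hr a ha z]
    have hk : (t (a • z))⁻¹ * a * t z ∈ P ⊓ MulAction.stabilizer Γ (r z) := by
      refine ⟨P.mul_mem (P.mul_mem (P.inv_mem (htP _)) ha) (htP z), ?_⟩
      show ((t (a • z))⁻¹ * a * t z) • r z = r z
      rw [mul_smul, mul_smul, htr z]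
      have h3 : (t (a • z))⁻¹ • (a • z) = r (a • z) := by
        rw [inv_smul_eq_iff]
        exact (htr (a • z)).symm
      rw [h3, hr a ha z]
    have h4 := hb1 (r z) _ hk ((t z)⁻¹ • y)
    rw [← h4, mul_smul, mul_smul, smul_inv_smul]
  · intro z hz y hy
    have hz' : (t z)⁻¹ • z = r z := by
      rw [inv_smul_eq_iff]
      exact (htr z).symm
    have hTr : T (r z) := by
      rw [← hz']
      exact hT _ (P.inv_mem (htP z)) z hz
    have h5 := hF _ (P.inv_mem (htP z)) z y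
    rw [hz'] at h5
    rw [← h5, hb2 (r z) hTr _ (by rw [S.deg_smul]; exact hy)]
    unfold Sys.d
    rw [S.bdy_smul, Multiset.map_map]
    rfl

end Vale.P067
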