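import Mathlib
import Vale.Agent.Lib.P067.D1.Sys

/-!
# P067, part D1: groups with an invariant `F_2`-valued mean
-/

namespace Vale.P067

open scoped Classical

universe u v w

/-- Locally (finite of odd order) groups are good.
Proof: let `B` be the span in `Γ → ZMod 2` of all `φ - φ (a * ·)`.  The constant function `1` is not
in `B`: otherwise `1 = ∑ (φ_i - φ_i (a_i * ·))` (finite sum); let `F` be a finite subgroup of odd
order containing the `a_i`; sum the equation over `F` (evaluate at the elements of `F`): the right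
side gives `0` and the left side `|F| = 1`.  So there is a linear functional `m` with `m = 0` on `B`
and `m 1 = 1` (for instance `Submodule.exists_dual_map_eq_bot_of_notMem` /
`Submodule.exists_le_ker_of_notMem`, or a linear functional on the quotient by `B`). -/
theorem LocOdd.good {Γ : Type u} [Group Γ] (h : LocOdd Γ) : Good Γ := by
  let B : Submodule (ZMod 2) (Γ → ZMod 2) :=
    Submodule.span (ZMod 2) {ψ | ∃ (a : Γ) (φ : Γ → ZMod 2), ψ = fun x => φ x - φ (a * x)}
  have key : ∀ ψ ∈ B, ∃ s : Finset Γ, ∀ (F : Subgroup Γ) [Fintype F], (s : Set Γ) ⊆ F →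
      ∑ x : F, ψ x = 0 := by
    intro ψ hψ
    induction hψ using Submodule.span_induction with
    | mem ψ hm =>
      obtain ⟨a, φ, rfl⟩ := hm
      refine ⟨{a}, fun F _ hF => ?_⟩
      have ha : a ∈ F := hF (by simp)
      rw [Finset.sum_sub_distrib]
      have e := Equiv.sum_comp (Equiv.mulLeft (⟨a, ha⟩ : F)) (fun x : F => φ x)
      have e' : ∑ x : F, φ (a * x) = ∑ x : F, φ x := e
      rw [e', sub_self]
    | zero => exact ⟨∅, fun F _ _ => by simp⟩
    | add ψ₁ ψ₂ _ _ h1 h2 =>
      obtain ⟨s1, h1⟩ := h1
      obtain ⟨s2, h2⟩ := h2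
      refine ⟨s1 ∪ s2, fun F _ hF => ?_⟩
      rw [Finset.coe_union, Set.union_subset_iff] at hF
      simp only [Pi.add_apply]
      rw [Finset.sum_add_distrib, h1 F hF.1, h2 F hF.2, add_zero]
    | smul c ψ _ h1 =>
      obtain ⟨s1, h1⟩ := h1
      refine ⟨s1, fun F _ hF => ?_⟩
      simp only [Pi.smul_apply]
      rw [← Finset.smul_sum, h1 F hF, smul_zero]
  have h1 : (fun _ => 1 : Γ → ZMod 2) ∉ B := by
    intro hB
    obtain ⟨s, hs⟩ := key _ hB
    obtain ⟨F, hF, hfin, hodd⟩ := h s
    have := Fintype.ofFinite F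
    have h2 := hs F hF
    rw [Finset.sum_const, Finset.card_univ, nsmul_eq_mul, mul_one,
      ZMod.natCast_eq_zero_iff_even, ← Nat.card_eq_fintype_card] at h2
    exact (Nat.not_even_iff_odd.mpr hodd) h2
  obtain ⟨m, hm, hm'⟩ := Submodule.exists_dual_map_eq_bot_of_notMem h1 inferInstance
  refine ⟨m, ?_, fun a φ => ?_⟩
  · generalize m (fun _ => 1) = z at hm
    revert z
    decide
  · have h2 : (fun x => φ x - φ (a * x)) ∈ B := Submodule.subset_span ⟨a, φ, rfl⟩
    have h3 : m (fun x => φ x - φ (a * x)) ∈ B.map m := Submodule.mem_map_of_mem h2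
    rw [hm', Submodule.mem_bot] at h3
    have h4 : m φ - m (fun x => φ (a * x)) = 0 := by
      rw [← map_sub]
      exact h3
    exact (sub_eq_zero.mp h4).symm

theorem locOdd_of_finite {Γ : Type u} [Group Γ] [Finite Γ] (h : Odd (Nat.card Γ)) : LocOdd Γ := by
  intro s
  refine ⟨⊤, by simp, inferInstance, ?_⟩
  rw [Subgroup.card_top]
  exact h

/-- a commutative group of odd exponent is locally finite of odd order
(the subgroup generated by a finite set is finitely generated abelian of exponent `p`: finite, and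
its cardinality is odd, because an element of order two would give `p` even, Cauchy). -/
theorem locOdd_of_exp {A : Type u} [CommGroup A] (p : ℕ) (hp : Odd p) (h : ∀ a : A, a ^ p = 1) :
    LocOdd A := by
  intro s
  have hp0 : 0 < p := hp.pos
  have htor : IsMulTorsion (Subgroup.closure (s : Set A)) := by
    intro x
    rw [isOfFinOrder_iff_pow_eq_one]
    exact ⟨p, hp0, Subtype.ext (h x)⟩
  have hfin : Finite (Subgroup.closure (s : Set A)) := CommGroup.finite_of_fg_isMulTorsion _ htor
  refine ⟨Subgroup.closure (s : Set A), Subgroup.subset_closure, hfin, ?_⟩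
  by_contra hodd
  rw [Nat.not_odd_iff_even] at hodd
  obtain ⟨x, hx⟩ := exists_prime_orderOf_dvd_card' (G := Subgroup.closure (s : Set A)) 2
    hodd.two_dvd
  have h1 : orderOf x ∣ p := orderOf_dvd_of_pow_eq_one (Subtype.ext (h x))
  rw [hx] at h1
  exact (Nat.not_even_iff_odd.mpr hp) (even_iff_two_dvd.mpr h1)

/-- Goodness passes to subgroups.  Proof: `G` acts freely on `H` by `g • x = f g * x`; with orbit
representatives there is `c : H → G` with `c (f a * x) = a * c x`; put `m_G φ = m_H (φ ∘ c)`. -/
theorem Good.of_injective {G : Type u} {H : Type v} [Group G] [Group H] (f : G →* H)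
    (hf : Function.Injective f) (h : Good H) : Good G := by
  obtain ⟨m, hm1, hm2⟩ := h
  let r : H → H := fun x => Quotient.out (Quotient.mk (QuotientGroup.rightRel f.range) x)
  have hr : ∀ x, ∃ a : G, f a * r x = x := by
    intro x
    have h1 : (QuotientGroup.rightRel f.range) (r x) x := Quotient.exact (Quotient.out_eq _)
    rw [QuotientGroup.rightRel_apply] at h1
    obtain ⟨a, ha⟩ := h1
    refine ⟨a, ?_⟩
    rw [ha, inv_mul_cancel_right]
  have hrr : ∀ (a : G) (x : H), r (f a * x) = r x := by
    intro a x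
    have h1 : Quotient.mk (QuotientGroup.rightRel f.range) (f a * x) =
        Quotient.mk (QuotientGroup.rightRel f.range) x := by
      refine Quotient.sound ?_
      show (QuotientGroup.rightRel f.range) (f a * x) x
      rw [QuotientGroup.rightRel_apply]
      refine ⟨a⁻¹, ?_⟩
      rw [map_inv, mul_inv_rev, mul_inv_cancel_left]
    show Quotient.out _ = Quotient.out _
    rw [h1]
  choose c hc using hr
  have hcc : ∀ (a : G) (x : H), c (f a * x) = a * c x := by
    intro a x
    apply hf
    have h1 := hc (f a * x)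
    rw [hrr] at h1
    have h2 : f (c (f a * x)) * r x = f (a * c x) * r x := by
      rw [h1, map_mul, mul_assoc, hc]
    exact mul_right_cancel h2
  refine ⟨m.comp (LinearMap.funLeft (ZMod 2) (ZMod 2) c), hm1, fun a φ => ?_⟩
  have h1 := hm2 (f a) (fun x => φ (c x))
  have h2 : (fun x => φ (c (f a * x))) = fun x => φ (a * c x) := by
    funext x
    rw [hcc]
  rw [h2] at h1
  exact h1

theorem Good.of_le {Γ : Type u} [Group Γ] {P Q : Subgroup Γ} (h : P ≤ Q) (hQ : Good Q) : Good P :=
  Good.of_injective (Subgroup.inclusion h) (Subgroup.inclusion_injective h) hQ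

theorem d1_map_msum {A : Type u} {Y : Type v} (m : (A → ZMod 2) →ₗ[ZMod 2] ZMod 2)
    (t : Multiset Y) (F : Y → A → ZMod 2) :
    (t.map fun y => m (F y)).sum = m fun a => (t.map fun y => F y a).sum := by
  induction t using Multiset.induction_on with
  | empty =>
    simp only [Multiset.map_zero, Multiset.sum_zero]
    exact (map_zero m).symm
  | cons y t ih =>
    simp only [Multiset.map_cons, Multiset.sum_cons]
    rw [ih, ← map_add]
    rfl

theorem d1_map_const {A : Type u} (m : (A → ZMod 2) →ₗ[ZMod 2] ZMod 2)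
    (h1 : m (fun _ => 1) = 1) (c : ZMod 2) : m (fun _ => c) = c := by
  have h2 : (fun _ => c : A → ZMod 2) = c • (fun _ => 1) := by
    funext x
    simp
  rw [h2, map_smul, h1, smul_eq_mul, mul_one]

/-- For a good subgroup `P` the complex of `P`-invariant cochains on the tuples of a nonempty
`Γ`-set is exact everywhere.
Proof: `z0 : E`, `b l = m (fun a : P => f ((a • z0) :: l))`; for `l` of length `p`, `S.d b l` is
`m` of `∑_{l' ∈ tbd l} f ((a • z0) :: l') = (S.d f) ((a • z0) :: l) + f l = f l` (constant in `a`) and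
`m (fun _ => c) = c`.  Invariance: `b (g • l) = m (a ↦ f (g • ((g⁻¹ * a) • z0 :: l)))
= m (a ↦ f ((g⁻¹ * a) • z0 :: l)) = b l`. -/
theorem good_ex {Γ : Type u} [Group Γ] {E : Type v} [MulAction Γ E] [Nonempty E] (P : Subgroup Γ)
    (h : Good P) (p : ℕ) : (tup Γ E).Ex P p := by
  obtain ⟨m, hm1, hm2⟩ := h
  intro f hf hd
  let z0 : E := Classical.arbitrary E
  refine ⟨fun l => m (fun a : P => f (((a : Γ) • z0) :: l)), ?_, ?_⟩
  · intro g hg l
    have h1 := hm2 ⟨g, hg⟩ (fun a : P => f (((a : Γ) • z0) :: (g • l)))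
    refine h1.symm.trans ?_
    congr 1
    funext a
    have h2 : ((((⟨g, hg⟩ : P) * a : P) : Γ) • z0) :: (g • l) = g • (((a : Γ) • z0) :: l) := by
      rw [list_smul_cons, Subgroup.coe_mul, mul_smul]
    rw [h2]
    exact hf g hg _
  · intro l hl
    show f l = ((tbd l).map (fun l' => m (fun a : P => f (((a : Γ) • z0) :: l')))).sum
    rw [d1_map_msum]
    have h3 : ∀ a : P, ((tbd l).map fun l' => f (((a : Γ) • z0) :: l')).sum = f l := by
      intro a
      have h4 : (tup Γ E).d f (((a : Γ) • z0) :: l) = 0 := hd _ (by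
        show (((a : Γ) • z0) :: l).length = p + 1
        rw [List.length_cons]
        exact congrArg (· + 1) hl)
      have h5 : f l + ((tbd l).map fun l' => f (((a : Γ) • z0) :: l')).sum = 0 := by
        have h6 : (tup Γ E).d f (((a : Γ) • z0) :: l) =
            ((tbd (((a : Γ) • z0) :: l)).map f).sum := rfl
        rw [h6, tbd_cons, Multiset.map_cons, Multiset.sum_cons, Multiset.map_map] at h4
        exact h4
      have h7 := eq_neg_of_add_eq_zero_right h5
      rw [h7, CharTwo.neg_eq]
    simp only [h3]
    exact (d1_map_const m hm1 (f l)).symm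

end Vale.P067
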