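import Mathlib
import Vale.Agent.Lib.P067.D1.Sys
import Vale.Agent.Lib.P067.D1.Choice

/-!
# P067, part D1: the zigzag lemma
-/

namespace Vale.P067

open scoped Classical

universe u v w

section

variable {Γ : Type u} [Group Γ] {Y : Type v} [MulAction Γ Y] {Z : Type w} [MulAction Γ Z]

/-- the coboundary commutes with the action -/
theorem Sys.d_smul (S : Sys Γ Y) (f : Y → ZMod 2) (g : Γ) (y : Y) :
    S.d f (g • y) = S.d (fun y' => f (g • y')) y := by
  unfold Sys.d
  rw [S.bdy_smul, Multiset.map_map]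
  rfl

/-- the coboundary of an invariant cochain is invariant -/
theorem Inv.d (S : Sys Γ Y) {P : Subgroup Γ} {f : Y → ZMod 2} (h : Inv P f) : Inv P (S.d f) := by
  intro g hg y
  rw [S.d_smul]
  congr 1
  funext y'
  exact h g hg y' 

theorem Sys.d_d (S : Sys Γ Y) (f : Y → ZMod 2) (y : Y) : S.d (S.d f) y = 0 := S.bdd f y

theorem Sys.d_add (S : Sys Γ Y) (f f' : Y → ZMod 2) (y : Y) :
    S.d (fun y' => f y' + f' y') y = S.d f y + S.d f' y := by
  unfold Sys.d
  exact Multiset.sum_map_add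

theorem Sys.d_zero_deg (S : Sys Γ Y) (f : Y → ZMod 2) (y : Y) (h : S.deg y = 0) : S.d f y = 0 := by
  have h0 : S.bdy y = 0 := by
    refine Multiset.eq_zero_of_forall_notMem fun y' hy' => ?_
    have := S.deg_bdy y y' hy'
    omega
  unfold Sys.d
  rw [h0]
  rfl

/-- `d f y` for `deg y = p + 1` depends only on the values of `f` in degree `p` -/
theorem Sys.d_congr (S : Sys Γ Y) {f f' : Y → ZMod 2} {p : ℕ} (h : ∀ y, S.deg y = p → f y = f' y)
    (y : Y) (hy : S.deg y = p + 1) : S.d f y = S.d f' y := by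
  unfold Sys.d
  refine congrArg Multiset.sum (Multiset.map_congr rfl fun y' hy' => h y' ?_)
  have := S.deg_bdy y y' hy'
  omega

theorem d1_d_zero (S : Sys Γ Y) (y : Y) : S.d (fun _ => 0) y = 0 := by
  unfold Sys.d
  exact Multiset.sum_map_zero

theorem d1_d_eq_zero (S : Sys Γ Y) {f : Y → ZMod 2} {p : ℕ} (h : ∀ y, S.deg y = p → f y = 0)
    (y : Y) (hy : S.deg y = p + 1) : S.d f y = 0 := by
  rw [S.d_congr (f' := fun _ => 0) h y hy]
  exact d1_d_zero S y

theorem d1_d_one (S : Sys Γ Y) (f : Y → ZMod 2) (y : Y) (hy : S.deg y = 1) :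
    S.d f y = f S.pt := by
  unfold Sys.d
  rw [S.bdy_one y hy]
  simp

theorem d1_smul_pt (S : Sys Γ Y) (g : Γ) : g • S.pt = S.pt := by
  refine S.eq_pt _ ?_
  rw [S.deg_smul]
  exact S.deg_pt

/-- the two coboundaries of a double cochain commute -/
theorem Sys.d_comm (SY : Sys Γ Y) (SZ : Sys Γ Z) (F : Y → Z → ZMod 2) (y : Y) (z : Z) :
    SY.d (fun y' => SZ.d (F y') z) y = SZ.d (fun z' => SY.d (fun y' => F y' z') y) z := by
  unfold Sys.d
  exact Multiset.sum_map_sum_map _ _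

/-- invariance of the coboundary in the first variable -/
theorem d1_inv_dY (SY : Sys Γ Y) (P : Subgroup Γ) (ψ : Y → Z → ZMod 2)
    (hψ : ∀ g ∈ P, ∀ y z, ψ (g • y) (g • z) = ψ y z) :
    ∀ g ∈ P, ∀ y z, SY.d (fun y' => ψ y' (g • z)) (g • y) = SY.d (fun y' => ψ y' z) y := by
  intro g hg y z
  rw [SY.d_smul]
  congr 1
  funext y'
  exact hψ g hg y' z

/-- invariance of the coboundary in the second variable -/
theorem d1_inv_dZ (SZ : Sys Γ Z) (P : Subgroup Γ) (ψ : Y → Z → ZMod 2)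
    (hψ : ∀ g ∈ P, ∀ y z, ψ (g • y) (g • z) = ψ y z) :
    ∀ g ∈ P, ∀ y z, SZ.d (ψ (g • y)) (g • z) = SZ.d (ψ y) z := by
  intro g hg y z
  rw [SZ.d_smul]
  congr 1
  funext z'
  exact hψ g hg y z' 

/-- Main induction of the zigzag (induction on `b`).
Write `dY F y z = SY.d (fun y' => F y' z) y`, `dZ F y z = SZ.d (F y) z`; they commute (`d_comm`).
Claim: for an invariant double cochain `ψ` with `dY dZ ψ = 0` in bidegree `(a+1, b+1)` there is an
invariant `χ` with `dZ (ψ + dY χ) = 0` in bidegree `(a, b+1)`.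
* `b = 0`: `dZ (dY ψ) = 0` in bidegree `(i+2, 1)`; `SZ.Ex _ 0` for the cells `y` of degree `i+2` gives
  `dY ψ y z = SZ.d _ z = 0` for `deg y = i+2`, `deg z = 0`; then `par_choice` for `SY` (parameters `z`,
  `deg z = 0`, using `hY (i+1) 0`) gives `χ` with `ψ = dY χ` in bidegree `(i+1, 0)`.  In bidegree
  `(i+1, 1)`: `dZ (ψ + dY χ) = 0` by `d_congr`.
* `b + 1`: `dZ (dY ψ) = 0` in bidegree `(a+1, b+2)`; by `hZ (a+1) (b+1)` and `par_choice` for `SZ`
  (parameters `y`) `dY ψ = dZ ψ'` in bidegree `(a+1, b+1)`.  Then `dY dZ ψ' = dY dY ψ = 0` in bidegree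
  `(a+2, b+1)`.  Induction: `χ'` with `dZ (ψ' + dY χ') = 0` in bidegree `(a+1, b+1)`.  So
  `dY (ψ + dZ χ') = 0` in bidegree `(a+1, b+1)`; by `hY a (b+1)` and `par_choice` for `SY`
  `ψ + dZ χ' = dY χ` in bidegree `(a, b+1)`.  Then `dZ (ψ + dY χ) = dZ dZ χ' = 0` in bidegree
  `(a, b+2)` (characteristic two). -/
theorem zig_main (SY : Sys Γ Y) (SZ : Sys Γ Z) (P : Subgroup Γ) (i : ℕ)
    (hY : ∀ p q, p + q = i + 1 → 1 ≤ p → ∀ z, SZ.deg z = q →
      SY.Ex (P ⊓ MulAction.stabilizer Γ z) p)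
    (hZ : ∀ p q, p + q = i + 2 → 2 ≤ p → ∀ y, SY.deg y = p →
      SZ.Ex (P ⊓ MulAction.stabilizer Γ y) q) :
    ∀ b a, a + b = i + 1 → 1 ≤ a → ∀ ψ : Y → Z → ZMod 2,
      (∀ g ∈ P, ∀ y z, ψ (g • y) (g • z) = ψ y z) →
      (∀ y z, SY.deg y = a + 1 → SZ.deg z = b + 1 → SY.d (fun y' => SZ.d (ψ y') z) y = 0) →
      ∃ χ : Y → Z → ZMod 2, (∀ g ∈ P, ∀ y z, χ (g • y) (g • z) = χ y z) ∧
        ∀ y z, SY.deg y = a → SZ.deg z = b + 1 →
          SZ.d (fun z' => ψ y z' + SY.d (fun y' => χ y' z') y) z = 0 := by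
  intro b
  induction b with
  | zero =>
    intro a hab _ha ψ hψ hcl
    have ha' : a = i + 1 := by omega
    subst ha'
    have hΦ := d1_inv_dY SY P ψ hψ
    have hz0 : ∀ y z, SY.deg y = i + 1 + 1 → SZ.deg z = 0 → SY.d (fun y' => ψ y' z) y = 0 := by
      intro y z hy hz
      obtain ⟨b, _, hb⟩ := hZ (i + 2) 0 (by omega) (by omega) y hy
        (fun z' => SY.d (fun y' => ψ y' z') y)
        (by
          intro g hg z'
          have h1 := hΦ g hg.1 y z'
          have h2 : g • y = y := hg.2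
          rw [h2] at h1
          exact h1)
        (by
          intro z' hz'
          have h1 := hcl y z' hy (by omega)
          rw [Sys.d_comm] at h1
          exact h1)
      have h3 := hb z hz
      rw [SZ.d_zero_deg b z hz] at h3
      exact h3
    obtain ⟨G, hG1, hG2⟩ := par_choice SY P (fun z => SZ.deg z = 0)
      (fun g _ z hz => by
        show SZ.deg (g • z) = 0
        rw [SZ.deg_smul]
        exact hz) (i + 1) (fun z y => ψ y z)
      (fun g hg z y => hψ g hg y z)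
      (by
        intro z hz
        refine hY (i + 1) 0 (by omega) (by omega) z hz (fun y => ψ y z) ?_ ?_
        · intro g hg y
          have h1 := hψ g hg.1 y z
          have h2 : g • z = z := hg.2
          rw [h2] at h1
          exact h1
        · intro y hy
          exact hz0 y z hy hz)
    refine ⟨fun y z => G z y, fun g hg y z => hG1 g hg z y, ?_⟩
    intro y z hy hz
    refine d1_d_eq_zero SZ (p := 0) ?_ z (by omega)
    intro z' hz'
    have h1 := hG2 z' hz' y hy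
    have h2 : ψ y z' = SY.d (fun y' => G z' y') y := h1
    rw [← h2]
    exact CharTwo.add_self_eq_zero _
  | succ b ih =>
    intro a hab ha ψ hψ hcl
    have hΦ := d1_inv_dY SY P ψ hψ
    obtain ⟨ψ', hψ'1, hψ'2⟩ := par_choice SZ P (fun y => SY.deg y = a + 1)
      (fun g _ y hy => by
        show SY.deg (g • y) = a + 1
        rw [SY.deg_smul]
        exact hy) (b + 1) (fun y z => SY.d (fun y' => ψ y' z) y)
      (fun g hg y z => hΦ g hg y z)
      (by
        intro y hy
        refine hZ (a + 1) (b + 1) (by omega) (by omega) y hy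
          (fun z => SY.d (fun y' => ψ y' z) y) ?_ ?_
        · intro g hg z
          have h1 := hΦ g hg.1 y z
          have h2 : g • y = y := hg.2
          rw [h2] at h1
          exact h1
        · intro z hz
          have h1 := hcl y z hy (by omega)
          rw [Sys.d_comm] at h1
          exact h1)
    obtain ⟨χ', hχ'1, hχ'2⟩ := ih (a + 1) (by omega) (by omega) ψ' hψ'1 (by
      intro y z hy hz
      have h1 : SY.d (fun y' => SZ.d (ψ' y') z) y =
          SY.d (SY.d (fun y'' => ψ y'' z)) y :=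
        SY.d_congr (p := a + 1) (fun y' hy' => (hψ'2 y' hy' z hz).symm) y hy
      rw [h1]
      exact SY.d_d _ y)
    have hdχ := d1_inv_dZ SZ P χ' hχ'1
    have hΘ : ∀ g ∈ P, ∀ y z, ψ (g • y) (g • z) + SZ.d (χ' (g • y)) (g • z) =
        ψ y z + SZ.d (χ' y) z := by
      intro g hg y z
      rw [hψ g hg y z, hdχ g hg y z]
    have hΘ0 : ∀ y z, SY.deg y = a + 1 → SZ.deg z = b + 1 →
        SY.d (fun y' => ψ y' z + SZ.d (χ' y') z) y = 0 := by
      intro y z hy hz
      have h1 := hχ'2 y z hy hz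
      rw [SZ.d_add (ψ' y) (fun z' => SY.d (fun y' => χ' y' z') y) z] at h1
      have h2 := hψ'2 y hy z hz
      have h2' : SY.d (fun y' => ψ y' z) y = SZ.d (ψ' y) z := h2
      rw [← h2', ← Sys.d_comm SY SZ χ' y z] at h1
      rw [SY.d_add (fun y' => ψ y' z) (fun y' => SZ.d (χ' y') z) y]
      exact h1
    obtain ⟨G, hG1, hG2⟩ := par_choice SY P (fun z => SZ.deg z = b + 1)
      (fun g _ z hz => by
        show SZ.deg (g • z) = b + 1
        rw [SZ.deg_smul]
        exact hz) a (fun z y => ψ y z + SZ.d (χ' y) z)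
      (fun g hg z y => hΘ g hg y z)
      (by
        intro z hz
        refine hY a (b + 1) (by omega) ha z hz (fun y => ψ y z + SZ.d (χ' y) z) ?_ ?_
        · intro g hg y
          have h1 := hΘ g hg.1 y z
          have h2 : g • z = z := hg.2
          rw [h2] at h1
          exact h1
        · intro y hy
          exact hΘ0 y z hy hz)
    refine ⟨fun y z => G z y, fun g hg y z => hG1 g hg z y, ?_⟩
    intro y z hy hz
    have h1 : SZ.d (fun z' => ψ y z' + SY.d (fun y' => G z' y') y) z =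
        SZ.d (SZ.d (χ' y)) z := by
      refine SZ.d_congr (p := b + 1) (fun z' hz' => ?_) z (by omega)
      have h2 : ψ y z' + SZ.d (χ' y) z' = SY.d (fun y' => G z' y') y := hG2 z' hz' y hy
      rw [← h2, ← add_assoc, CharTwo.add_self_eq_zero, zero_add]
    show SZ.d (fun z' => ψ y z' + SY.d (fun y' => G z' y') y) z = 0
    rw [h1]
    exact SZ.d_d _ z

/-- Injectivity form: an invariant cochain `f` on the cells of degree `i+1` of `SZ` which is a
coboundary for the stabilizers of all vertices of `SY` is a coboundary for `P`.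
Proof: `par_choice` (for `SZ`, parameters `y` with `deg y = 1`, `F y z = f z`) gives an invariant `Ψ`
with `f z = dZ Ψ y z` for `deg y = 1`, `deg z = i+1`.  `dY dZ Ψ = 0` in bidegree `(2, i+1)` : it is
the sum of `f z` over the faces `y'` of `y`, which is `SY.d (SY.d (fun _ => f z)) y = 0`
(for `deg y' = 1`: `SY.d (fun _ => c) y' = c` by `bdy_one`).  `zig_main` with `b = i`, `a = 1` gives `χ`;
put `b z = χ pt z` (`g • pt = pt` by `eq_pt`).  For `deg y = 1` (there is such a `y`), `SY.d (χ · z') y = χ pt z'`. -/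
theorem zig_inj (SY : Sys Γ Y) (SZ : Sys Γ Z) (P : Subgroup Γ) (i : ℕ) (hne : ∃ y, SY.deg y = 1)
    (hY : ∀ p q, p + q = i + 1 → 1 ≤ p → ∀ z, SZ.deg z = q →
      SY.Ex (P ⊓ MulAction.stabilizer Γ z) p)
    (hZ : ∀ p q, p + q = i + 2 → 2 ≤ p → ∀ y, SY.deg y = p →
      SZ.Ex (P ⊓ MulAction.stabilizer Γ y) q)
    (f : Z → ZMod 2) (hf : Inv P f)
    (hy : ∀ y, SY.deg y = 1 → SZ.Triv (P ⊓ MulAction.stabilizer Γ y) (i + 1) f) :
    SZ.Triv P (i + 1) f := by
  obtain ⟨Ψ, hΨ1, hΨ2⟩ := par_choice SZ P (fun y => SY.deg y = 1)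
    (fun g _ y h1 => by
      show SY.deg (g • y) = 1
      rw [SY.deg_smul]
      exact h1) (i + 1) (fun _ z => f z)
    (fun g hg _ z => hf g hg z) (fun y h1 => hy y h1)
  obtain ⟨χ, hχ1, hχ2⟩ := zig_main SY SZ P i hY hZ i 1 (by omega) le_rfl Ψ hΨ1 (by
    intro y z hy2 hz
    have h1 : SY.d (fun y' => SZ.d (Ψ y') z) y = SY.d (SY.d (fun _ => f z)) y := by
      refine SY.d_congr (p := 1) (fun y' hy' => ?_) y hy2
      rw [d1_d_one SY _ y' hy']
      exact (hΨ2 y' hy' z hz).symm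
    rw [h1]
    exact SY.d_d _ y)
  obtain ⟨y0, hy0⟩ := hne
  refine ⟨χ SY.pt, ?_, ?_⟩
  · intro g hg z
    have h1 := hχ1 g hg SY.pt z
    rw [d1_smul_pt] at h1
    exact h1
  · intro z hz
    have h1 := hχ2 y0 z hy0 hz
    have h2 : SZ.d (fun z' => Ψ y0 z' + χ SY.pt z') z = 0 := by
      rw [← h1]
      congr 1
      funext z'
      rw [d1_d_one SY _ y0 hy0]
    rw [SZ.d_add (Ψ y0) (χ SY.pt) z] at h2
    have h3 : f z = SZ.d (Ψ y0) z := hΨ2 y0 hy0 z hz
    rw [h3]
    exact CharTwo.add_eq_zero.1 h2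

/-- Exactness form: apply `zig_inj`; the hypothesis `hy` follows from `hZ 1 (i+1)` (`f` is also
invariant under the smaller group). -/
theorem zig_ex (SY : Sys Γ Y) (SZ : Sys Γ Z) (P : Subgroup Γ) (i : ℕ) (hne : ∃ y, SY.deg y = 1)
    (hY : ∀ p q, p + q = i + 1 → 1 ≤ p → ∀ z, SZ.deg z = q →
      SY.Ex (P ⊓ MulAction.stabilizer Γ z) p)
    (hZ : ∀ p q, p + q = i + 2 → 1 ≤ p → ∀ y, SY.deg y = p →
      SZ.Ex (P ⊓ MulAction.stabilizer Γ y) q) : SZ.Ex P (i + 1) := by
  intro f hf hcl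
  refine zig_inj SY SZ P i hne hY (fun p q hpq hp => hZ p q hpq (by omega)) f hf ?_
  intro y hy
  exact hZ 1 (i + 1) (by omega) le_rfl y hy f (fun g hg z => hf g hg.1 z) hcl

end

end Vale.P067
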