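import Mathlib
import Vale.Agent.Lib.P067.D1.Sys
import Vale.Agent.Lib.P067.D1.Choice
import Vale.Agent.Lib.P067.D1.Zig
import Vale.Agent.Lib.P067.D1.GoodA

/-!
# P067, part D1: comparison of the cohomologies computed with two sets
-/

namespace Vale.P067

open scoped Classical

universe u v w

section

variable {Γ : Type u} [Group Γ] {E : Type v} [MulAction Γ E] {Z : Type w} [MulAction Γ Z]

theorem d1_stab_cons_le (P : Subgroup Γ) (x : E) (l : List E) :
    P ⊓ MulAction.stabilizer Γ (x :: l) ≤ P ⊓ MulAction.stabilizer Γ x := by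
  refine inf_le_inf le_rfl ?_
  intro g hg
  rw [MulAction.mem_stabilizer_iff, list_smul_cons] at hg
  exact MulAction.mem_stabilizer_iff.2 (List.cons.inj hg).1

theorem d1_stab_nil (P : Subgroup Γ) : P ⊓ MulAction.stabilizer Γ ([] : List E) = P := by
  refine inf_eq_left.2 ?_
  intro g _
  exact MulAction.mem_stabilizer_iff.2 (list_smul_nil g)

/-- Comparison: two nonempty sets with good stabilizers compute the same cohomology.
Proof: `zig_ex` with `SY = tup Γ E`, `SZ = tup Γ Z`.  `hY p q` : for `q ≥ 1` the stabilizer of a tuple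
`z :: l` is contained in that of `z`, so it is good (`Good.of_le`) and `good_ex` applies; for `q = 0`
the tuple is `[]`, its stabilizer is everything, `P ⊓ ⊤ = P`, and it is the hypothesis.
`hZ p q`, `p ≥ 1`: good stabilizer again. -/
theorem cmp (P : Subgroup Γ) [Nonempty E] [Nonempty Z]
    (hE : ∀ e : E, Good ↥(P ⊓ MulAction.stabilizer Γ e))
    (hZ : ∀ z : Z, Good ↥(P ⊓ MulAction.stabilizer Γ z)) (i : ℕ)
    (h : (tup Γ E).Ex P (i + 1)) : (tup Γ Z).Ex P (i + 1) := by
  refine zig_ex (tup Γ E) (tup Γ Z) P i ?_ ?_ ?_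
  · obtain ⟨e⟩ := ‹Nonempty E›
    exact ⟨[e], rfl⟩
  · intro p q hpq _ z hz
    cases z with
    | nil =>
      have hq : q = 0 := hz.symm
      subst hq
      rw [d1_stab_nil]
      have hp : p = i + 1 := by omega
      rw [hp]
      exact h
    | cons x l => exact good_ex _ (Good.of_le (d1_stab_cons_le P x l) (hZ x)) p
  · intro p q _ hp y hy
    cases y with
    | nil =>
      have hp0 : p = 0 := hy.symm
      omega
    | cons x l => exact good_ex _ (Good.of_le (d1_stab_cons_le P x l) (hE x)) q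

/-- the trivial group is good, so free actions have good stabilizers -/
theorem good_of_free (P : Subgroup Γ) (hfree : ∀ (g : Γ) (x : E), g • x = x → g = 1) (e : E) :
    Good ↥(P ⊓ MulAction.stabilizer Γ e) := by
  have hsub : Subsingleton ↥(P ⊓ MulAction.stabilizer Γ e) := by
    refine ⟨fun a b => ?_⟩
    have ha : (a : Γ) = 1 := hfree a e (MulAction.mem_stabilizer_iff.1 a.2.2)
    have hb : (b : Γ) = 1 := hfree b e (MulAction.mem_stabilizer_iff.1 b.2.2)
    exact Subtype.ext (ha.trans hb.symm)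
  refine LocOdd.good (locOdd_of_finite ?_)
  have h1 : Nat.card ↥(P ⊓ MulAction.stabilizer Γ e) = 1 := Nat.card_unique
  rw [h1]
  exact odd_one

/-- Exactness only depends on the image of the group. -/
theorem ex_of_hom {Γ' : Type w} [Group Γ'] [MulAction Γ' E] (ρ : Γ' →* Γ)
    (hρ : ∀ (g : Γ') (e : E), g • e = ρ g • e) (P' : Subgroup Γ') (P : Subgroup Γ)
    (h : P'.map ρ = P) (p : ℕ) : (tup Γ' E).Ex P' p ↔ (tup Γ E).Ex P p := by
  have hl : ∀ (g : Γ') (l : List E), g • l = ρ g • l := by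
    intro g l
    rw [list_smul, list_smul]
    exact List.map_congr_left fun x _ => hρ g x
  have hinv : ∀ f : List E → ZMod 2, Inv P' f ↔ Inv P f := by
    intro f
    constructor
    · intro hf g hg y
      rw [← h] at hg
      obtain ⟨g', hg', rfl⟩ := Subgroup.mem_map.1 hg
      rw [← hl]
      exact hf g' hg' y
    · intro hf g hg y
      rw [hl]
      exact hf (ρ g) (h ▸ Subgroup.mem_map_of_mem ρ hg) y
  constructor
  · intro hex f hf hd
    obtain ⟨b, hb, hb'⟩ := hex f ((hinv f).2 hf) hd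
    exact ⟨b, (hinv b).1 hb, hb'⟩
  · intro hex f hf hd
    obtain ⟨b, hb, hb'⟩ := hex f ((hinv f).1 hf) hd
    exact ⟨b, (hinv b).2 hb, hb'⟩

/-- conjugation: `f ↦ f (g • ·)` -/
theorem ex_conj (S : Sys Γ E) (g : Γ) (P : Subgroup Γ) (p : ℕ) (h : S.Ex P p) :
    S.Ex (P.map (MulAut.conj g).toMonoidHom) p := by
  intro f hf hd
  have hf' : Inv P (fun y => f (g • y)) := by
    intro a ha y
    have h1 := hf _ (Subgroup.mem_map_of_mem (MulAut.conj g).toMonoidHom ha) (g • y)
    simp only [MulEquiv.toMonoidHom_eq_coe, MonoidHom.coe_coe, MulAut.conj_apply, smul_smul,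
      inv_mul_cancel_right] at h1
    simp only [smul_smul]
    exact h1
  obtain ⟨b, hb, hb'⟩ := h _ hf' (fun y hy => by
    rw [← Sys.d_smul]
    exact hd _ (by rw [S.deg_smul]; exact hy))
  refine ⟨fun y => b (g⁻¹ • y), ?_, ?_⟩
  · intro a ha y
    obtain ⟨c, hc, rfl⟩ := Subgroup.mem_map.1 ha
    have h1 := hb c hc (g⁻¹ • y)
    simp only [MulEquiv.toMonoidHom_eq_coe, MonoidHom.coe_coe, MulAut.conj_apply, smul_smul] at h1 ⊢
    rw [← h1]
    congr 2
    group
  · intro y hy
    have h1 := hb' (g⁻¹ • y) (by rw [S.deg_smul]; exact hy)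
    rw [smul_inv_smul] at h1
    rw [h1]
    exact Sys.d_smul S b g⁻¹ y

theorem triv_conj (S : Sys Γ E) (g : Γ) (P : Subgroup Γ) (p : ℕ) (f : E → ZMod 2)
    (h : S.Triv P p f) : S.Triv (P.map (MulAut.conj g).toMonoidHom) p (fun y => f (g⁻¹ • y)) := by
  obtain ⟨b, hb, hb'⟩ := h
  refine ⟨fun y => b (g⁻¹ • y), ?_, ?_⟩
  · intro a ha y
    obtain ⟨c, hc, rfl⟩ := Subgroup.mem_map.1 ha
    have h1 := hb c hc (g⁻¹ • y)
    simp only [MulEquiv.toMonoidHom_eq_coe, MonoidHom.coe_coe, MulAut.conj_apply, smul_smul] at h1 ⊢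
    rw [← h1]
    congr 2
    group
  · intro y hy
    have h1 := hb' (g⁻¹ • y) (by rw [S.deg_smul]; exact hy)
    exact h1.trans (Sys.d_smul S b g⁻¹ y)

theorem Sys.Triv.add {S : Sys Γ E} {P : Subgroup Γ} {p : ℕ} {f f' : E → ZMod 2}
    (h : S.Triv P p f) (h' : S.Triv P p f') : S.Triv P p (fun y => f y + f' y) := by
  obtain ⟨b, hb, hb'⟩ := h
  obtain ⟨c, hc, hc'⟩ := h'
  refine ⟨fun y => b y + c y, fun g hg y => ?_, fun y hy => ?_⟩
  · change b (g • y) + c (g • y) = b y + c y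
    rw [hb g hg, hc g hg]
  · change f y + f' y = S.d (fun y' => b y' + c y') y
    rw [Sys.d_add, hb' y hy, hc' y hy]

theorem Sys.Triv.mono {S : Sys Γ E} {P Q : Subgroup Γ} (hQ : Q ≤ P) {p : ℕ} {f : E → ZMod 2}
    (h : S.Triv P p f) : S.Triv Q p f := by
  obtain ⟨b, hb, hb'⟩ := h
  exact ⟨b, fun g hg y => hb g (hQ hg) y, hb'⟩

theorem Sys.Triv.congr {S : Sys Γ E} {P : Subgroup Γ} {p : ℕ} {f f' : E → ZMod 2}
    (h : S.Triv P p f) (hff : ∀ y, S.deg y = p → f y = f' y) : S.Triv P p f' := by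
  obtain ⟨b, hb, hb'⟩ := h
  exact ⟨b, hb, fun y hy => by rw [← hff y hy, hb' y hy]⟩

end

end Vale.P067
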