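import Mathlib
import Vale.Agent.Lib.P067.Defs
import Vale.Agent.Lib.P067.D1.Sys

/-!
# P067, part D1: the coset complex as a `Sys`

Cells: `(J, x HH H J)`; cochains are functions `F ⟨J, x⟩`, right `HH H J`-invariant functions of `x`.
-/

namespace Vale.P067

open scoped Classical

universe u

section

variable {S : Type} [Fintype S] {G : Type u} [Group G] (H : S → Subgroup G)

/-- cells of the coset complex -/
abbrev CCell := Σ J : Finset S, G ⧸ HH H J

/-- left multiplication -/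
instance ccellAct : MulAction G (CCell H) where
  smul g c := ⟨c.1, g • c.2⟩
  one_smul c := by
    obtain ⟨J, x⟩ := c
    change (⟨J, (1 : G) • x⟩ : CCell H) = ⟨J, x⟩
    rw [one_smul]
  mul_smul g h c := by
    obtain ⟨J, x⟩ := c
    change (⟨J, (g * h) • x⟩ : CCell H) = ⟨J, g • (h • x)⟩
    rw [mul_smul]

theorem ccell_smul (g : G) (J : Finset S) (x : G) :
    g • (⟨J, (x : G ⧸ HH H J)⟩ : CCell H) = ⟨J, ((g * x : G) : G ⧸ HH H J)⟩ := rfl

theorem HH_mono {J J' : Finset S} (h : J ⊆ J') : HH H J' ≤ HH H J := by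
  exact biInf_mono h

theorem d1_HH_empty : HH H (∅ : Finset S) = ⊤ := by
  simp [HH]

/-- projection to a smaller type -/
def cproj {J J' : Finset S} (h : J ⊆ J') (x : G ⧸ HH H J') : G ⧸ HH H J :=
  Quotient.map' (fun y => y) (by
    intro a b hab
    rw [QuotientGroup.leftRel_apply] at hab ⊢
    exact HH_mono H h hab) x

theorem cproj_mk {J J' : Finset S} (h : J ⊆ J') (x : G) :
    cproj H h (x : G ⧸ HH H J') = (x : G ⧸ HH H J) := rfl

theorem d1_cos_ext {J J' : Finset S} (h : J = J') (x : G) :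
    (⟨J, (x : G ⧸ HH H J)⟩ : CCell H) = ⟨J', (x : G ⧸ HH H J')⟩ := by
  subst h
  rfl

theorem d1_cos_bdd (f : CCell H → ZMod 2) (J : Finset S) (x : G) :
    ∑ s ∈ J, ∑ t ∈ J.erase s,
      f ⟨(J.erase s).erase t, (x : G ⧸ HH H ((J.erase s).erase t))⟩ = 0 := by
  rw [Finset.sum_sigma']
  refine Finset.sum_involution (fun p _ => ⟨p.2, p.1⟩) ?_ ?_ ?_ ?_
  · rintro ⟨s, t⟩ _
    have h : (J.erase s).erase t = (J.erase t).erase s := Finset.erase_right_comm
    change f _ + f _ = 0
    rw [d1_cos_ext H h x]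
    exact CharTwo.add_self_eq_zero _
  · rintro ⟨s, t⟩ hst _ he
    have h1 : t = s := congrArg Sigma.fst he
    rw [Finset.mem_sigma, Finset.mem_erase] at hst
    exact hst.2.1 h1
  · rintro ⟨s, t⟩ hst
    rw [Finset.mem_sigma, Finset.mem_erase] at hst
    rw [Finset.mem_sigma, Finset.mem_erase]
    exact ⟨hst.2.2, Ne.symm hst.2.1, hst.1⟩
  · rintro ⟨s, t⟩ _
    rfl

/-- the boundary of a cell -/
noncomputable def d1_bd (c : CCell H) : Multiset (CCell H) :=
  c.1.val.map fun s => (⟨c.1.erase s, cproj H (Finset.erase_subset s c.1) c.2⟩ : CCell H)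

theorem d1_bd_mk (J : Finset S) (x : G) :
    d1_bd H ⟨J, (x : G ⧸ HH H J)⟩ =
      J.val.map fun s => (⟨J.erase s, (x : G ⧸ HH H (J.erase s))⟩ : CCell H) := rfl

theorem d1_bd_sum (f : CCell H → ZMod 2) (J : Finset S) (x : G) :
    ((d1_bd H ⟨J, (x : G ⧸ HH H J)⟩).map f).sum =
      ∑ s ∈ J, f ⟨J.erase s, (x : G ⧸ HH H (J.erase s))⟩ := by
  rw [d1_bd_mk, Multiset.map_map]
  rfl

theorem d1_deg_bdy (y : CCell H) : ∀ y' ∈ d1_bd H y, y'.1.card + 1 = y.1.card := by
  intro y' hy
  obtain ⟨s, hs, rfl⟩ := Multiset.mem_map.1 hy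
  exact Finset.card_erase_add_one hs

theorem d1_bdy_smul (g : G) (y : CCell H) :
    d1_bd H (g • y) = (d1_bd H y).map (fun y' => g • y') := by
  obtain ⟨J, x⟩ := y
  induction x using QuotientGroup.induction_on with
  | H x =>
    rw [ccell_smul, d1_bd_mk, d1_bd_mk, Multiset.map_map]
    refine Multiset.map_congr rfl fun s _ => ?_
    exact (ccell_smul H g _ x).symm

theorem d1_bdd (f : CCell H → ZMod 2) (y : CCell H) :
    ((d1_bd H y).map fun y' => ((d1_bd H y').map f).sum).sum = 0 := by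
  obtain ⟨J, x⟩ := y
  induction x using QuotientGroup.induction_on with
  | H x =>
    rw [d1_bd_sum]
    refine Eq.trans ?_ (d1_cos_bdd H f J x)
    refine Finset.sum_congr rfl fun s _ => ?_
    exact d1_bd_sum H f _ x

theorem d1_eq_pt (y : CCell H) (hy : y.1.card = 0) :
    y = ⟨∅, ((1 : G) : G ⧸ HH H ∅)⟩ := by
  obtain ⟨J, x⟩ := y
  have hJ' : J = ∅ := Finset.card_eq_zero.1 hy
  subst hJ'
  induction x using QuotientGroup.induction_on with
  | H x =>
    have h1 : (x : G ⧸ HH H (∅ : Finset S)) = ((1 : G) : G ⧸ HH H (∅ : Finset S)) := by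
      rw [QuotientGroup.eq, d1_HH_empty]
      exact Subgroup.mem_top _
    rw [h1]

theorem d1_bdy_one (y : CCell H) (hy : y.1.card = 1) :
    d1_bd H y = {(⟨∅, ((1 : G) : G ⧸ HH H ∅)⟩ : CCell H)} := by
  obtain ⟨J, x⟩ := y
  obtain ⟨s, hs⟩ := Finset.card_eq_one.1 hy
  change J = {s} at hs
  subst hs
  induction x using QuotientGroup.induction_on with
  | H x =>
    rw [d1_bd_mk, Finset.singleton_val, Multiset.map_singleton]
    congr 1
    exact d1_eq_pt H _ (by
      change (({s} : Finset S).erase s).card = 0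
      rw [Finset.erase_singleton]
      rfl)

/-- the coset complex -/
noncomputable def cosSys : Sys G (CCell H) where
  deg c := c.1.card
  bdy c := c.1.val.map fun s => ⟨c.1.erase s, cproj H (Finset.erase_subset s c.1) c.2⟩
  pt := ⟨∅, ((1 : G) : G ⧸ HH H ∅)⟩
  deg_smul := by
    intro g y
    rfl
  deg_bdy := d1_deg_bdy H
  bdy_smul := d1_bdy_smul H
  bdd := d1_bdd H
  deg_pt := by
    rfl
  eq_pt := d1_eq_pt H
  bdy_one := d1_bdy_one H

/-- the coboundary is `dl` -/
theorem cos_d (F : CCell H → ZMod 2) (J : Finset S) (x : G) :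
    (cosSys H).d F ⟨J, (x : G ⧸ HH H J)⟩ =
      dl (fun J' y => F ⟨J', (y : G ⧸ HH H J')⟩) J x := by
  exact d1_bd_sum H F J x

end

end Vale.P067
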