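import Mathlib
import Vale.Agent.Lib.P067.Defs
import Vale.Agent.Lib.P067.D1.Cos

/-!
# P067, part D1: exactness of the coset complex
-/

namespace Vale.P067

open scoped Classical

universe u

section

variable {S : Type} [Fintype S] {G : Type u} [Group G] (H : S → Subgroup G)

omit [Fintype S] in
/-- cosets of equal elements modulo the stabilizer -/
private theorem d1_coset_mul {J : Finset S} (x h : G) (hh : h ∈ HH H J) :
    ((x * h : G) : G ⧸ HH H J) = (x : G ⧸ HH H J) := by
  rw [QuotientGroup.eq]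
  have : (x * h)⁻¹ * x = h⁻¹ := by group
  rw [this]
  exact (HH H J).inv_mem hh

/-- exactness without group action is `Van` -/
theorem cos_ex_bot (j : ℕ) (h : Van H j) : (cosSys H).Ex ⊥ (j + 1) := by
  intro F _ hF
  obtain ⟨b, hb, hbf⟩ := h (fun J x => F ⟨J, (x : G ⧸ HH H J)⟩) (by
    intro J _ _ x g hg
    rw [Finset.empty_union] at hg
    show F ⟨J, ((x * g : G) : G ⧸ HH H J)⟩ = F ⟨J, (x : G ⧸ HH H J)⟩
    rw [d1_coset_mul H x g hg]) (by
    intro J hJ x
    rw [← cos_d]
    exact hF ⟨J, (x : G ⧸ HH H J)⟩ hJ)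
  refine ⟨fun c => b c.1 c.2.out, fun g hg c => ?_, ?_⟩
  · rw [Subgroup.mem_bot] at hg
    rw [hg, one_smul]
  · rintro ⟨J, q⟩ hJ
    obtain ⟨x, rfl⟩ := QuotientGroup.mk_surjective q
    have hJ' : J.card = j + 1 := hJ
    have h1 := hbf J hJ' x
    refine h1.trans ?_
    have h2 := cos_d H (fun c => b c.1 c.2.out) J x
    refine Eq.trans ?_ h2.symm
    unfold dl
    refine Finset.sum_congr rfl fun s hs => ?_
    have hcard : (J.erase s).card = j := by
      rw [Finset.card_erase_of_mem hs, hJ', Nat.add_sub_cancel]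
    -- the chosen representative differs from `x` by an element of the stabilizer
    have h3 : (QuotientGroup.mk (Quotient.out ((x : G) : G ⧸ HH H (J.erase s))) :
        G ⧸ HH H (J.erase s)) = ((x : G) : G ⧸ HH H (J.erase s)) := Quotient.out_eq' _
    rw [QuotientGroup.eq] at h3
    have h4 := hb (J.erase s) (Finset.disjoint_empty_right _) hcard
      (Quotient.out ((x : G) : G ⧸ HH H (J.erase s))) _ (by rw [Finset.empty_union]; exact h3)
    rw [mul_inv_cancel_left] at h4
    exact h4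

/-- exactness at the empty cell -/
theorem cos_ex_zero [Nonempty S] (P : Subgroup G) : (cosSys H).Ex P 0 := by
  intro F _ hF
  obtain ⟨s⟩ := (inferInstance : Nonempty S)
  have h0 : F (cosSys H).pt = 0 := by
    have h1 : (cosSys H).deg ⟨{s}, ((1 : G) : G ⧸ HH H {s})⟩ = 1 := Finset.card_singleton s
    have h2 := hF ⟨{s}, ((1 : G) : G ⧸ HH H {s})⟩ h1
    unfold Sys.d at h2
    rw [(cosSys H).bdy_one _ h1, Multiset.map_singleton, Multiset.sum_singleton] at h2
    exact h2
  refine ⟨fun _ => 0, fun _ _ _ => rfl, fun y hy => ?_⟩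
  rw [(cosSys H).eq_pt y hy, h0]
  unfold Sys.d
  rw [Multiset.map_const', Multiset.sum_replicate, smul_zero]

/-- exactness of the cochains invariant under the whole group: functions of the type only (`F ⟨J, x⟩ =
F ⟨J, 1⟩`); full simplex, cone with apex `s₀`: `b τ = f (insert s₀ τ)` if `s₀ ∉ τ`, `0` otherwise. -/
theorem cos_ex_top [Nonempty S] (p : ℕ) (hp : p + 1 ≤ Fintype.card S) : (cosSys H).Ex ⊤ p := by
  intro F hinv hF
  obtain ⟨s0⟩ := (inferInstance : Nonempty S)
  have hx : ∀ (J : Finset S) (x : G), F ⟨J, (x : G ⧸ HH H J)⟩ = F ⟨J, ((1 : G) : G ⧸ HH H J)⟩ := by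
    intro J x
    have h1 : F ⟨J, ((x * 1 : G) : G ⧸ HH H J)⟩ = F ⟨J, ((1 : G) : G ⧸ HH H J)⟩ :=
      hinv x (Subgroup.mem_top x) ⟨J, ((1 : G) : G ⧸ HH H J)⟩
    rwa [mul_one] at h1
  set φ : Finset S → ZMod 2 := fun J => F ⟨J, ((1 : G) : G ⧸ HH H J)⟩ with hφ
  have hd : ∀ J : Finset S, J.card = p + 1 → ∑ s ∈ J, φ (J.erase s) = 0 := by
    intro J hJ
    have h1 := hF ⟨J, ((1 : G) : G ⧸ HH H J)⟩ hJ
    rw [cos_d] at h1
    exact h1
  refine ⟨fun c => if s0 ∈ c.1 then 0 else φ (insert s0 c.1), fun g _ c => ?_, ?_⟩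
  · obtain ⟨J, q⟩ := c
    obtain ⟨x, rfl⟩ := QuotientGroup.mk_surjective q
    rfl
  · rintro ⟨J, q⟩ hJ
    obtain ⟨x, rfl⟩ := QuotientGroup.mk_surjective q
    have hJ' : J.card = p := hJ
    have h2 := cos_d H (fun c => if s0 ∈ c.1 then 0 else φ (insert s0 c.1)) J x
    refine Eq.trans ?_ h2.symm
    rw [hx J x]
    show φ J = ∑ s ∈ J, if s0 ∈ J.erase s then 0 else φ (insert s0 (J.erase s))
    by_cases hs0 : s0 ∈ J
    · rw [Finset.sum_eq_single_of_mem s0 hs0]
      · rw [if_neg (Finset.notMem_erase s0 J), Finset.insert_erase hs0]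
      · intro s _ hne
        rw [if_pos (Finset.mem_erase.mpr ⟨hne.symm, hs0⟩)]
    · have h3 := hd (insert s0 J) (by rw [Finset.card_insert_of_notMem hs0, hJ'])
      rw [Finset.sum_insert hs0, Finset.erase_insert hs0] at h3
      have h4 : ∑ s ∈ J, φ ((insert s0 J).erase s) =
          ∑ s ∈ J, if s0 ∈ J.erase s then 0 else φ (insert s0 (J.erase s)) := by
        refine Finset.sum_congr rfl fun s hs => ?_
        have hne : s ≠ s0 := fun h => hs0 (h ▸ hs)
        rw [if_neg fun h => hs0 (Finset.mem_of_mem_erase h), Finset.erase_insert_of_ne hne.symm]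
      rw [h4] at h3
      exact CharTwo.add_eq_zero.mp h3

end

end Vale.P067
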