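import Mathlib
import Vale.Agent.Lib.P067.Defs
import Vale.Agent.Lib.P067.D1.Cos

/-!
# P067, part D1: stabilizers of cells of the coset complex
-/

namespace Vale.P067

open scoped Classical

universe u

section

variable {S : Type} [Fintype S] {G : Type u} [Group G] (H : S → Subgroup G)

/-- stabilizer of a cell -/
theorem cos_stab (J : Finset S) (x : G) :
    MulAction.stabilizer G (⟨J, (x : G ⧸ HH H J)⟩ : CCell H) =
      (HH H J).map (MulAut.conj x).toMonoidHom := by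
  ext g
  rw [MulAction.mem_stabilizer_iff, Subgroup.mem_map]
  change ((⟨J, ((g * x : G) : G ⧸ HH H J)⟩ : CCell H) = ⟨J, (x : G ⧸ HH H J)⟩) ↔ _
  have h1 : ((⟨J, ((g * x : G) : G ⧸ HH H J)⟩ : CCell H) = ⟨J, (x : G ⧸ HH H J)⟩) ↔
      ((g * x : G) : G ⧸ HH H J) = (x : G ⧸ HH H J) := by
    constructor
    · intro h
      exact eq_of_heq (Sigma.mk.inj h).2
    · intro h
      rw [h]
  rw [h1, eq_comm, QuotientGroup.eq]
  constructor
  · intro h
    refine ⟨x⁻¹ * (g * x), h, ?_⟩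
    change x * (x⁻¹ * (g * x)) * x⁻¹ = g
    group
  · rintro ⟨h, hh, rfl⟩
    change x⁻¹ * (x * h * x⁻¹ * x) ∈ HH H J
    have h2 : x⁻¹ * (x * h * x⁻¹ * x) = h := by group
    rw [h2]
    exact hh

theorem cos_vertex [Nonempty S] : ∃ y, (cosSys H).deg y = 1 := by
  obtain ⟨s⟩ := (inferInstance : Nonempty S)
  refine ⟨⟨{s}, ((1 : G) : G ⧸ HH H {s})⟩, ?_⟩
  exact Finset.card_singleton s

end

end Vale.P067
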