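import Mathlib
import Vale.Agent.Lib.P067.D1.Sys

/-!
# P067, part D1: `Γ`-complexes of finite sets as `Sys`
-/

namespace Vale.P067

open scoped Classical

universe u v

/-- a `Γ`-invariant simplicial complex on the `Γ`-set `V` (including the empty face) -/
structure Cx (Γ : Type u) [Group Γ] (V : Type v) [MulAction Γ V] where
  K : Set (Finset V)
  empty_mem : ∅ ∈ K
  erase_mem : ∀ σ ∈ K, ∀ v ∈ σ, σ.erase v ∈ K
  smul_mem : ∀ (g : Γ), ∀ σ ∈ K, σ.image (fun v => g • v) ∈ K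

variable {Γ : Type u} [Group Γ] {V : Type v} [MulAction Γ V]

/-- the faces -/
def Cx.Cell (C : Cx Γ V) := {σ : Finset V // σ ∈ C.K}

noncomputable instance Cx.act (C : Cx Γ V) : MulAction Γ C.Cell where
  smul g σ := ⟨σ.1.image (fun v => g • v), C.smul_mem g σ.1 σ.2⟩
  one_smul σ := by
    apply Subtype.ext
    change σ.1.image (fun v => (1 : Γ) • v) = σ.1
    simp
  mul_smul g h σ := by
    apply Subtype.ext
    change σ.1.image (fun v => (g * h) • v) = (σ.1.image (fun v => h • v)).image (fun v => g • v)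
    rw [Finset.image_image]
    congr 1
    funext v
    exact mul_smul g h v

theorem Cx.smul_coe (C : Cx Γ V) (g : Γ) (σ : C.Cell) :
    (g • σ).1 = σ.1.image (fun v => g • v) := rfl

/-- faces of a cell -/
noncomputable def Cx.bd (C : Cx Γ V) (σ : C.Cell) : Multiset C.Cell :=
  σ.1.attach.val.map fun v => ⟨σ.1.erase v.1, C.erase_mem σ.1 σ.2 v.1 v.2⟩

/-- extension of a function on cells to a function on finite sets -/
noncomputable def Cx.d1_ext (C : Cx Γ V) (F : C.Cell → ZMod 2) : Finset V → ZMod 2 :=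
  fun τ => if h : τ ∈ C.K then F ⟨τ, h⟩ else 0

theorem Cx.d1_ext_coe (C : Cx Γ V) (F : C.Cell → ZMod 2) (τ : C.Cell) :
    C.d1_ext F τ.1 = F τ := by
  unfold Cx.d1_ext
  rw [dif_pos τ.2]
  rfl

/-- constructor of cells -/
def Cx.d1_mk (C : Cx Γ V) (σ : Finset V) (h : σ ∈ C.K) : C.Cell := ⟨σ, h⟩

theorem d1_attach_sum {V : Type*} {T : Type*} (σ : Finset V) (e : {x // x ∈ σ} → T)
    (F : T → ZMod 2) (G : V → ZMod 2) (h : ∀ v, F (e v) = G v.1) :
    ((σ.attach.val.map e).map F).sum = ∑ v ∈ σ, G v := by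
  rw [Multiset.map_map, ← Finset.sum_attach σ G]
  change (σ.attach.val.map _).sum = (σ.attach.val.map _).sum
  congr 1
  refine Multiset.map_congr rfl fun v _ => ?_
  exact h _

theorem d1_attach_map {V : Type*} {T : Type*} {W : Type*} (σ : Finset V) (e : {x // x ∈ σ} → T)
    (F : T → W) (G : V → W) (h : ∀ v, F (e v) = G v.1) :
    (σ.attach.val.map e).map F = σ.val.map G := by
  rw [Multiset.map_map]
  have h1 := Multiset.attach_map_val' σ.val G
  rw [← h1]
  refine Multiset.map_congr rfl fun v _ => ?_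
  exact h _

theorem Cx.d1_bd_sum (C : Cx Γ V) (F : C.Cell → ZMod 2) (G : Finset V → ZMod 2)
    (h : ∀ τ : C.Cell, F τ = G τ.1) (σ : C.Cell) :
    ((C.bd σ).map F).sum = ∑ v ∈ σ.1, G (σ.1.erase v) :=
  d1_attach_sum σ.1 _ F (fun v => G (σ.1.erase v)) (fun _ => h _)

theorem Cx.d1_bd_val (C : Cx Γ V) (σ : C.Cell) :
    (C.bd σ).map (fun τ : C.Cell => τ.1) = σ.1.val.map (fun v => σ.1.erase v) :=
  d1_attach_map σ.1 _ _ (fun v => σ.1.erase v) (fun _ => rfl)

theorem Cx.d1_val_inj (C : Cx Γ V) : Function.Injective (fun τ : C.Cell => τ.1) :=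
  fun _ _ h => Subtype.ext h

theorem d1_erase_erase (G : Finset V → ZMod 2) (σ : Finset V) :
    ∑ v ∈ σ, ∑ w ∈ σ.erase v, G ((σ.erase v).erase w) = 0 := by
  rw [Finset.sum_sigma']
  refine Finset.sum_involution (fun x _ => ⟨x.2, x.1⟩) ?_ ?_ ?_ ?_
  · intro x _
    change G ((σ.erase x.1).erase x.2) + G ((σ.erase x.2).erase x.1) = 0
    rw [Finset.erase_right_comm]
    exact CharTwo.add_self_eq_zero _
  · intro x hx _ he
    have h1 := Finset.mem_sigma.1 hx
    have h2 : x.2 = x.1 := congrArg Sigma.fst he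
    exact (Finset.mem_erase.1 h1.2).1 h2
  · intro x hx
    have h1 := Finset.mem_sigma.1 hx
    have h2 := Finset.mem_erase.1 h1.2
    exact Finset.mem_sigma.2 ⟨h2.2, Finset.mem_erase.2 ⟨fun h => h2.1 h.symm, h1.1⟩⟩
  · intro x _
    rfl

/-- the system of a complex; `deg` = number of vertices.
(`bdd`: `∑_{v ∈ σ} ∑_{w ∈ σ \ v} f (σ \ {v, w}) = 0`, pairs `(v, w)` and `(w, v)` cancel.) -/
noncomputable def Cx.sys (C : Cx Γ V) : Sys Γ C.Cell where
  deg σ := σ.1.card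
  bdy σ := C.bd σ
  pt := ⟨∅, C.empty_mem⟩
  deg_smul := by
    intro g y
    exact Finset.card_image_of_injective y.1 (MulAction.injective g)
  deg_bdy := by
    intro y y' h
    unfold Cx.bd at h
    obtain ⟨v, _, rfl⟩ := Multiset.mem_map.1 h
    exact Finset.card_erase_add_one v.2
  bdy_smul := by
    intro g y
    apply Multiset.map_injective C.d1_val_inj
    rw [C.d1_bd_val, Multiset.map_map]
    have h1 : (C.bd y).map ((fun τ : C.Cell => τ.1) ∘ fun y' => g • y') =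
        ((C.bd y).map (fun τ : C.Cell => τ.1)).map (fun τ => τ.image (fun v => g • v)) := by
      rw [Multiset.map_map]
      rfl
    rw [h1, C.d1_bd_val, Multiset.map_map, C.smul_coe,
      Finset.image_val_of_injOn ((MulAction.injective g).injOn), Multiset.map_map]
    refine Multiset.map_congr rfl fun v _ => ?_
    exact (Finset.image_erase (MulAction.injective g) y.1 v).symm
  bdd := by
    intro f y
    have h1 := C.d1_bd_sum (fun y' => ((C.bd y').map f).sum)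
      (fun τ => ∑ w ∈ τ, C.d1_ext f (τ.erase w))
      (fun τ => C.d1_bd_sum f (C.d1_ext f) (fun τ' => (C.d1_ext_coe f τ').symm) τ) y
    rw [h1]
    exact d1_erase_erase _ _
  deg_pt := rfl
  eq_pt := by
    intro y h
    exact Subtype.ext (Finset.card_eq_zero.1 h)
  bdy_one := by
    intro y h
    apply Multiset.map_injective C.d1_val_inj
    rw [C.d1_bd_val]
    obtain ⟨v, hv⟩ := Finset.card_eq_one.1 h
    rw [hv]
    change ({v} : Multiset V).map (fun w => ({v} : Finset V).erase w) =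
      ({∅} : Multiset (Finset V))
    rw [Multiset.map_singleton]
    congr 1
    simp

/-- the coboundary in terms of functions on finite sets -/
theorem Cx.d_eq (C : Cx Γ V) (f : Finset V → ZMod 2) (σ : C.Cell) :
    C.sys.d (fun τ => f τ.1) σ = ∑ v ∈ σ.1, f (σ.1.erase v) :=
  C.d1_bd_sum (fun τ => f τ.1) f (fun _ => rfl) σ

theorem Cx.d1_d_ext (C : Cx Γ V) (f : C.Cell → ZMod 2) (σ : C.Cell) :
    C.sys.d f σ = ∑ v ∈ σ.1, C.d1_ext f (σ.1.erase v) :=
  C.d1_bd_sum f (C.d1_ext f) (fun τ => (C.d1_ext_coe f τ).symm) σ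

theorem Cx.d1_ext_inv (C : Cx Γ V) {P : Subgroup Γ} {f : C.Cell → ZMod 2} (hf : Inv P f) :
    ∀ g ∈ P, ∀ σ ∈ C.K, C.d1_ext f (σ.image (fun v => g • v)) = C.d1_ext f σ := by
  intro g hg σ hσ
  have h1 := C.d1_ext_coe f (g • C.d1_mk σ hσ)
  have h2 := C.d1_ext_coe f (C.d1_mk σ hσ)
  have h3 := hf g hg (C.d1_mk σ hσ)
  exact h1.trans (h3.trans h2.symm)

/-- exactness criterion in terms of functions on finite sets -/
theorem Cx.ex_of (C : Cx Γ V) (P : Subgroup Γ) (q : ℕ)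
    (h : ∀ f : Finset V → ZMod 2,
      (∀ g ∈ P, ∀ σ ∈ C.K, f (σ.image (fun v => g • v)) = f σ) →
      (∀ τ ∈ C.K, τ.card = q + 1 → ∑ v ∈ τ, f (τ.erase v) = 0) →
      ∃ b : Finset V → ZMod 2, (∀ g ∈ P, ∀ σ ∈ C.K, b (σ.image (fun v => g • v)) = b σ) ∧
        ∀ σ ∈ C.K, σ.card = q → f σ = ∑ v ∈ σ, b (σ.erase v)) : C.sys.Ex P q := by
  intro f hf hd
  obtain ⟨b, hb, hfb⟩ := h (C.d1_ext f) (C.d1_ext_inv hf) (by
    intro τ hτ hc
    exact (C.d1_d_ext f (C.d1_mk τ hτ)).symm.trans (hd _ hc))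
  refine ⟨fun τ => b τ.1, ?_, ?_⟩
  · intro g hg y
    change b (g • y).1 = b y.1
    rw [C.smul_coe]
    exact hb g hg y.1 y.2
  · intro y hy
    rw [C.d_eq, ← hfb y.1 y.2 hy]
    exact (C.d1_ext_coe f y).symm

/-- conversely -/
theorem Cx.of_ex (C : Cx Γ V) (P : Subgroup Γ) (q : ℕ) (h : C.sys.Ex P q)
    (f : Finset V → ZMod 2) (hf : ∀ g ∈ P, ∀ σ ∈ C.K, f (σ.image (fun v => g • v)) = f σ)
    (hd : ∀ τ ∈ C.K, τ.card = q + 1 → ∑ v ∈ τ, f (τ.erase v) = 0) :
    ∃ b : Finset V → ZMod 2, (∀ g ∈ P, ∀ σ ∈ C.K, b (σ.image (fun v => g • v)) = b σ) ∧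
      ∀ σ ∈ C.K, σ.card = q → f σ = ∑ v ∈ σ, b (σ.erase v) := by
  obtain ⟨B, hB, hfB⟩ := h (fun τ => f τ.1) (by
    intro g hg y
    change f (g • y).1 = f y.1
    rw [C.smul_coe]
    exact hf g hg y.1 y.2) (by
    intro y hy
    rw [C.d_eq]
    exact hd y.1 y.2 hy)
  refine ⟨C.d1_ext B, C.d1_ext_inv hB, ?_⟩
  intro σ hσ hc
  exact (hfB (C.d1_mk σ hσ) hc).trans (C.d1_d_ext B (C.d1_mk σ hσ))

end Vale.P067
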