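import Mathlib
import Vale.Agent.Lib.P067.D1.Cos
import Vale.Agent.Lib.P067.Quot

/-!
# P067, part D1: descent to the finite quotients `Gm`
-/

namespace Vale.P067

open scoped Classical

universe u

section

theorem d1_van_of_ex_gen {S : Type} [Fintype S] {G : Type u} [Group G] (H : S → Subgroup G)
    (N : Subgroup G) [hN : N.Normal] (H' : S → Subgroup (G ⧸ N))
    (hH : ∀ J : Finset S, J.Nonempty → HH H' J = (HH H J).map (QuotientGroup.mk' N)) {j : ℕ}
    (h : (cosSys H).Ex N (j + 1)) : Van H' j := by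
  intro f hf hdf
  -- the lifted cochain
  let F : CCell H → ZMod 2 := fun c =>
    if c.1.card = j + 1 then f c.1 (QuotientGroup.mk' N c.2.out) else 0
  have hF : ∀ (J : Finset S) (x : G), J.card = j + 1 →
      F ⟨J, (x : G ⧸ HH H J)⟩ = f J (QuotientGroup.mk' N x) := by
    intro J x hJ
    obtain ⟨h0, hh0⟩ := QuotientGroup.mk_out_eq_mul (HH H J) x
    have hne : J.Nonempty := Finset.card_pos.1 (by omega)
    change (if J.card = j + 1 then
      f J (QuotientGroup.mk' N (Quotient.out (x : G ⧸ HH H J))) else 0) = _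
    rw [if_pos hJ, hh0, map_mul]
    refine hf J (Finset.disjoint_empty_right _) hJ _ _ ?_
    rw [Finset.empty_union, hH J hne]
    exact ⟨h0, h0.2, rfl⟩
  have hF0 : ∀ (J : Finset S) (x : G ⧸ HH H J), J.card ≠ j + 1 →
      F ⟨J, x⟩ = 0 := by
    intro J x hJ
    exact if_neg hJ
  have hinv : Inv N F := by
    rintro g hg ⟨J, x⟩
    obtain ⟨x, rfl⟩ := QuotientGroup.mk_surjective x
    change F ⟨J, ((g * x : G) : G ⧸ HH H J)⟩ = F ⟨J, (x : G ⧸ HH H J)⟩
    by_cases hJ : J.card = j + 1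
    · rw [hF J _ hJ, hF J _ hJ, map_mul]
      have : QuotientGroup.mk' N g = 1 := (QuotientGroup.eq_one_iff g).2 hg
      rw [this, one_mul]
    · rw [hF0 J _ hJ, hF0 J _ hJ]
  obtain ⟨b', hb', hFb⟩ := h F hinv (by
    rintro ⟨J, x⟩ hJ
    obtain ⟨x, rfl⟩ := QuotientGroup.mk_surjective x
    have hJ' : J.card = j + 2 := hJ
    have h1 := cos_d H F J x
    refine h1.trans ?_
    rw [← hdf J hJ' (QuotientGroup.mk' N x)]
    refine Finset.sum_congr rfl fun s hs => ?_
    refine hF _ _ ?_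
    rw [Finset.card_erase_of_mem hs, hJ']
    rfl)
  let b : Finset S → G ⧸ N → ZMod 2 := fun J z =>
    b' ⟨J, ((Quotient.out z : G) : G ⧸ HH H J)⟩
  have hbb : ∀ (J : Finset S) (x : G),
      b J (QuotientGroup.mk' N x) = b' ⟨J, (x : G ⧸ HH H J)⟩ := by
    intro J x
    obtain ⟨ν, hν⟩ := QuotientGroup.mk_out_eq_mul N x
    change b' ⟨J, ((Quotient.out (x : G ⧸ N) : G) : G ⧸ HH H J)⟩ = _
    rw [hν]
    have h1 : x * (ν : G) = (x * (ν : G) * x⁻¹) * x := by group
    rw [h1]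
    exact hb' _ (hN.conj_mem _ ν.2 x) ⟨J, (x : G ⧸ HH H J)⟩
  refine ⟨b, ?_, ?_⟩
  · intro J _ hJ x h0 hh0
    rw [Finset.empty_union] at hh0
    obtain ⟨x, rfl⟩ := QuotientGroup.mk'_surjective _ x
    rcases J.eq_empty_or_nonempty with rfl | hne
    · obtain ⟨h0, rfl⟩ := QuotientGroup.mk'_surjective _ h0
      rw [← map_mul, hbb, hbb]
      congr 2
      rw [QuotientGroup.eq, d1_HH_empty]
      exact Subgroup.mem_top _
    · rw [hH J hne] at hh0
      obtain ⟨h0, hh0, rfl⟩ := hh0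
      rw [← map_mul, hbb, hbb]
      congr 2
      rw [QuotientGroup.eq]
      have : (x * h0)⁻¹ * x = h0⁻¹ := by group
      rw [this]
      exact Subgroup.inv_mem _ hh0
  · intro J hJ x
    obtain ⟨x, rfl⟩ := QuotientGroup.mk'_surjective _ x
    rw [← hF J x hJ]
    refine (hFb ⟨J, (x : G ⧸ HH H J)⟩ hJ).trans ?_
    refine (cos_d H b' J x).trans ?_
    refine Finset.sum_congr rfl fun s _ => ?_
    exact (hbb _ _).symm

variable {k : Type} [Field k] {n : ℕ}

/-- Descent to the quotient.  `f` on `Gm`: `F ⟨J, x⟩ = f J (mk x)` for `|J| = j + 1` (`0` for other `J`);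
it is well defined: for `h ∈ HH (Hs) J`, `J ≠ ∅`, `mk h ∈ HH (Hm) J` (`HH_Hm`); left `Nc`-invariant as `Nc` is
normal.  `cos_d`.  From `b'` with `F = d b'` put `b J (mk x) = b' ⟨J, x⟩` (well defined: `b'` is left
`Nc`-invariant and `Nc` is normal); it is `InvL (Hm) ∅ j`: for `J ≠ ∅` by `HH_Hm`, for `J = ∅` `b' ⟨∅, x⟩` does
not depend on `x` (`d1_HH_empty`). -/
theorem van_of_ex {m j : ℕ} (hm : 2 ≤ m) (h : (cosSys (Hs k n)).Ex (Nc k n m) (j + 1)) :
    Van (Hm k n m) j :=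
  d1_van_of_ex_gen (Hs k n) (Nc k n m) (Hm k n m) (HH_Hm k n m hm) h

end

end Vale.P067
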