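import Mathlib
import Vale.Agent.Lib.P067.DDefs
import Vale.Agent.Lib.P067.UFacts

/-!
# P067, part D1: the matrix model and the `E`-model

Basis of `k[X]^n`: the `j`-th standard vector (`j : Fin n`) corresponds to `e_{j+1}`, and `X^l` times it
to `e_{j+1+n l}`; so `k[X]^n` corresponds to `M k 0` and multiplication by `X` to `sh k n`.
`slAct g` is the automorphism of `E k` which commutes with `sh k n` and maps `e_{j+1}` to `toE` of the
`j`-th column of `g`.
-/

namespace Vale.P067

open scoped Classical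
open Polynomial

section

variable (k : Type*) [Field k] (n : ℕ)

/-- `v ↦ ∑_j ∑_l (coeff (v j) l) e_{j+1+n l}` -/
noncomputable def toE : (Fin n → k[X]) →ₗ[k] E k :=
  ∑ j : Fin n, (Polynomial.lsum fun l : ℕ =>
    (Finsupp.lsingle ((j : ℤ) + 1 + n * l) : k →ₗ[k] E k)) ∘ₗ LinearMap.proj j

variable {k n}

private theorem d1_rep (hn : 0 < n) {b : ℤ} (hb : 0 < b) :
    ∃ (j : Fin n) (l : ℕ), b = (j : ℤ) + 1 + n * l := by
  have hn' : (0 : ℤ) < n := by exact_mod_cast hn
  have h1 := Int.emod_nonneg (b - 1) hn'.ne'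
  have h2 := Int.emod_lt_of_pos (b - 1) hn'
  have h3 := Int.emod_add_mul_ediv (b - 1) n
  have h4 : 0 ≤ (b - 1) / n := Int.ediv_nonneg (by omega) hn'.le
  obtain ⟨j, hj⟩ := Int.eq_ofNat_of_zero_le h1
  obtain ⟨l, hl⟩ := Int.eq_ofNat_of_zero_le h4
  rw [hj, hl] at h3
  rw [hj] at h2
  refine ⟨⟨j, by omega⟩, l, ?_⟩
  simp only
  linarith

private theorem d1_rep_inj {j j' : Fin n} {l l' : ℤ}
    (h : (j : ℤ) + 1 + n * l = (j' : ℤ) + 1 + n * l') : j = j' ∧ l = l' := by
  have hj := j.2
  have hj' := j'.2
  have hn' : (0 : ℤ) < n := by omega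
  have h1 : (n : ℤ) * (l - l') = (j' : ℤ) - j := by linarith
  have h2 : l - l' = 0 := by
    by_contra h0
    rcases lt_or_gt_of_ne h0 with h3 | h3
    · have : (n : ℤ) * (l - l') ≤ n * (-1) := mul_le_mul_of_nonneg_left (by omega) hn'.le
      omega
    · have : (n : ℤ) * 1 ≤ n * (l - l') := mul_le_mul_of_nonneg_left (by omega) hn'.le
      omega
  rw [h2, mul_zero] at h1
  exact ⟨Fin.ext (by omega), by omega⟩

private theorem d1_toE_key (v : Fin n → k[X]) (b : ℤ) :
    toE k n v b = ∑ j : Fin n, ∑ l ∈ (v j).support,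
      if (j : ℤ) + 1 + n * l = b then (v j).coeff l else 0 := by
  unfold toE
  rw [LinearMap.sum_apply, Finsupp.finsetSum_apply]
  refine Finset.sum_congr rfl fun j _ => ?_
  rw [LinearMap.comp_apply, LinearMap.proj_apply, Polynomial.lsum_apply, Polynomial.sum_def,
    Finsupp.finsetSum_apply]
  refine Finset.sum_congr rfl fun l _ => ?_
  rw [Finsupp.lsingle_apply, Finsupp.single_apply]

/-- the coordinates of `toE v` -/
theorem toE_apply (v : Fin n → k[X]) (j : Fin n) (l : ℕ) :
    toE k n v ((j : ℤ) + 1 + n * l) = (v j).coeff l := by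
  rw [d1_toE_key, Finset.sum_eq_single j]
  · rw [Finset.sum_eq_single l]
    · rw [if_pos rfl]
    · intro l' _ hl'
      rw [if_neg]
      intro h
      exact hl' (by exact_mod_cast (d1_rep_inj h).2)
    · intro hl
      rw [Polynomial.notMem_support_iff.mp hl]
      simp
  · intro j' _ hj'
    refine Finset.sum_eq_zero fun l' _ => ?_
    rw [if_neg]
    intro h
    exact hj' (d1_rep_inj h).1
  · intro h
    exact absurd (Finset.mem_univ j) h

theorem toE_apply_nonpos (v : Fin n → k[X]) {b : ℤ} (hb : b ≤ 0) : toE k n v b = 0 := by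
  rw [d1_toE_key]
  refine Finset.sum_eq_zero fun j _ => Finset.sum_eq_zero fun l _ => ?_
  rw [if_neg]
  intro h
  have h1 : (0 : ℤ) ≤ (n : ℤ) * l := by positivity
  have h2 : (0 : ℤ) ≤ (j : ℤ) := by positivity
  omega

/-- equality with an element in the image -/
private theorem d1_toE_eq (hn : 0 < n) (v : Fin n → k[X]) (w : E k) (h0 : ∀ b : ℤ, b ≤ 0 → w b = 0)
    (h1 : ∀ (j : Fin n) (l : ℕ), w ((j : ℤ) + 1 + n * l) = (v j).coeff l) : toE k n v = w := by
  refine Finsupp.ext fun b => ?_
  by_cases hb : b ≤ 0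
  · rw [toE_apply_nonpos v hb, h0 b hb]
  · obtain ⟨j, l, rfl⟩ := d1_rep hn (not_le.mp hb)
    rw [toE_apply, h1]

theorem toE_single (j : Fin n) : toE k n (Pi.single j 1) = ee k ((j : ℤ) + 1) := by
  have hn : 0 < n := by
    have := j.2
    omega
  refine d1_toE_eq hn _ _ ?_ ?_
  · intro b hb
    simp only [ee, Finsupp.single_apply]
    rw [if_neg]
    have h2 : (0 : ℤ) ≤ (j : ℤ) := by positivity
    omega
  · intro j' l
    simp only [ee, Finsupp.single_apply]
    by_cases hj : j' = j
    · subst hj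
      rw [Pi.single_eq_same, Polynomial.coeff_one]
      by_cases hl : l = 0
      · subst hl
        rw [if_pos (by push_cast; ring), if_pos rfl]
      · rw [if_neg, if_neg hl]
        intro h
        have h1 : (j' : ℤ) + 1 + n * (0 : ℤ) = (j' : ℤ) + 1 + n * (l : ℤ) := by rw [← h]; ring
        have h2 := (d1_rep_inj h1).2
        exact hl (by exact_mod_cast h2.symm)
    · rw [Pi.single_eq_of_ne hj, Polynomial.coeff_zero, if_neg]
      intro h
      have h1 : (j : ℤ) + 1 + n * (0 : ℤ) = (j' : ℤ) + 1 + n * (l : ℤ) := by rw [← h]; ring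
      exact hj (d1_rep_inj h1).1.symm

theorem toE_X (v : Fin n → k[X]) : toE k n (fun j => X * v j) = sh k n (toE k n v) := by
  rcases Nat.eq_zero_or_pos n with hn | hn
  · subst hn
    have h1 : ∀ v : Fin 0 → k[X], toE k 0 v = 0 := by
      intro v
      unfold toE
      rw [Finset.univ_eq_empty, Finset.sum_empty, LinearMap.zero_apply]
    rw [h1, h1, map_zero]
  · refine d1_toE_eq hn _ _ ?_ ?_
    · intro b hb
      rw [sh_apply]
      exact toE_apply_nonpos v (by omega)
    · intro j l
      rw [sh_apply]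
      rcases Nat.eq_zero_or_pos l with hl | hl
      · subst hl
        rw [Polynomial.coeff_X_mul_zero]
        refine toE_apply_nonpos v ?_
        have := j.2
        push_cast
        omega
      · obtain ⟨l', rfl⟩ := Nat.exists_eq_succ_of_ne_zero hl.ne'
        rw [Nat.succ_eq_add_one, Polynomial.coeff_X_mul, ← toE_apply]
        congr 1
        push_cast
        ring

theorem toE_inj : Function.Injective (toE k n) := by
  intro v w h
  funext j
  refine Polynomial.ext fun l => ?_
  rw [← toE_apply, ← toE_apply, h]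

/-- every element of `M k 0` is in the range (`n > 0`) -/
theorem toE_surj (hn : 0 < n) {w : E k} (hw : w ∈ M k 0) : ∃ v, toE k n v = w := by
  obtain ⟨N, hN⟩ : ∃ N : ℕ, ∀ b : ℤ, (N : ℤ) ≤ b → w b = 0 := by
    by_cases hS : w.support.Nonempty
    · refine ⟨(w.support.max' hS + 1).toNat, fun b hb => ?_⟩
      by_contra h0
      have := Finset.le_max' _ _ (Finsupp.mem_support_iff.mpr h0)
      omega
    · refine ⟨0, fun b _ => ?_⟩
      rw [Finset.not_nonempty_iff_eq_empty, Finsupp.support_eq_empty] at hS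
      rw [hS]
      rfl
  refine ⟨fun j => ∑ l ∈ Finset.range N, Polynomial.monomial l (w ((j : ℤ) + 1 + n * l)),
    d1_toE_eq hn _ _ (fun b hb => hw b hb) fun j l => ?_⟩
  rw [Polynomial.finsetSum_coeff]
  simp only [Polynomial.coeff_monomial]
  rw [Finset.sum_ite_eq']
  by_cases hl : l ∈ Finset.range N
  · rw [if_pos hl]
  · rw [if_neg hl]
    refine hN _ ?_
    have h1 : N ≤ l := by
      rw [Finset.mem_range] at hl
      omega
    have h2 : (l : ℤ) ≤ (n : ℤ) * l := by
      have : (1 : ℤ) ≤ n := by exact_mod_cast hn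
      nlinarith
    have h3 : (N : ℤ) ≤ l := by exact_mod_cast h1
    omega

theorem toE_mem (v : Fin n → k[X]) : toE k n v ∈ M k 0 := fun _ hb => toE_apply_nonpos v hb

/-- `X^m` divides all entries iff the image is in `M (m n)` -/
theorem toE_mem_iff (m : ℕ) (v : Fin n → k[X]) :
    toE k n v ∈ M k (m * n) ↔ ∀ j, (X : k[X]) ^ m ∣ v j := by
  constructor
  · intro h j
    rw [Polynomial.X_pow_dvd_iff]
    intro l hl
    rw [← toE_apply]
    refine h _ ?_
    have h1 := j.2
    have h2 : (n : ℤ) * (l + 1) ≤ n * m := by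
      refine mul_le_mul_of_nonneg_left ?_ (by positivity)
      exact_mod_cast hl
    have h3 : (m : ℤ) * n = n * m := mul_comm _ _
    have h4 : (n : ℤ) * (l + 1) = n * l + n := by ring
    omega
  · intro h b hb
    rcases Nat.eq_zero_or_pos n with hn | hn
    · subst hn
      have h1 : toE k 0 v = 0 := by
        unfold toE
        rw [Finset.univ_eq_empty, Finset.sum_empty, LinearMap.zero_apply]
      rw [h1]
      rfl
    · by_cases hb0 : b ≤ 0
      · exact toE_apply_nonpos v hb0
      · obtain ⟨j, l, rfl⟩ := d1_rep hn (not_le.mp hb0)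
        rw [toE_apply]
        refine (Polynomial.X_pow_dvd_iff.mp (h j)) l ?_
        by_contra hlm
        have h1 : (m : ℤ) ≤ l := by exact_mod_cast (not_lt.mp hlm)
        have h2 : (n : ℤ) * m ≤ n * l := mul_le_mul_of_nonneg_left h1 (by positivity)
        have h3 : (m : ℤ) * n = n * m := mul_comm _ _
        have h4 : (0 : ℤ) ≤ (j : ℤ) := by positivity
        omega

/-- the linear map `E k → E k` of a matrix: `e_{j+1+n l} ↦ sh (n l) (toE (column j))`, `l : ℤ` -/
noncomputable def actL (k : Type*) [Field k] (n : ℕ) (g : Matrix (Fin n) (Fin n) k[X]) :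
    E k →ₗ[k] E k :=
  Finsupp.linearCombination k fun a : ℤ =>
    if h : 0 < n then
      sh k (n * ((a - 1) / n)) (toE k n fun i => g i
        ⟨((a - 1) % n).toNat, by
          have h1 := Int.emod_nonneg (a - 1) (b := (n : ℤ)) (by omega)
          have h2 := Int.emod_lt_of_pos (a - 1) (b := (n : ℤ)) (by omega)
          omega⟩)
    else ee k a

private theorem d1_sh_ee (l b : ℤ) : sh k l (ee k b) = ee k (b + l) := by
  ext c
  rw [sh_apply]
  simp only [ee, Finsupp.single_apply]
  by_cases h : b = c - l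
  · rw [if_pos h, if_pos (by omega)]
  · rw [if_neg h, if_neg (by omega)]

private theorem d1_sh_sh (l m : ℤ) (v : E k) : sh k l (sh k m v) = sh k (m + l) v := by
  ext b
  rw [sh_apply, sh_apply, sh_apply]
  congr 1
  ring

private theorem d1_sh_zero (v : E k) : sh k 0 v = v := by
  ext b
  rw [sh_apply, sub_zero]

private theorem d1_actL_zero (g : Matrix (Fin 0) (Fin 0) k[X]) (v : E k) :
    actL k 0 g v = v := by
  have h1 : actL k 0 g = LinearMap.id := by
    refine Finsupp.lhom_ext' fun a => LinearMap.ext_ring ?_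
    change actL k 0 g (Finsupp.single a 1) = Finsupp.single a 1
    unfold actL
    rw [Finsupp.linearCombination_single, one_smul, dif_neg (lt_irrefl 0)]
  rw [h1, LinearMap.id_apply]

private theorem d1_actL_ee (g : Matrix (Fin n) (Fin n) k[X]) (j : Fin n) (l : ℤ) :
    actL k n g (ee k ((j : ℤ) + 1 + n * l)) = sh k (n * l) (toE k n fun i => g i j) := by
  have hj := j.2
  have hn : 0 < n := by omega
  have hn' : (n : ℤ) ≠ 0 := by omega
  unfold actL
  rw [ee, Finsupp.linearCombination_single, one_smul, dif_pos hn]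
  have h1 : (j : ℤ) + 1 + n * l - 1 = j + n * l := by ring
  have h2 : ((j : ℤ) + n * l) / n = l := by
    rw [Int.add_mul_ediv_left _ _ hn', Int.ediv_eq_zero_of_lt (by positivity) (by omega), zero_add]
  have h3 : (((j : ℤ) + n * l) % n).toNat = j := by
    rw [Int.add_mul_emod_self_left, Int.emod_eq_of_lt (by positivity) (by omega), Int.toNat_natCast]
  have h4 : ∀ (h : (((j : ℤ) + 1 + n * l - 1) % n).toNat < n),
      (⟨(((j : ℤ) + 1 + n * l - 1) % n).toNat, h⟩ : Fin n) = j := by
    intro h
    refine Fin.ext ?_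
    change (((j : ℤ) + 1 + n * l - 1) % n).toNat = j
    rw [h1, h3]
  simp only [h4]
  rw [h1, h2]

private theorem d1_rep_int (hn : 0 < n) (b : ℤ) :
    ∃ (j : Fin n) (l : ℤ), b = (j : ℤ) + 1 + n * l := by
  have hn' : (0 : ℤ) < n := by exact_mod_cast hn
  have h1 := Int.emod_nonneg (b - 1) hn'.ne'
  have h2 := Int.emod_lt_of_pos (b - 1) hn'
  have h3 := Int.emod_add_mul_ediv (b - 1) n
  obtain ⟨j, hj⟩ := Int.eq_ofNat_of_zero_le h1
  rw [hj] at h3 h2
  refine ⟨⟨j, by omega⟩, (b - 1) / n, ?_⟩
  simp only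
  linarith

theorem actL_sh (g : Matrix (Fin n) (Fin n) k[X]) (v : E k) :
    actL k n g (sh k n v) = sh k n (actL k n g v) := by
  rcases Nat.eq_zero_or_pos n with hn | hn
  · subst hn
    rw [d1_actL_zero, d1_actL_zero]
  · have h1 : actL k n g ∘ₗ (sh k n : E k →ₗ[k] E k) = (sh k n : E k →ₗ[k] E k) ∘ₗ actL k n g := by
      refine Finsupp.lhom_ext' fun a => LinearMap.ext_ring ?_
      change actL k n g (sh k n (ee k a)) = sh k n (actL k n g (ee k a))
      obtain ⟨j, l, rfl⟩ := d1_rep_int hn a
      rw [d1_sh_ee, d1_actL_ee]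
      have h2 : (j : ℤ) + 1 + n * l + n = (j : ℤ) + 1 + n * (l + 1) := by ring
      rw [h2, d1_actL_ee, d1_sh_sh]
      congr 2
      ring
    exact LinearMap.congr_fun h1 v

theorem actL_ee (g : Matrix (Fin n) (Fin n) k[X]) (j : Fin n) :
    actL k n g (ee k ((j : ℤ) + 1)) = toE k n fun i => g i j := by
  have h := d1_actL_ee (k := k) g j 0
  rw [mul_zero, add_zero, d1_sh_zero] at h
  exact h

/-- two linear maps commuting with the shift which agree on `e_1, …, e_n` agree -/
theorem ext_period (hn : 0 < n) {f f' : E k →ₗ[k] E k} (hf : ∀ v, f (sh k n v) = sh k n (f v))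
    (hf' : ∀ v, f' (sh k n v) = sh k n (f' v))
    (h : ∀ j : Fin n, f (ee k ((j : ℤ) + 1)) = f' (ee k ((j : ℤ) + 1))) : f = f' := by
  have step : ∀ (f : E k →ₗ[k] E k), (∀ v, f (sh k n v) = sh k n (f v)) → ∀ (c : ℕ) (v : E k),
      f (sh k (n * c) v) = sh k (n * c) (f v) := by
    intro f hf c
    induction c with
    | zero =>
      intro v
      rw [Nat.cast_zero, mul_zero, d1_sh_zero, d1_sh_zero]
    | succ c ih =>
      intro v
      have h0 : ∀ w : E k, sh k ((n : ℤ) * ((c + 1 : ℕ) : ℤ)) w = sh k n (sh k (n * c) w) := by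
        intro w
        rw [d1_sh_sh]
        congr 2
      rw [h0, h0, hf, ih]
  refine Finsupp.lhom_ext' fun a => LinearMap.ext_ring ?_
  change f (ee k a) = f' (ee k a)
  obtain ⟨j, l, rfl⟩ := d1_rep_int hn a
  rcases le_total 0 l with hl | hl
  · obtain ⟨c, rfl⟩ := Int.eq_ofNat_of_zero_le hl
    rw [← d1_sh_ee, step f hf, step f' hf', h]
  · obtain ⟨c, hc⟩ := Int.eq_ofNat_of_zero_le (neg_nonneg.2 hl)
    have h1 : sh k (n * (c : ℤ)) (ee k ((j : ℤ) + 1 + n * l)) = ee k ((j : ℤ) + 1) := by
      rw [d1_sh_ee]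
      congr 1
      have : (c : ℤ) = -l := hc.symm
      rw [this]
      ring
    apply (sh k (n * (c : ℤ))).injective
    rw [← step f hf, ← step f' hf', h1, h]

theorem actL_toE (g : Matrix (Fin n) (Fin n) k[X]) (v : Fin n → k[X]) :
    actL k n g (toE k n v) = toE k n (g.mulVec v) := by
  have h1 : actL k n g ∘ₗ toE k n = toE k n ∘ₗ (g.mulVecLin.restrictScalars k) := by
    refine LinearMap.pi_ext' fun j => Polynomial.lhom_ext' fun l => LinearMap.ext_ring ?_
    change actL k n g (toE k n (Pi.single j (Polynomial.monomial l 1)))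
      = toE k n (g.mulVec (Pi.single j (Polynomial.monomial l 1)))
    induction l with
    | zero =>
      rw [Polynomial.monomial_zero_one, toE_single, actL_ee, Matrix.mulVec_single_one]
      rfl
    | succ l ih =>
      have h2 : (Pi.single j (Polynomial.monomial (l + 1) (1 : k)) : Fin n → k[X])
          = fun i => X * (Pi.single j (Polynomial.monomial l (1 : k)) : Fin n → k[X]) i := by
        funext i
        by_cases hi : i = j
        · subst hi
          rw [Pi.single_eq_same, Pi.single_eq_same, Polynomial.X_mul_monomial]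
        · rw [Pi.single_eq_of_ne hi, Pi.single_eq_of_ne hi, mul_zero]
      have h3 : ∀ w : Fin n → k[X], g.mulVec (fun i => X * w i) = fun i => X * (g.mulVec w) i := by
        intro w
        have h4 : (fun i => X * w i) = (X : k[X]) • w := by
          funext i
          rfl
        rw [h4, Matrix.mulVec_smul]
        rfl
      rw [h2, toE_X, actL_sh, ih, h3, toE_X]
  exact LinearMap.congr_fun h1 v

theorem actL_mul (g h : Matrix (Fin n) (Fin n) k[X]) (v : E k) :
    actL k n (g * h) v = actL k n g (actL k n h v) := by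
  rcases Nat.eq_zero_or_pos n with hn | hn
  · subst hn
    rw [d1_actL_zero, d1_actL_zero, d1_actL_zero]
  · have h1 : actL k n (g * h) = actL k n g ∘ₗ actL k n h := by
      refine ext_period hn (actL_sh _) (fun v => ?_) fun j => ?_
      · rw [LinearMap.comp_apply, LinearMap.comp_apply, actL_sh, actL_sh]
      · rw [LinearMap.comp_apply, actL_ee, actL_ee, actL_toE]
        rfl
    rw [h1, LinearMap.comp_apply]

theorem actL_one (v : E k) : actL k n 1 v = v := by
  rcases Nat.eq_zero_or_pos n with hn | hn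
  · subst hn
    rw [d1_actL_zero]
  · have h1 : actL k n 1 = LinearMap.id := by
      refine ext_period hn (actL_sh _) (fun v => rfl) fun j => ?_
      rw [LinearMap.id_apply, actL_ee, ← toE_single]
      congr 1
      funext i
      rw [Matrix.one_apply, Pi.single_apply]
    rw [h1, LinearMap.id_apply]

variable (k n) in
/-- the action of `SL_n(k[X])` on `E k` -/
noncomputable def slAct : SLk k n →* (E k ≃ₗ[k] E k) where
  toFun g := LinearEquiv.ofLinearMap (actL k n g) (actL k n (g⁻¹ : SLk k n))
    (by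
      refine LinearMap.ext fun v => ?_
      rw [LinearMap.comp_apply, ← actL_mul, ← Matrix.SpecialLinearGroup.coe_mul, mul_inv_cancel,
        Matrix.SpecialLinearGroup.coe_one, actL_one, LinearMap.id_apply])
    (by
      refine LinearMap.ext fun v => ?_
      rw [LinearMap.comp_apply, ← actL_mul, ← Matrix.SpecialLinearGroup.coe_mul, inv_mul_cancel,
        Matrix.SpecialLinearGroup.coe_one, actL_one, LinearMap.id_apply])
  map_one' := by
    refine LinearEquiv.ext fun v => ?_
    change actL k n ((1 : SLk k n) : Matrix (Fin n) (Fin n) k[X]) v = v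
    rw [Matrix.SpecialLinearGroup.coe_one, actL_one]
  map_mul' := by
    intro g h
    refine LinearEquiv.ext fun v => ?_
    change actL k n ((g * h : SLk k n) : Matrix (Fin n) (Fin n) k[X]) v
      = actL k n (g : Matrix (Fin n) (Fin n) k[X]) (actL k n (h : Matrix (Fin n) (Fin n) k[X]) v)
    rw [Matrix.SpecialLinearGroup.coe_mul, actL_mul]

theorem act_apply (g : SLk k n) (v : E k) :
    slAct k n g v = actL k n (g : Matrix (Fin n) (Fin n) k[X]) v := rfl

end

end Vale.P067
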