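import Mathlib
import Vale.Agent.Lib.P067.D1.IsoA
import Vale.Agent.Lib.P067.D1.Cmp

/-!
# P067, part D1: `Umat k n ≃ U k n`
-/

namespace Vale.P067

open scoped Classical
open Polynomial

section

variable {k : Type*} [Field k] {n : ℕ}

theorem d1_sh_ee (l b : ℤ) : sh k l (ee k b) = ee k (b + l) := by
  ext c
  rw [sh_apply]
  simp only [ee, Finsupp.single_apply]
  by_cases h : b = c - l
  · rw [if_pos h, if_pos (by omega)]
  · rw [if_neg h, if_neg (by omega)]

theorem d1_sh_sh (l l' : ℤ) (v : E k) : sh k l (sh k l' v) = sh k (l + l') v := by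
  ext c
  rw [sh_apply, sh_apply, sh_apply]
  congr 1
  ring

theorem d1_sh_zero (v : E k) : sh k 0 v = v := by
  ext c
  rw [sh_apply, sub_zero]

/-- a map commuting with `sh k n` commutes with `sh k (n q)`, `q` an integer -/
theorem d1_comm_sh {f : E k →ₗ[k] E k} (hf : ∀ v, f (sh k n v) = sh k n (f v)) (q : ℤ) (v : E k) :
    f (sh k (n * q) v) = sh k (n * q) (f v) := by
  have key : ∀ (c : ℕ) (v : E k), f (sh k (n * (c : ℤ)) v) = sh k (n * (c : ℤ)) (f v) := by
    intro c
    induction c with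
    | zero =>
      intro v
      simp only [Nat.cast_zero, mul_zero]
      rw [d1_sh_zero, d1_sh_zero]
    | succ c ih =>
      intro v
      have h0 : ∀ w : E k, sh k ((n : ℤ) * ((c + 1 : ℕ) : ℤ)) w = sh k n (sh k (n * c) w) := by
        intro w
        have h1 : (n : ℤ) * ((c + 1 : ℕ) : ℤ) = n + n * c := by
          push_cast
          ring
        rw [d1_sh_sh, h1]
      rw [h0, h0, hf, ih]
  rcases le_total 0 q with h | h
  · obtain ⟨c, rfl⟩ := Int.eq_ofNat_of_zero_le h
    exact key c v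
  · obtain ⟨c, hc⟩ := Int.eq_ofNat_of_zero_le (neg_nonneg.2 h)
    have hq : q = -(c : ℤ) := by omega
    subst hq
    apply (sh k (n * (c : ℤ))).injective
    rw [← key, d1_sh_sh, d1_sh_sh]
    have h1 : (n : ℤ) * c + n * -(c : ℤ) = 0 := by ring
    rw [h1, d1_sh_zero, d1_sh_zero]

theorem d1_sub (hn : n = 0) (g : SLk k n) : g = 1 := by
  subst hn
  exact Subsingleton.elim _ _

/-- decomposition of an integer -/
theorem d1_decomp (hn : 0 < n) (a : ℤ) : ∃ (j : Fin n) (q : ℤ), a = (j : ℤ) + 1 + n * q := by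
  have hn' : (0 : ℤ) < n := by exact_mod_cast hn
  have h1 := Int.emod_nonneg (a - 1) hn'.ne'
  have h2 := Int.emod_lt_of_pos (a - 1) hn'
  have h3 := Int.emod_add_mul_ediv (a - 1) n
  refine ⟨⟨((a - 1) % n).toNat, by omega⟩, (a - 1) / n, ?_⟩
  have h4 : ((((a - 1) % n).toNat : ℕ) : ℤ) = (a - 1) % n := Int.toNat_of_nonneg h1
  change a = ((((a - 1) % n).toNat : ℕ) : ℤ) + 1 + n * ((a - 1) / n)
  rw [h4]
  linarith

theorem d1_toE_coeff_zero (v : Fin n → k[X]) (i : Fin n) :
    toE k n v ((i : ℤ) + 1) = (v i).coeff 0 := by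
  have h := toE_apply v i 0
  simpa using h

theorem d1_dvd_iff (p q : k[X]) : X ∣ p - q ↔ p.coeff 0 = q.coeff 0 := by
  rw [X_dvd_iff, coeff_sub, sub_eq_zero]

theorem d1_one_coeff (i j : Fin n) :
    ((1 : Matrix (Fin n) (Fin n) k[X]) i j).coeff 0 = ee k ((j : ℤ) + 1) ((i : ℤ) + 1) := by
  simp only [ee, Finsupp.single_apply, Matrix.one_apply]
  by_cases h : i = j
  · subst h
    simp
  · rw [if_neg h, if_neg]
    · simp
    · intro h1
      apply h
      apply Fin.ext
      omega

/-- Let `g` satisfy `LowU`.  `slAct g e_a - e_a ∈ M a`: by periodicity `a = j + 1`, where it is `toE` of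
`i ↦ g i j - 1 i j`; the coordinate at `i + 1 + n l` is `coeff (g i j - 1 i j) l`, nonzero only if
`i > j` or `l ≥ 1`, and then `i + 1 + n l > j + 1`. -/
theorem act_sub_mem (g : SLk k n) (hg : LowU g) (a : ℤ) : slAct k n g (ee k a) - ee k a ∈ M k a := by
  rcases Nat.eq_zero_or_pos n with hn | hn
  · rw [d1_sub hn g, map_one]
    change ee k a - ee k a ∈ M k a
    rw [sub_self]
    exact Submodule.zero_mem _
  · obtain ⟨j, q, rfl⟩ := d1_decomp hn a
    rw [← d1_sh_ee, act_apply, d1_comm_sh (actL_sh (g : Matrix (Fin n) (Fin n) k[X])), ← map_sub,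
      actL_ee]
    intro b hb
    rw [sh_apply]
    set b' := b - n * q with hb'
    have hbj : b' ≤ (j : ℤ) + 1 := by omega
    rw [Finsupp.sub_apply]
    rcases le_or_gt b' 0 with h0 | h0
    · rw [toE_apply_nonpos _ h0]
      simp only [ee, Finsupp.single_apply]
      rw [if_neg (by omega), sub_zero]
    · have hlt : b' - 1 < n := by
        have := j.2
        omega
      obtain ⟨i, hi⟩ : ∃ i : Fin n, (i : ℤ) + 1 = b' :=
        ⟨⟨(b' - 1).toNat, by omega⟩, by
          change (((b' - 1).toNat : ℕ) : ℤ) + 1 = b'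
          omega⟩
      rw [← hi, d1_toE_coeff_zero, ← d1_one_coeff]
      have hij : i ≤ j := by
        rw [Fin.le_def]
        omega
      rw [(d1_dvd_iff _ _).1 (hg i j hij), sub_self]

theorem act_mem_U (g : SLk k n) (hg : g ∈ Umat k n) : slAct k n g ∈ U k n :=
  mem_U_of (fun v => by rw [act_apply, act_apply, actL_sh]) (act_sub_mem g hg.1)

theorem d1_actL_inj {G H : Matrix (Fin n) (Fin n) k[X]}
    (h : ∀ j : Fin n, actL k n G (ee k ((j : ℤ) + 1)) = actL k n H (ee k ((j : ℤ) + 1))) :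
    G = H := by
  ext1 i j
  have h1 := h j
  rw [actL_ee, actL_ee] at h1
  exact congrFun (toE_inj h1) i

theorem act_inj (hn : 0 < n) : Function.Injective (slAct k n) := by
  intro g h hgh
  apply Subtype.ext
  apply d1_actL_inj
  intro j
  have h1 := congrArg (fun f : E k ≃ₗ[k] E k => f (ee k ((j : ℤ) + 1))) hgh
  exact h1

/-- the matrix of an element of `U` -/
theorem d1_matrix (hn : 0 < n) (u : E k ≃ₗ[k] E k) (hu : u ∈ U k n) :
    ∃ G : Matrix (Fin n) (Fin n) k[X], (∀ v, actL k n G v = u v) ∧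
      ∀ i j, i ≤ j → X ∣ G i j - (1 : Matrix (Fin n) (Fin n) k[X]) i j := by
  have h1 : ∀ j : Fin n, ∃ v : Fin n → k[X], toE k n v = u (ee k ((j : ℤ) + 1)) := by
    intro j
    apply toE_surj hn
    exact U_sub_mem hu 0 (ee_mem_M k (by omega))
  choose v hv using h1
  refine ⟨Matrix.of fun i j => v j i, ?_, ?_⟩
  · have h2 : actL k n (Matrix.of fun i j => v j i) = (u : E k →ₗ[k] E k) := by
      apply ext_period hn (actL_sh _) hu.1
      intro j
      rw [actL_ee]
      exact hv j
    intro w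
    rw [h2]
    rfl
  · intro i j hij
    rw [d1_dvd_iff, d1_one_coeff, Matrix.of_apply, ← d1_toE_coeff_zero, hv]
    have h3 := hu.2.1 ((j : ℤ) + 1) ((i : ℤ) + 1) (by
      have := Fin.le_def.1 hij
      omega)
    rw [Finsupp.sub_apply, sub_eq_zero] at h3
    exact h3

/-- the determinant -/
theorem d1_det {G G' : Matrix (Fin n) (Fin n) k[X]} (h : G * G' = 1)
    (hG : ∀ i j, i ≤ j → X ∣ G i j - (1 : Matrix (Fin n) (Fin n) k[X]) i j) : G.det = 1 := by
  have hunit : IsUnit G.det := by
    have h1 : G.det * G'.det = 1 := by rw [← Matrix.det_mul, h, Matrix.det_one]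
    exact IsUnit.of_mul_eq_one _ h1
  obtain ⟨r, -, hr⟩ := Polynomial.isUnit_iff.1 hunit
  have h0 : constantCoeff G.det = 1 := by
    rw [RingHom.map_det]
    have htri : (constantCoeff.mapMatrix G).BlockTriangular OrderDual.toDual := by
      intro i j hij
      have hij' : i < j := hij
      have h1 := (d1_dvd_iff _ _).1 (hG i j hij'.le)
      rw [Matrix.one_apply_ne hij'.ne] at h1
      simpa using h1
    rw [Matrix.det_of_isLowerTriangular _ htri]
    apply Finset.prod_eq_one
    intro i _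
    have h1 := (d1_dvd_iff _ _).1 (hG i i le_rfl)
    rw [Matrix.one_apply_eq] at h1
    simpa using h1
  rw [← hr] at h0 ⊢
  have h2 : r = 1 := by simpa using h0
  rw [h2, map_one]

/-- surjectivity: for `u ∈ U k n` the matrix `G u` with columns `toE⁻¹ (u e_{j+1})` satisfies
`actL (G u) = u` (`ext_period`), `G u * G u⁻¹ = 1`, so its determinant is a unit of `k[X]`, a constant,
and its value at `0` is the determinant of a lower unitriangular matrix, `1`. -/
theorem act_surj (hn : 0 < n) (u : E k ≃ₗ[k] E k) (hu : u ∈ U k n) :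
    ∃ g ∈ Umat k n, slAct k n g = u := by
  obtain ⟨G, hG, hG1⟩ := d1_matrix hn u hu
  obtain ⟨G', hG', hG1'⟩ := d1_matrix hn u⁻¹ ((U k n).inv_mem hu)
  have hmul : G * G' = 1 := by
    apply d1_actL_inj
    intro j
    rw [actL_mul, hG', hG, actL_one]
    exact u.apply_symm_apply _
  have hdet : G.det = 1 := d1_det hmul hG1
  set g : SLk k n := ⟨G, hdet⟩ with hg
  have hinv : ((g⁻¹ : SLk k n) : Matrix (Fin n) (Fin n) k[X]) = G' := by
    have h1 : ((g⁻¹ : SLk k n) : Matrix (Fin n) (Fin n) k[X]) * G = 1 := by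
      have h2 : g⁻¹ * g = 1 := inv_mul_cancel g
      have h3 : ((g⁻¹ * g : SLk k n) : Matrix (Fin n) (Fin n) k[X]) =
          ((1 : SLk k n) : Matrix (Fin n) (Fin n) k[X]) := by rw [h2]
      rw [Matrix.SpecialLinearGroup.coe_mul, Matrix.SpecialLinearGroup.coe_one] at h3
      exact h3
    calc ((g⁻¹ : SLk k n) : Matrix (Fin n) (Fin n) k[X])
        = ((g⁻¹ : SLk k n) : Matrix (Fin n) (Fin n) k[X]) * (G * G') := by rw [hmul, mul_one]
      _ = _ := by rw [← mul_assoc, h1, one_mul]
  refine ⟨g, ⟨fun i j hij => hG1 i j hij, fun i j hij => ?_⟩, ?_⟩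
  · rw [hinv]
    exact hG1' i j hij
  · refine LinearEquiv.ext fun v => ?_
    rw [act_apply]
    exact hG v

theorem act_mem_Nc {m : ℕ} (hm : 1 ≤ m) (g : SLk k n) (hg : g ∈ Umat k n) :
    (⟨slAct k n g, act_mem_U g hg⟩ : U k n) ∈ Nc k n m ↔ g ∈ Ncg k n m := by
  rcases Nat.eq_zero_or_pos n with hn | hn
  · have h1 : g = 1 := d1_sub hn g
    subst h1
    constructor
    · intro _
      exact one_mem _
    · intro _ v _
      change slAct k n 1 v - v ∈ M k (m * n)
      rw [map_one]
      change v - v ∈ M k (m * n)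
      rw [sub_self]
      exact Submodule.zero_mem _
  · have key : ∀ w : Fin n → k[X], slAct k n g (toE k n w) - toE k n w =
        toE k n ((g : Matrix (Fin n) (Fin n) k[X]).mulVec w - w) := by
      intro w
      rw [act_apply, actL_toE, map_sub]
    constructor
    · intro h i j
      have h1 : slAct k n g (toE k n (Pi.single j 1)) - toE k n (Pi.single j 1) ∈ M k (m * n) :=
        h _ (toE_mem _)
      rw [key, toE_mem_iff] at h1
      have h2 := h1 i
      rw [Matrix.mulVec_single_one] at h2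
      have h3 : (Pi.single j 1 : Fin n → k[X]) i = (1 : Matrix (Fin n) (Fin n) k[X]) i j := by
        rw [Matrix.one_apply, Pi.single_apply]
      rw [← h3]
      exact h2
    · intro h v hv
      obtain ⟨w, rfl⟩ := toE_surj hn hv
      change slAct k n g (toE k n w) - toE k n w ∈ M k (m * n)
      rw [key, toE_mem_iff]
      intro i
      have h3 : ((g : Matrix (Fin n) (Fin n) k[X]).mulVec w - w) i =
          ∑ j, ((g : Matrix (Fin n) (Fin n) k[X]) i j - (1 : Matrix (Fin n) (Fin n) k[X]) i j) *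
            w j := by
        have h4 : w i = (1 : Matrix (Fin n) (Fin n) k[X]).mulVec w i := by rw [Matrix.one_mulVec]
        rw [Pi.sub_apply, h4]
        simp only [Matrix.mulVec, dotProduct, sub_mul, Finset.sum_sub_distrib]
      rw [h3]
      exact Finset.dvd_sum fun j _ => Dvd.dvd.mul_right (h i j) _

variable (k n) in
/-- the homomorphism `Umat → U` -/
noncomputable def kap : Umat k n →* U k n where
  toFun g := ⟨slAct k n g, act_mem_U g.1 g.2⟩
  map_one' := by
    apply Subtype.ext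
    exact map_one (slAct k n)
  map_mul' := by
    intro a b
    apply Subtype.ext
    exact map_mul (slAct k n) (a : SLk k n) (b : SLk k n)

theorem kap_inj (hn : 0 < n) : Function.Injective (kap k n) := by
  intro a b hab
  apply Subtype.ext
  apply act_inj hn
  exact congrArg Subtype.val hab

theorem kap_surj (hn : 0 < n) : Function.Surjective (kap k n) := by
  intro u
  obtain ⟨g, hg, hu⟩ := act_surj hn (u : E k ≃ₗ[k] E k) u.2
  exact ⟨⟨g, hg⟩, Subtype.ext hu⟩

theorem kap_Nc {m : ℕ} (hm : 1 ≤ m) (hn : 0 < n) :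
    ((Ncg k n m).subgroupOf (Umat k n)).map (kap k n) = Nc k n m := by
  ext u
  constructor
  · rintro ⟨g, hg, rfl⟩
    exact (act_mem_Nc hm g.1 g.2).2 hg
  · intro hu
    obtain ⟨g, rfl⟩ := kap_surj hn u
    exact ⟨g, (act_mem_Nc hm g.1 g.2).1 hu, rfl⟩

/-- transport of exactness: `(tup ↥U ↥U).Ex P` for `P ≤ U` and `(tup SL SL).Ex Q` for `Q ≤ Umat`,
`kap (Q) = P`.  Let `Γ' = ↥(Umat k n)`.  `ex_of_hom` (`ρ = kap`; `Γ'` acts on `↥(U k n)` through `kap`,
`MulAction.compHom`), `cmp` for `Γ'` (both actions are free: good stabilizers, the trivial group is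
good), `ex_of_hom` (`ρ = Subgroup.subtype`). -/
theorem ex_transport (hn : 0 < n) (P : Subgroup (U k n)) (Q : Subgroup (SLk k n))
    (hQ : Q ≤ Umat k n) (hPQ : (Q.subgroupOf (Umat k n)).map (kap k n) = P) (i : ℕ) :
    (tup (U k n) (U k n)).Ex P (i + 1) ↔ (tup (SLk k n) (SLk k n)).Ex Q (i + 1) := by
  let _ : MulAction ↥(Umat k n) ↥(U k n) := MulAction.compHom (U k n) (kap k n)
  have h1 := ex_of_hom (Γ := ↥(U k n)) (E := ↥(U k n)) (Γ' := ↥(Umat k n)) (kap k n)
    (fun _ _ => rfl) (Q.subgroupOf (Umat k n)) P hPQ (i + 1)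
  have h2 := ex_of_hom (Γ := SLk k n) (E := SLk k n) (Γ' := ↥(Umat k n)) (Umat k n).subtype
    (fun _ _ => rfl) (Q.subgroupOf (Umat k n)) Q (Subgroup.map_subgroupOf_eq_of_le hQ) (i + 1)
  have hf1 : ∀ (g : ↥(Umat k n)) (x : ↥(U k n)), g • x = x → g = 1 := by
    intro g x h
    apply kap_inj hn
    rw [map_one]
    have h3 : kap k n g * x = x := h
    exact mul_eq_right.mp h3
  have hf2 : ∀ (g : ↥(Umat k n)) (x : SLk k n), g • x = x → g = 1 := by
    intro g x h
    have h3 : (g : SLk k n) * x = x := h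
    exact Subtype.ext (mul_eq_right.mp h3)
  rw [← h1, ← h2]
  constructor
  · exact cmp (Γ := ↥(Umat k n)) (E := ↥(U k n)) (Z := SLk k n) (Q.subgroupOf (Umat k n))
      (good_of_free _ hf1) (good_of_free _ hf2) i
  · exact cmp (Γ := ↥(Umat k n)) (E := SLk k n) (Z := ↥(U k n)) (Q.subgroupOf (Umat k n))
      (good_of_free _ hf2) (good_of_free _ hf1) i

end

end Vale.P067
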