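import Mathlib
import Vale.Agent.Lib.P067.DDefs
import Vale.Agent.Lib.P067.D1.GoodA

/-!
# P067, part D1: the pointwise stabilizer of the first `p` basis vectors in the congruence subgroup

`Fx k n m p` = elements of `Ncg k n m` with trivial first `p` columns.  For `n = p + r` such a matrix
is `(1 X; 0 h)` and `blk : (1 X; 0 h) ↦ h` is a homomorphism onto `Ncg k r m` with kernel
`{(1 X; 0 1)}`, which is good.
-/

namespace Vale.P067

open scoped Classical
open Polynomial

section

variable (k : Type*) [Field k]

/-- first `p` columns trivial -/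
def Fx (n m p : ℕ) : Subgroup (SLk k n) where
  carrier := {g | g ∈ Ncg k n m ∧ ∀ i j : Fin n, (j : ℕ) < p →
    (g : Matrix (Fin n) (Fin n) k[X]) i j = (1 : Matrix (Fin n) (Fin n) k[X]) i j}
  mul_mem' := by
    rintro a b ⟨ha, ha'⟩ ⟨hb, hb'⟩
    refine ⟨(Ncg k n m).mul_mem ha hb, fun i j hj => ?_⟩
    rw [Matrix.SpecialLinearGroup.coe_mul, Matrix.mul_apply, ← ha' i j hj]
    have h : ∀ l, (a : Matrix (Fin n) (Fin n) k[X]) i l * (b : Matrix (Fin n) (Fin n) k[X]) l j =
        (a : Matrix (Fin n) (Fin n) k[X]) i l * (1 : Matrix (Fin n) (Fin n) k[X]) l j := by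
      intro l
      rw [hb' l j hj]
    rw [Finset.sum_congr rfl fun l _ => h l, ← Matrix.mul_apply, Matrix.mul_one]
  one_mem' := by
    refine ⟨(Ncg k n m).one_mem, fun i j _ => ?_⟩
    rw [Matrix.SpecialLinearGroup.coe_one]
  inv_mem' := by
    rintro a ⟨ha, ha'⟩
    refine ⟨(Ncg k n m).inv_mem ha, fun i j hj => ?_⟩
    have h2 : ((a⁻¹ : SLk k n) : Matrix (Fin n) (Fin n) k[X]) * (a : Matrix (Fin n) (Fin n) k[X]) =
        1 := by
      rw [← Matrix.SpecialLinearGroup.coe_mul, inv_mul_cancel, Matrix.SpecialLinearGroup.coe_one]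
    rw [← h2, Matrix.mul_apply]
    have h : ∀ l, ((a⁻¹ : SLk k n) : Matrix (Fin n) (Fin n) k[X]) i l *
        (a : Matrix (Fin n) (Fin n) k[X]) l j =
        ((a⁻¹ : SLk k n) : Matrix (Fin n) (Fin n) k[X]) i l *
          (1 : Matrix (Fin n) (Fin n) k[X]) l j := by
      intro l
      rw [ha' l j hj]
    rw [Finset.sum_congr rfl fun l _ => h l, ← Matrix.mul_apply, Matrix.mul_one]

variable {k}

/-- lower right block of a matrix -/
def lowr {r : ℕ} (p : ℕ) (g : Matrix (Fin (p + r)) (Fin (p + r)) k[X]) :
    Matrix (Fin r) (Fin r) k[X] := g.submatrix (Fin.natAdd p) (Fin.natAdd p)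

theorem d1_Fx_low {p r m : ℕ} (g : Fx k (p + r) m p) (a : Fin r) (b : Fin p) :
    ((g : SLk k (p + r)) : Matrix (Fin (p + r)) (Fin (p + r)) k[X]) (Fin.natAdd p a)
      (Fin.castAdd r b) = 0 := by
  rw [g.2.2 _ _ (by simp)]
  refine Matrix.one_apply_ne fun h => ?_
  have := congrArg Fin.val h
  simp only [Fin.val_natAdd, Fin.val_castAdd] at this
  omega

theorem d1_Fx_up {p r m : ℕ} (g : Fx k (p + r) m p) (a b : Fin p) :
    ((g : SLk k (p + r)) : Matrix (Fin (p + r)) (Fin (p + r)) k[X]) (Fin.castAdd r a)
      (Fin.castAdd r b) = (1 : Matrix (Fin p) (Fin p) k[X]) a b := by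
  rw [g.2.2 _ _ (by simp)]
  by_cases h : a = b
  · subst h
    rw [Matrix.one_apply_eq, Matrix.one_apply_eq]
  · rw [Matrix.one_apply_ne h, Matrix.one_apply_ne]
    intro h'
    exact h (Fin.castAdd_injective p r h')

/-- determinant of the block: reindex by `finSumFinEquiv`, `Matrix.det_fromBlocks_zero₂₁` -/
theorem det_lowr {p r m : ℕ} (g : Fx k (p + r) m p) :
    (lowr p ((g : SLk k (p + r)) : Matrix (Fin (p + r)) (Fin (p + r)) k[X])).det = 1 := by
  have h1 : (((g : SLk k (p + r)) : Matrix (Fin (p + r)) (Fin (p + r)) k[X]).submatrix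
      finSumFinEquiv finSumFinEquiv) = Matrix.fromBlocks (1 : Matrix (Fin p) (Fin p) k[X])
        (((g : SLk k (p + r)) : Matrix (Fin (p + r)) (Fin (p + r)) k[X]).submatrix
          (Fin.castAdd r) (Fin.natAdd p)) 0
        (lowr p ((g : SLk k (p + r)) : Matrix (Fin (p + r)) (Fin (p + r)) k[X])) := by
    refine Matrix.ext fun i j => ?_
    rcases i with i | i <;> rcases j with j | j
    · simp only [Matrix.submatrix_apply, finSumFinEquiv_apply_left, Matrix.fromBlocks_apply₁₁]
      exact d1_Fx_up g i j
    · simp only [Matrix.submatrix_apply, finSumFinEquiv_apply_left, finSumFinEquiv_apply_right,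
        Matrix.fromBlocks_apply₁₂]
    · simp only [Matrix.submatrix_apply, finSumFinEquiv_apply_left, finSumFinEquiv_apply_right,
        Matrix.fromBlocks_apply₂₁]
      exact d1_Fx_low g i j
    · simp only [Matrix.submatrix_apply, finSumFinEquiv_apply_right, Matrix.fromBlocks_apply₂₂]
      rfl
  have h2 := Matrix.det_submatrix_equiv_self finSumFinEquiv
    ((g : SLk k (p + r)) : Matrix (Fin (p + r)) (Fin (p + r)) k[X])
  rw [h1, Matrix.det_fromBlocks_zero₂₁, Matrix.det_one, one_mul] at h2
  rw [h2]
  exact (g : SLk k (p + r)).2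

theorem d1_lowr_mul {p r m : ℕ} (g h : Fx k (p + r) m p) :
    lowr p (((g * h : Fx k (p + r) m p) : SLk k (p + r)) :
      Matrix (Fin (p + r)) (Fin (p + r)) k[X]) =
    lowr p ((g : SLk k (p + r)) : Matrix (Fin (p + r)) (Fin (p + r)) k[X]) *
      lowr p ((h : SLk k (p + r)) : Matrix (Fin (p + r)) (Fin (p + r)) k[X]) := by
  ext1 i j
  rw [Matrix.mul_apply]
  unfold lowr
  simp only [Matrix.submatrix_apply]
  rw [Subgroup.coe_mul, Matrix.SpecialLinearGroup.coe_mul, Matrix.mul_apply, Fin.sum_univ_add]
  have h0 : ∑ l : Fin p, ((g : SLk k (p + r)) : Matrix (Fin (p + r)) (Fin (p + r)) k[X])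
      (Fin.natAdd p i) (Fin.castAdd r l) *
      ((h : SLk k (p + r)) : Matrix (Fin (p + r)) (Fin (p + r)) k[X]) (Fin.castAdd r l)
        (Fin.natAdd p j) = 0 := by
    refine Finset.sum_eq_zero fun l _ => ?_
    rw [d1_Fx_low, zero_mul]
  rw [h0, zero_add]

theorem d1_lowr_one {p r : ℕ} :
    lowr p (1 : Matrix (Fin (p + r)) (Fin (p + r)) k[X]) = (1 : Matrix (Fin r) (Fin r) k[X]) := by
  ext1 i j
  unfold lowr
  simp only [Matrix.submatrix_apply]
  by_cases h : i = j
  · subst h
    rw [Matrix.one_apply_eq, Matrix.one_apply_eq]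
  · rw [Matrix.one_apply_ne h, Matrix.one_apply_ne]
    intro h'
    exact h (Fin.natAdd_injective r p h')

/-- the block homomorphism -/
noncomputable def blk (k : Type*) [Field k] (p r m : ℕ) : Fx k (p + r) m p →* SLk k r where
  toFun g := ⟨lowr p ((g : SLk k (p + r)) : Matrix (Fin (p + r)) (Fin (p + r)) k[X]), det_lowr g⟩
  map_one' := by
    apply Subtype.ext
    show lowr p (((1 : Fx k (p + r) m p) : SLk k (p + r)) :
      Matrix (Fin (p + r)) (Fin (p + r)) k[X]) = 1
    rw [Subgroup.coe_one, Matrix.SpecialLinearGroup.coe_one, d1_lowr_one]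
  map_mul' := by
    intro g h
    apply Subtype.ext
    exact d1_lowr_mul g h

theorem blk_apply {p r m : ℕ} (g : Fx k (p + r) m p) (a b : Fin r) :
    ((blk k p r m g : SLk k r) : Matrix (Fin r) (Fin r) k[X]) a b =
      ((g : SLk k (p + r)) : Matrix (Fin (p + r)) (Fin (p + r)) k[X]) (Fin.natAdd p a)
        (Fin.natAdd p b) := rfl

theorem d1_one_natAdd {p r : ℕ} (a b : Fin r) :
    (1 : Matrix (Fin (p + r)) (Fin (p + r)) k[X]) (Fin.natAdd p a) (Fin.natAdd p b) =
      (1 : Matrix (Fin r) (Fin r) k[X]) a b := by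
  have h := d1_lowr_one (k := k) (p := p) (r := r)
  have h2 := congrFun (congrFun h a) b
  exact h2

/-- the image is the congruence subgroup (for surjectivity use the block diagonal matrix
`(1 0; 0 h)`, `Matrix.fromBlocks` reindexed) -/
theorem blk_range (p r m : ℕ) : (⊤ : Subgroup (Fx k (p + r) m p)).map (blk k p r m) =
    Ncg k r m := by
  ext h
  constructor
  · rintro ⟨g, _, rfl⟩
    intro i j
    rw [blk_apply, ← d1_one_natAdd (p := p)]
    exact g.2.1 _ _
  · intro hh
    let M : Matrix (Fin p ⊕ Fin r) (Fin p ⊕ Fin r) k[X] :=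
      Matrix.fromBlocks 1 0 0 (h : Matrix (Fin r) (Fin r) k[X])
    let g0 : Matrix (Fin (p + r)) (Fin (p + r)) k[X] :=
      M.submatrix finSumFinEquiv.symm finSumFinEquiv.symm
    have hdet : g0.det = 1 := by
      show (M.submatrix finSumFinEquiv.symm finSumFinEquiv.symm).det = 1
      rw [Matrix.det_submatrix_equiv_self]
      show (Matrix.fromBlocks 1 0 0 (h : Matrix (Fin r) (Fin r) k[X])).det = 1
      rw [Matrix.det_fromBlocks_zero₂₁, Matrix.det_one, one_mul]
      exact h.2
    have e1 : ∀ a b : Fin p, g0 (Fin.castAdd r a) (Fin.castAdd r b) =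
        (1 : Matrix (Fin p) (Fin p) k[X]) a b := by
      intro a b
      show M (finSumFinEquiv.symm _) (finSumFinEquiv.symm _) = _
      rw [finSumFinEquiv_symm_apply_castAdd, finSumFinEquiv_symm_apply_castAdd]
      rfl
    have e2 : ∀ (a : Fin p) (b : Fin r), g0 (Fin.castAdd r a) (Fin.natAdd p b) = 0 := by
      intro a b
      show M (finSumFinEquiv.symm _) (finSumFinEquiv.symm _) = _
      rw [finSumFinEquiv_symm_apply_castAdd, finSumFinEquiv_symm_apply_natAdd]
      rfl
    have e3 : ∀ (a : Fin r) (b : Fin p), g0 (Fin.natAdd p a) (Fin.castAdd r b) = 0 := by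
      intro a b
      show M (finSumFinEquiv.symm _) (finSumFinEquiv.symm _) = _
      rw [finSumFinEquiv_symm_apply_castAdd, finSumFinEquiv_symm_apply_natAdd]
      rfl
    have e4 : ∀ a b : Fin r, g0 (Fin.natAdd p a) (Fin.natAdd p b) =
        (h : Matrix (Fin r) (Fin r) k[X]) a b := by
      intro a b
      show M (finSumFinEquiv.symm _) (finSumFinEquiv.symm _) = _
      rw [finSumFinEquiv_symm_apply_natAdd, finSumFinEquiv_symm_apply_natAdd]
      rfl
    have o1 : ∀ a b : Fin p, (1 : Matrix (Fin (p + r)) (Fin (p + r)) k[X]) (Fin.castAdd r a)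
        (Fin.castAdd r b) = (1 : Matrix (Fin p) (Fin p) k[X]) a b := by
      intro a b
      by_cases hab : a = b
      · subst hab
        rw [Matrix.one_apply_eq, Matrix.one_apply_eq]
      · rw [Matrix.one_apply_ne hab, Matrix.one_apply_ne]
        intro h'
        exact hab (Fin.castAdd_injective p r h')
    have o2 : ∀ (a : Fin p) (b : Fin r), (1 : Matrix (Fin (p + r)) (Fin (p + r)) k[X])
        (Fin.castAdd r a) (Fin.natAdd p b) = 0 := by
      intro a b
      refine Matrix.one_apply_ne fun h' => ?_
      have := congrArg Fin.val h'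
      simp only [Fin.val_natAdd, Fin.val_castAdd] at this
      omega
    have o3 : ∀ (a : Fin r) (b : Fin p), (1 : Matrix (Fin (p + r)) (Fin (p + r)) k[X])
        (Fin.natAdd p a) (Fin.castAdd r b) = 0 := by
      intro a b
      refine Matrix.one_apply_ne fun h' => ?_
      have := congrArg Fin.val h'
      simp only [Fin.val_natAdd, Fin.val_castAdd] at this
      omega
    have hN : ∀ i j, (X : k[X]) ^ m ∣ g0 i j - (1 : Matrix (Fin (p + r)) (Fin (p + r)) k[X]) i j := by
      intro i j
      induction i using Fin.addCases with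
      | left a =>
        induction j using Fin.addCases with
        | left b => rw [e1, o1, sub_self]; exact dvd_zero _
        | right b => rw [e2, o2, sub_self]; exact dvd_zero _
      | right a =>
        induction j using Fin.addCases with
        | left b => rw [e3, o3, sub_self]; exact dvd_zero _
        | right b => rw [e4, d1_one_natAdd]; exact hh a b
    have hF : ∀ i j : Fin (p + r), (j : ℕ) < p →
        g0 i j = (1 : Matrix (Fin (p + r)) (Fin (p + r)) k[X]) i j := by
      intro i j hj
      induction j using Fin.addCases with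
      | left b =>
        induction i using Fin.addCases with
        | left a => rw [e1, o1]
        | right a => rw [e3, o3]
      | right b =>
        simp only [Fin.val_natAdd] at hj
        omega
    refine ⟨⟨⟨g0, hdet⟩, ⟨hN, hF⟩⟩, trivial, ?_⟩
    apply Subtype.ext
    ext1 a b
    exact e4 a b

/-- the kernel is good: `g ↦` (upper right block) is an injective homomorphism to
`Multiplicative (Fin p → Fin r → k[X])`, of odd exponent `p₀ = char k` -/
theorem blk_ker_good [Finite k] (hk : Odd (Nat.card k)) (p r m : ℕ) :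
    Good ↥(blk k p r m).ker := by
  have hker : ∀ (g : (blk k p r m).ker) (a b : Fin r),
      (((g : Fx k (p + r) m p) : SLk k (p + r)) : Matrix (Fin (p + r)) (Fin (p + r)) k[X])
        (Fin.natAdd p a) (Fin.natAdd p b) = (1 : Matrix (Fin r) (Fin r) k[X]) a b := by
    intro g a b
    rw [← blk_apply]
    have h1 : blk k p r m (g : Fx k (p + r) m p) = 1 := g.2
    rw [h1, Matrix.SpecialLinearGroup.coe_one]
  let f : (blk k p r m).ker →* Multiplicative (Fin p → Fin r → k[X]) :=
    { toFun := fun g => Multiplicative.ofAdd fun a b =>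
        (((g : Fx k (p + r) m p) : SLk k (p + r)) : Matrix (Fin (p + r)) (Fin (p + r)) k[X])
          (Fin.castAdd r a) (Fin.natAdd p b)
      map_one' := by
        rw [← ofAdd_zero]
        congr 1
        funext a b
        rw [Subgroup.coe_one, Subgroup.coe_one, Matrix.SpecialLinearGroup.coe_one]
        refine Matrix.one_apply_ne fun h' => ?_
        have := congrArg Fin.val h'
        simp only [Fin.val_natAdd, Fin.val_castAdd] at this
        omega
      map_mul' := by
        intro g h
        rw [← ofAdd_add]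
        congr 1
        funext a b
        rw [Subgroup.coe_mul, Subgroup.coe_mul, Matrix.SpecialLinearGroup.coe_mul,
          Matrix.mul_apply, Fin.sum_univ_add]
        simp only [Pi.add_apply]
        have h1 : ∑ l : Fin p, (((g : Fx k (p + r) m p) : SLk k (p + r)) :
              Matrix (Fin (p + r)) (Fin (p + r)) k[X]) (Fin.castAdd r a) (Fin.castAdd r l) *
            (((h : Fx k (p + r) m p) : SLk k (p + r)) :
              Matrix (Fin (p + r)) (Fin (p + r)) k[X]) (Fin.castAdd r l) (Fin.natAdd p b) =
            (((h : Fx k (p + r) m p) : SLk k (p + r)) :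
              Matrix (Fin (p + r)) (Fin (p + r)) k[X]) (Fin.castAdd r a) (Fin.natAdd p b) := by
          rw [Finset.sum_eq_single_of_mem a (Finset.mem_univ a)]
          · rw [d1_Fx_up, Matrix.one_apply_eq, one_mul]
          · intro l _ hl
            rw [d1_Fx_up, Matrix.one_apply_ne (Ne.symm hl), zero_mul]
        have h2 : ∑ l : Fin r, (((g : Fx k (p + r) m p) : SLk k (p + r)) :
              Matrix (Fin (p + r)) (Fin (p + r)) k[X]) (Fin.castAdd r a) (Fin.natAdd p l) *
            (((h : Fx k (p + r) m p) : SLk k (p + r)) :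
              Matrix (Fin (p + r)) (Fin (p + r)) k[X]) (Fin.natAdd p l) (Fin.natAdd p b) =
            (((g : Fx k (p + r) m p) : SLk k (p + r)) :
              Matrix (Fin (p + r)) (Fin (p + r)) k[X]) (Fin.castAdd r a) (Fin.natAdd p b) := by
          rw [Finset.sum_eq_single_of_mem b (Finset.mem_univ b)]
          · rw [hker, Matrix.one_apply_eq, mul_one]
          · intro l _ hl
            rw [hker, Matrix.one_apply_ne hl, mul_zero]
        rw [h1, h2, add_comm] }
  have hf : Function.Injective f := by
    intro g h hgh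
    apply Subtype.ext
    apply Subtype.ext
    apply Subtype.ext
    have h0 : ∀ (a : Fin p) (b : Fin r),
        (((g : Fx k (p + r) m p) : SLk k (p + r)) : Matrix (Fin (p + r)) (Fin (p + r)) k[X])
          (Fin.castAdd r a) (Fin.natAdd p b) =
        (((h : Fx k (p + r) m p) : SLk k (p + r)) : Matrix (Fin (p + r)) (Fin (p + r)) k[X])
          (Fin.castAdd r a) (Fin.natAdd p b) := fun a b =>
      congrFun (congrFun (Multiplicative.ofAdd.injective hgh) a) b
    ext1 i j
    induction i using Fin.addCases with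
    | left a =>
      induction j using Fin.addCases with
      | left b => exact (d1_Fx_up _ a b).trans (d1_Fx_up _ a b).symm
      | right b => exact h0 a b
    | right a =>
      induction j using Fin.addCases with
      | left b => exact (d1_Fx_low _ a b).trans (d1_Fx_low _ a b).symm
      | right b => exact (hker g a b).trans (hker h a b).symm
  refine Good.of_injective f hf (LocOdd.good (locOdd_of_exp (Nat.card k) hk fun x => ?_))
  have hcard : ((Nat.card k : ℕ) : k) = 0 := by
    have := Fintype.ofFinite k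
    rw [Nat.card_eq_fintype_card]
    exact Nat.cast_card_eq_zero k
  apply Multiplicative.toAdd.injective
  rw [toAdd_pow, toAdd_one]
  funext a b
  simp only [Pi.smul_apply, Pi.zero_apply]
  rw [nsmul_eq_mul]
  have h3 : ((Nat.card k : ℕ) : k[X]) = 0 := by
    rw [← Polynomial.C_eq_natCast, hcard, map_zero]
  rw [h3, zero_mul]

end

end Vale.P067
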