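import Mathlib
import Vale.Agent.Lib.P067.D1.StabA
import Vale.Agent.Lib.P067.D1.Cmp
import Vale.Agent.Lib.P067.D2.Out
import Vale.Agent.Lib.P067.Dec

/-!
# P067, part D1: cohomology of the stabilizers of partial bases in the congruence subgroup
-/

namespace Vale.P067

open scoped Classical
open Polynomial

universe u v

/-- tuples of length `0` and `1`: exactness always holds (`b = f [x₀]`, constant) -/
theorem ex_zero_one {Γ : Type u} [Group Γ] {E : Type v} [MulAction Γ E] [Nonempty E]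
    (P : Subgroup Γ) {q : ℕ} (hq : q ≤ 1) : (tup Γ E).Ex P q := by
  intro f hf hd
  have x0 : E := Classical.arbitrary E
  have hbs : (tup Γ E).d f [x0] = f [] := by
    change ((tbd [x0]).map f).sum = f []
    rw [tbd_cons, tbd_nil]
    simp
  have hq' : q = 0 ∨ q = 1 := by omega
  rcases hq' with rfl | rfl
  · refine ⟨fun _ => 0, fun g _ y => rfl, fun y hy => ?_⟩
    have hy' : y = [] := List.eq_nil_of_length_eq_zero hy
    subst hy'
    have h0 : (tup Γ E).d f [x0] = 0 := hd [x0] rfl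
    rw [hbs] at h0
    rw [h0]
    change (0 : ZMod 2) = ((tbd ([] : List E)).map fun _ => (0 : ZMod 2)).sum
    rw [tbd_nil]
    simp
  · refine ⟨fun _ => f [x0], fun g _ y => rfl, fun y hy => ?_⟩
    obtain ⟨x, rfl⟩ := List.length_eq_one_iff.1 hy
    have h0 : (tup Γ E).d f [x0, x] = 0 := hd [x0, x] rfl
    have h1 : (tup Γ E).d f [x0, x] = f [x] + f [x0] := by
      change ((tbd [x0, x]).map f).sum = _
      rw [tbd_cons, tbd_cons, tbd_nil]
      simp
    rw [h1] at h0
    have h2 : (tup Γ E).d (fun _ => f [x0]) [x] = f [x0] := by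
      change ((tbd [x]).map fun _ => f [x0]).sum = _
      rw [tbd_cons, tbd_nil]
      simp
    rw [h2]
    exact (CharTwo.add_eq_zero).1 h0

section

variable {k : Type*} [Field k]

/-- From `SL_r` to `Fx`.  `Γ' = ↥(Fx k (p + r) m p)` acts on `SLk k r` through `blk`
(`MulAction.compHom`, use `letI`) with stabilizers `(blk k p r m).ker`, which is good, and on
`SLk k (p + r)` freely by left multiplication.  `ex_of_hom` with `ρ = blk`, `P' = ⊤`
(`blk_range`) gives `(tup Γ' (SLk k r)).Ex ⊤`; `cmp` gives `(tup Γ' (SLk k (p + r))).Ex ⊤`; `ex_of_hom`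
with `ρ = Subgroup.subtype`, `P' = ⊤`. -/
theorem fx_ex [Finite k] (hk : Odd (Nat.card k)) {p r m q : ℕ}
    (h : (tup (SLk k r) (SLk k r)).Ex (Ncg k r m) (q + 1)) :
    (tup (SLk k (p + r)) (SLk k (p + r))).Ex (Fx k (p + r) m p) (q + 1) := by
  let act1 : MulAction (Fx k (p + r) m p) (SLk k r) := MulAction.compHom _ (blk k p r m)
  have hact : ∀ (g : Fx k (p + r) m p) (e : SLk k r), g • e = blk k p r m g • e :=
    fun _ _ => rfl
  have h1 : (tup (Fx k (p + r) m p) (SLk k r)).Ex ⊤ (q + 1) :=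
    (ex_of_hom (blk k p r m) hact ⊤ (Ncg k r m) (blk_range p r m) (q + 1)).2 h
  have hE : ∀ e : SLk k r,
      Good ↥((⊤ : Subgroup (Fx k (p + r) m p)) ⊓ MulAction.stabilizer (Fx k (p + r) m p) e) := by
    intro e
    refine Good.of_le (Q := (blk k p r m).ker) ?_ (blk_ker_good hk p r m)
    intro g hg
    have hg2 : g • e = e := MulAction.mem_stabilizer_iff.1 hg.2
    rw [hact, smul_eq_mul] at hg2
    exact MonoidHom.mem_ker.2 (mul_eq_right.1 hg2)
  have hZ : ∀ z : SLk k (p + r),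
      Good ↥((⊤ : Subgroup (Fx k (p + r) m p)) ⊓ MulAction.stabilizer (Fx k (p + r) m p) z) := by
    intro z
    refine good_of_free ⊤ (fun g x hgx => ?_) z
    have h2 : (g : SLk k (p + r)) * x = x := hgx
    exact Subtype.ext (mul_eq_right.1 h2)
  have h3 : (tup (Fx k (p + r) m p) (SLk k (p + r))).Ex ⊤ (q + 1) := cmp ⊤ hE hZ q h1
  refine (ex_of_hom (Fx k (p + r) m p).subtype (fun _ _ => rfl) ⊤ (Fx k (p + r) m p) ?_ (q + 1)).1 h3
  rw [← MonoidHom.range_eq_map, Subgroup.range_subtype]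

/-- the pointwise stabilizer of the first `p` standard vectors is `Fx` -/
theorem fx_iff {n m p : ℕ} (g : SLk k n) : g ∈ Fx k n m p ↔
    g ∈ Ncg k n m ∧ ∀ v ∈ stdF k n p, g • v = v := by
  have key : ∀ j : Fin n, (g • (Pi.single j 1 : Fin n → k[X]) = Pi.single j 1) ↔
      ∀ i : Fin n, (g : Matrix (Fin n) (Fin n) k[X]) i j =
        (1 : Matrix (Fin n) (Fin n) k[X]) i j := by
    intro j
    rw [SLk_smul_def, Matrix.mulVec_single_one, funext_iff]
    refine forall_congr' fun i => ?_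
    rw [Matrix.col_apply, Matrix.one_apply, Pi.single_apply]
  constructor
  · rintro ⟨hg, h⟩
    refine ⟨hg, fun v hv => ?_⟩
    unfold stdF at hv
    obtain ⟨j, hj, rfl⟩ := Finset.mem_image.1 hv
    have hj' : (j : ℕ) < p := (Finset.mem_filter.1 hj).2
    exact (key j).2 fun i => h i j hj'
  · rintro ⟨hg, h⟩
    refine ⟨hg, fun i j hj => ?_⟩
    refine (key j).1 (h _ ?_) i
    unfold stdF
    exact Finset.mem_image.2 ⟨j, Finset.mem_filter.2 ⟨Finset.mem_univ _, hj⟩, rfl⟩

/-- the stabilizer of a partial basis is conjugate to `Fx` -/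
theorem stab_eq {n m p : ℕ} (hm : 1 ≤ m) (hp : p < n) (σ : (pbCx k n).Cell)
    (hσ : (pbCx k n).sys.deg σ = p) : ∃ g : SLk k n,
      Ncg k n m ⊓ MulAction.stabilizer (SLk k n) σ =
        (Fx k n m p).map (MulAut.conj g).toMonoidHom := by
  obtain ⟨g, hg⟩ := pb_trans k n hp σ.1 σ.2 hσ
  refine ⟨g, ?_⟩
  have hmem : ∀ v, v ∈ stdF k n p → g • v ∈ σ.1 := by
    intro v hv
    rw [hg]
    exact Finset.mem_image.2 ⟨v, hv, rfl⟩
  ext a
  rw [Subgroup.mem_inf, MulAction.mem_stabilizer_iff, Subgroup.mem_map]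
  constructor
  · rintro ⟨ha, has⟩
    refine ⟨g⁻¹ * a * g, ?_, ?_⟩
    · rw [fx_iff]
      have hn : g⁻¹ * a * (g⁻¹)⁻¹ ∈ Ncg k n m := (Ncg_normal k n m).conj_mem a ha g⁻¹
      rw [inv_inv] at hn
      refine ⟨hn, fun v hv => ?_⟩
      have has' : σ.1.image (fun v => a • v) = σ.1 := by
        have := congrArg Subtype.val has
        rw [Cx.smul_coe] at this
        exact (dec_image _ _ _ _).trans this
      have h1 := pb_stab k n hm a ha σ.1 σ.2 has' (g • v) (hmem v hv)
      rw [mul_smul, mul_smul, h1, inv_smul_smul]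
    · simp only [MulEquiv.toMonoidHom_eq_coe, MonoidHom.coe_coe, MulAut.conj_apply]
      group
  · rintro ⟨c, hc, rfl⟩
    simp only [MulEquiv.toMonoidHom_eq_coe, MonoidHom.coe_coe, MulAut.conj_apply]
    rw [fx_iff] at hc
    refine ⟨(Ncg_normal k n m).conj_mem c hc.1 g, ?_⟩
    apply Subtype.ext
    rw [Cx.smul_coe]
    have h1 : ∀ w ∈ σ.1, (g * c * g⁻¹) • w = w := by
      intro w hw
      rw [hg] at hw
      obtain ⟨v, hv, rfl⟩ := Finset.mem_image.1 hw
      rw [mul_smul, mul_smul, inv_smul_smul, hc.2 v hv]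
    ext w
    refine (@Finset.mem_image _ _ (_) _ _ _).trans ?_
    constructor
    · rintro ⟨v, hv, rfl⟩
      have h2 := h1 v hv
      change (g * c * g⁻¹) • v ∈ σ.1
      rw [h2]
      exact hv
    · intro hw
      exact ⟨w, hw, h1 w hw⟩

/-- exactness for the stabilizers (`stab_eq`, `ex_conj`, `fx_ex` with `n = p + r`) -/
theorem stab_ex [Finite k] (hk : Odd (Nat.card k)) {n m p q : ℕ} (hm : 1 ≤ m) (hp : p < n)
    (h : (tup (SLk k (n - p)) (SLk k (n - p))).Ex (Ncg k (n - p) m) (q + 1))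
    (σ : (pbCx k n).Cell) (hσ : (pbCx k n).sys.deg σ = p) :
    (tup (SLk k n) (SLk k n)).Ex (Ncg k n m ⊓ MulAction.stabilizer (SLk k n) σ) (q + 1) := by
  obtain ⟨g, hg⟩ := stab_eq hm hp σ hσ
  rw [hg]
  refine ex_conj _ g _ _ ?_
  clear hg hσ
  clear σ
  obtain ⟨r, rfl⟩ : ∃ r, n = p + r := ⟨n - p, by omega⟩
  have hr : p + r - p = r := by omega
  rw [hr] at h
  exact fx_ex hk h

end

end Vale.P067
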