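import Mathlib
import Vale.Agent.Lib.P067.D1.Cos
import Vale.Agent.Lib.P067.D1.CosB
import Vale.Agent.Lib.P067.D1.CosC
import Vale.Agent.Lib.P067.D1.StabB
import Vale.Agent.Lib.P067.D1.IsoB
import Vale.Agent.Lib.P067.D1.Zig
import Vale.Agent.Lib.P067.S.PGrp
import Vale.Agent.Lib.P067.E.Gfin

/-!
# P067, part D1: stabilizers of nonempty cells are good
-/

namespace Vale.P067

open scoped Classical
open Polynomial

section

variable {k : Type} [Field k] {n : ℕ}

/-- a finite `p`-group, `p` odd, has odd order -/
theorem d1_odd_of_isPGroup {p : ℕ} (hp : p.Prime) (hodd : Odd p) {A : Type} [Group A] [Finite A]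
    (h : IsPGroup p A) : Odd (Nat.card A) := by
  have := Fact.mk hp
  obtain ⟨m, hm⟩ := IsPGroup.iff_card.mp h
  rw [hm]
  exact hodd.pow

/-- the characteristic of a finite field of odd order is odd -/
theorem d1_char_odd [Finite k] (hk : Odd (Nat.card k)) (p : ℕ) [CharP k p] (hp : p.Prime) :
    Odd p := by
  have := Fact.mk hp
  have := Fintype.ofFinite k
  obtain ⟨m, hm, hcard⟩ := FiniteField.card k p
  rw [Nat.card_eq_fintype_card, hcard] at hk
  exact (Nat.odd_pow_iff m.ne_zero).mp hk

/-- stabilizers of nonempty cells are good: conjugates of `HH (Hs k n) J`, `J ≠ ∅`, which are finite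
(contained in a finite `Hs k n s`, `finite_Hs`) `p`-groups (`S.HH_isPGroup`), `p = char k` odd, so of odd order. -/
theorem cell_good [Finite k] (hk : Odd (Nat.card k)) (hn : 0 < n) (c : CCell (Hs k n))
    (hc : 1 ≤ (cosSys (Hs k n)).deg c) : Good ↥(MulAction.stabilizer (U k n) c) := by
  obtain ⟨J, x⟩ := c
  have hJ : J.Nonempty := Finset.card_pos.mp hc
  obtain ⟨y, rfl⟩ := QuotientGroup.mk_surjective x
  obtain ⟨p, hp⟩ := CharP.exists k
  have hprime : p.Prime := by
    rcases CharP.char_is_prime_or_zero k p with h | h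
    · exact h
    · subst h
      have := CharP.charP_to_charZero k
      exact absurd (inferInstance : Finite k) (not_finite_iff_infinite.mpr inferInstance)
  have hodd := d1_char_odd hk p hprime
  obtain ⟨s, hs⟩ := hJ
  have hfin : Finite (Hs k n s) := finite_Hs k n hn s
  have hle : HH (Hs k n) J ≤ Hs k n s := iInf₂_le s hs
  have hfin' : Finite (HH (Hs k n) J) :=
    Finite.of_injective _ (Subgroup.inclusion_injective hle)
  have hpg : IsPGroup p (HH (Hs k n) J) := S.HH_isPGroup k n p hn J ⟨s, hs⟩
  have hcard : Odd (Nat.card (HH (Hs k n) J)) := d1_odd_of_isPGroup hprime hodd hpg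
  have hgood : Good (HH (Hs k n) J) := (locOdd_of_finite hcard).good
  rw [cos_stab]
  let e := (HH (Hs k n) J).equivMapOfInjective (MulAut.conj y).toMonoidHom
    (MulAut.conj y).injective
  exact Good.of_injective e.symm.toMonoidHom e.symm.injective hgood

end

end Vale.P067
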