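import Mathlib
import Vale.Agent.Lib.P067.D1.Cos
import Vale.Agent.Lib.P067.D1.CosB
import Vale.Agent.Lib.P067.D1.CosC
import Vale.Agent.Lib.P067.D1.StabB
import Vale.Agent.Lib.P067.D1.IsoB
import Vale.Agent.Lib.P067.D1.Zig
import Vale.Agent.Lib.P067.D1.HUA

/-!
# P067, part D1: from the building to the cohomology of `U`
-/

namespace Vale.P067

open scoped Classical
open Polynomial

section

variable {k : Type} [Field k] {n : ℕ}

/-- cohomology of `U`: `zig_ex` with `SY = cosSys (Hs k n)`, `SZ = tup U U`, `P = ⊤`.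
`hY p q`, `p ≥ 1`: `q = 0`: `z = []`, stabilizer `⊤`, `cos_ex_top`; `q ≥ 1`: stabilizer trivial, `cos_ex_bot`
(`Van (Hs k n) (p - 1)`, `p ≤ i`).  `hZ`: `cell_good`, `Good.of_le`, `good_ex`. -/
theorem HU_U [Finite k] (hk : Odd (Nat.card k)) (hV : ∀ j, j + 3 ≤ n → Van (Hs k n) j) {i : ℕ}
    (hi : 1 ≤ i) (hn : i + 3 ≤ n) : (tup (U k n) (U k n)).Ex ⊤ (i + 1) := by
  have hn0 : 0 < n := by omega
  have : Nonempty (Fin n) := ⟨⟨0, hn0⟩⟩
  refine zig_ex (cosSys (Hs k n)) (tup (U k n) (U k n)) ⊤ i (cos_vertex (Hs k n)) ?_ ?_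
  · intro p q hpq hp z hz
    have hz' : z.length = q := hz
    rw [top_inf_eq]
    match z, hz' with
    | [], hz' =>
      have h1 : MulAction.stabilizer (U k n) ([] : List (U k n)) = ⊤ := by
        refine top_unique fun g _ => ?_
        rw [MulAction.mem_stabilizer_iff, list_smul_nil]
      rw [h1]
      have hq : q = 0 := hz'.symm
      refine cos_ex_top (Hs k n) p ?_
      rw [Fintype.card_fin]
      omega
    | x :: l, hz' =>
      have h1 : MulAction.stabilizer (U k n) (x :: l) = ⊥ := by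
        refine bot_unique fun g hg => ?_
        rw [MulAction.mem_stabilizer_iff, list_smul_cons] at hg
        have h2 : g * x = x := (List.cons.inj hg).1
        exact Subgroup.mem_bot.2 (mul_eq_right.1 h2)
      rw [h1]
      have hq : 1 ≤ q := by
        rw [← hz', List.length_cons]
        omega
      obtain ⟨j, rfl⟩ : ∃ j, p = j + 1 := ⟨p - 1, by omega⟩
      exact cos_ex_bot (Hs k n) j (hV j (by omega))
  · intro p q _ hp y hy
    refine good_ex _ ?_ q
    exact Good.of_le inf_le_right (cell_good hk hn0 y (by rw [hy]; exact hp))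

/-- transport by `ex_transport` with `P = ⊤`, `Q = Umat k n` -/
theorem HU_mat [Finite k] (hk : Odd (Nat.card k)) (hV : ∀ j, j + 3 ≤ n → Van (Hs k n) j) {i : ℕ}
    (hi : 1 ≤ i) (hn : i + 3 ≤ n) : (tup (SLk k n) (SLk k n)).Ex (Umat k n) (i + 1) := by
  have hn0 : 0 < n := by omega
  refine (ex_transport hn0 ⊤ (Umat k n) le_rfl ?_ i).1 (HU_U hk hV hi hn)
  rw [Subgroup.subgroupOf_self, ← MonoidHom.range_eq_map]
  exact MonoidHom.range_eq_top.2 (kap_surj hn0)

end

end Vale.P067
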