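import Mathlib
import Vale.Agent.Lib.P067.DDefs
import Vale.Agent.Lib.P067.D1.GoodA
import Vale.Agent.Lib.P067.D2.Gen

/-!
# P067, part D1: the subgroups `P`, `A`, `H` of the congruence subgroup (stabilizers of `e_l`)

`l : Fin n` is fixed.  `PP` = stabilizer of the vector `e_l` in `Ncg k n m` (column `l` is trivial),
`PR` = stabilizer of the functional `e_l^T` (row `l` is trivial), `AA ⊆ PP` = matrices which differ
from `1` only in row `l` (off the diagonal), `AR ⊆ PR` = matrices which differ from `1` only in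
column `l`.  `PP = AA (PP ⊓ PR)`.
-/

namespace Vale.P067

open scoped Classical
open Polynomial

section d1helpers

variable {R : Type*} [CommRing R] {n : ℕ}

theorem d1_mul_row (a b : Matrix (Fin n) (Fin n) R) (i : Fin n)
    (h : ∀ j, a i j = (1 : Matrix (Fin n) (Fin n) R) i j) (j : Fin n) : (a * b) i j = b i j := by
  rw [Matrix.mul_apply]
  simp only [h]
  rw [← Matrix.mul_apply, Matrix.one_mul]

theorem d1_mul_col (a b : Matrix (Fin n) (Fin n) R) (j : Fin n)
    (h : ∀ i, b i j = (1 : Matrix (Fin n) (Fin n) R) i j) (i : Fin n) : (a * b) i j = a i j := by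
  rw [Matrix.mul_apply]
  simp only [h]
  rw [← Matrix.mul_apply, Matrix.mul_one]

theorem d1_mul_row' (x a : Matrix (Fin n) (Fin n) R) (l i : Fin n)
    (ha : ∀ t, t ≠ l → ∀ s, a t s = (1 : Matrix (Fin n) (Fin n) R) t s) (hx : x i l = 0)
    (s : Fin n) : (x * a) i s = x i s := by
  have h : ∀ t, x i t * a t s = x i t * (1 : Matrix (Fin n) (Fin n) R) t s := by
    intro t
    by_cases ht : t = l
    · rw [ht, hx, zero_mul, zero_mul]
    · rw [ha t ht]
  rw [Matrix.mul_apply]
  simp only [h]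
  rw [← Matrix.mul_apply, Matrix.mul_one]

theorem d1_mul_col' (a x : Matrix (Fin n) (Fin n) R) (l s : Fin n)
    (ha : ∀ t, t ≠ l → ∀ i, a i t = (1 : Matrix (Fin n) (Fin n) R) i t) (hx : x l s = 0)
    (i : Fin n) : (a * x) i s = x i s := by
  have h : ∀ t, a i t * x t s = (1 : Matrix (Fin n) (Fin n) R) i t * x t s := by
    intro t
    by_cases ht : t = l
    · rw [ht, hx, mul_zero, mul_zero]
    · rw [ha t ht]
  rw [Matrix.mul_apply]
  simp only [h]
  rw [← Matrix.mul_apply, Matrix.one_mul]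

theorem d1_inv_mul (a : Matrix.SpecialLinearGroup (Fin n) R) :
    ((a⁻¹ : Matrix.SpecialLinearGroup (Fin n) R) : Matrix (Fin n) (Fin n) R) *
      (a : Matrix (Fin n) (Fin n) R) = 1 := by
  rw [← Matrix.SpecialLinearGroup.coe_mul, inv_mul_cancel, Matrix.SpecialLinearGroup.coe_one]

theorem d1_mul_inv (a : Matrix.SpecialLinearGroup (Fin n) R) :
    (a : Matrix (Fin n) (Fin n) R) *
      ((a⁻¹ : Matrix.SpecialLinearGroup (Fin n) R) : Matrix (Fin n) (Fin n) R) = 1 := by
  rw [← Matrix.SpecialLinearGroup.coe_mul, mul_inv_cancel, Matrix.SpecialLinearGroup.coe_one]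

theorem d1_inv_row (a : Matrix.SpecialLinearGroup (Fin n) R) (i : Fin n)
    (h : ∀ j, (a : Matrix (Fin n) (Fin n) R) i j = (1 : Matrix (Fin n) (Fin n) R) i j)
    (j : Fin n) : ((a⁻¹ : Matrix.SpecialLinearGroup (Fin n) R) : Matrix (Fin n) (Fin n) R) i j =
      (1 : Matrix (Fin n) (Fin n) R) i j := by
  rw [← d1_mul_row _ ((a⁻¹ : Matrix.SpecialLinearGroup (Fin n) R) : Matrix (Fin n) (Fin n) R) i h j,
    d1_mul_inv]

theorem d1_inv_col (a : Matrix.SpecialLinearGroup (Fin n) R) (j : Fin n)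
    (h : ∀ i, (a : Matrix (Fin n) (Fin n) R) i j = (1 : Matrix (Fin n) (Fin n) R) i j)
    (i : Fin n) : ((a⁻¹ : Matrix.SpecialLinearGroup (Fin n) R) : Matrix (Fin n) (Fin n) R) i j =
      (1 : Matrix (Fin n) (Fin n) R) i j := by
  rw [← d1_mul_col ((a⁻¹ : Matrix.SpecialLinearGroup (Fin n) R) : Matrix (Fin n) (Fin n) R) _ j h i,
    d1_inv_mul]

/-- the matrix `1 + e_l u^T`, `u_l = 0` -/
def d1_mk (l : Fin n) (u : Fin n → R) (hu : u l = 0) : Matrix.SpecialLinearGroup (Fin n) R :=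
  ⟨1 + Matrix.replicateCol Unit (Pi.single l 1 : Fin n → R) * Matrix.replicateRow Unit u, by
    rw [Matrix.det_one_add_replicateCol_mul_replicateRow, dotProduct_single, hu, zero_mul, add_zero]⟩

theorem d1_mk_apply (l : Fin n) (u : Fin n → R) (hu : u l = 0) (i j : Fin n) :
    (d1_mk l u hu : Matrix (Fin n) (Fin n) R) i j =
      (1 : Matrix (Fin n) (Fin n) R) i j + if i = l then u j else 0 := by
  change (1 + Matrix.replicateCol Unit (Pi.single l 1 : Fin n → R) * Matrix.replicateRow Unit u :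
    Matrix (Fin n) (Fin n) R) i j = _
  rw [Matrix.add_apply, Matrix.mul_apply]
  simp only [Matrix.replicateCol_apply, Matrix.replicateRow_apply, Pi.single_apply,
    Finset.univ_unique, Finset.sum_const, Finset.card_singleton, one_smul, ite_mul, one_mul,
    zero_mul]

theorem d1_tv_apply (i j : Fin n) (h : i ≠ j) (r : R) (s t : Fin n) :
    (D2.tv i j h r : Matrix (Fin n) (Fin n) R) s t =
      (1 : Matrix (Fin n) (Fin n) R) s t + if i = s ∧ j = t then r else 0 := by
  change (Matrix.transvection i j r) s t = _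
  rw [Matrix.transvection, Matrix.add_apply, Matrix.single_apply]

end d1helpers

section

variable (k : Type*) [Field k] {n : ℕ} (m : ℕ) (l : Fin n)

/-- stabilizer of `e_l` in the congruence subgroup -/
noncomputable def PP : Subgroup (SLk k n) :=
  Ncg k n m ⊓ MulAction.stabilizer (SLk k n) (Pi.single l 1 : Fin n → k[X])

/-- elements of the congruence subgroup with trivial row `l` -/
def PR : Subgroup (SLk k n) where
  carrier := {g | g ∈ Ncg k n m ∧ ∀ j, (g : Matrix (Fin n) (Fin n) k[X]) l j =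
    (1 : Matrix (Fin n) (Fin n) k[X]) l j}
  mul_mem' := by
    rintro a b ⟨ha, ha'⟩ ⟨hb, hb'⟩
    refine ⟨(Ncg k n m).mul_mem ha hb, fun j => ?_⟩
    rw [Matrix.SpecialLinearGroup.coe_mul, d1_mul_row _ _ l ha', hb']
  one_mem' := ⟨(Ncg k n m).one_mem, fun j => by rw [Matrix.SpecialLinearGroup.coe_one]⟩
  inv_mem' := by
    rintro a ⟨ha, ha'⟩
    exact ⟨(Ncg k n m).inv_mem ha, d1_inv_row a l ha'⟩

/-- elements of `PP` which differ from `1` only in row `l` -/
def AA : Subgroup (SLk k n) where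
  carrier := {g | g ∈ PP k m l ∧ ∀ i, i ≠ l → ∀ j, (g : Matrix (Fin n) (Fin n) k[X]) i j =
    (1 : Matrix (Fin n) (Fin n) k[X]) i j}
  mul_mem' := by
    rintro a b ⟨ha, ha'⟩ ⟨hb, hb'⟩
    refine ⟨(PP k m l).mul_mem ha hb, fun i hi j => ?_⟩
    rw [Matrix.SpecialLinearGroup.coe_mul, d1_mul_row _ _ i (ha' i hi), hb' i hi]
  one_mem' := ⟨(PP k m l).one_mem, fun i _ j => by rw [Matrix.SpecialLinearGroup.coe_one]⟩
  inv_mem' := by
    rintro a ⟨ha, ha'⟩
    exact ⟨(PP k m l).inv_mem ha, fun i hi => d1_inv_row a i (ha' i hi)⟩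

/-- elements of `PR` which differ from `1` only in column `l` -/
def AR : Subgroup (SLk k n) where
  carrier := {g | g ∈ PR k m l ∧ ∀ j, j ≠ l → ∀ i, (g : Matrix (Fin n) (Fin n) k[X]) i j =
    (1 : Matrix (Fin n) (Fin n) k[X]) i j}
  mul_mem' := by
    rintro a b ⟨ha, ha'⟩ ⟨hb, hb'⟩
    refine ⟨(PR k m l).mul_mem ha hb, fun j hj i => ?_⟩
    rw [Matrix.SpecialLinearGroup.coe_mul, d1_mul_col _ _ j (hb' j hj), ha' j hj]
  one_mem' := ⟨(PR k m l).one_mem, fun j _ i => by rw [Matrix.SpecialLinearGroup.coe_one]⟩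
  inv_mem' := by
    rintro a ⟨ha, ha'⟩
    exact ⟨(PR k m l).inv_mem ha, fun j hj => d1_inv_col a j (ha' j hj)⟩

variable {k m l}

theorem mem_PP {g : SLk k n} : g ∈ PP k m l ↔ g ∈ Ncg k n m ∧
    ∀ i, (g : Matrix (Fin n) (Fin n) k[X]) i l = (1 : Matrix (Fin n) (Fin n) k[X]) i l := by
  unfold PP
  rw [Subgroup.mem_inf, MulAction.mem_stabilizer_iff, SLk_smul_def, Matrix.mulVec_single_one]
  refine and_congr_right fun _ => ?_
  constructor
  · intro h i
    have := congrFun h i
    rw [Matrix.col_apply] at this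
    rw [this, Pi.single_apply, Matrix.one_apply]
  · intro h
    funext i
    rw [Matrix.col_apply, h i, Pi.single_apply, Matrix.one_apply]

theorem AA_le : AA k m l ≤ PP k m l := fun _ h => h.1

theorem AR_le : AR k m l ≤ PR k m l := fun _ h => h.1

/-- `p⁻¹ (1 + e_l u^T) p = 1 + e_l (u^T p)` for `p e_l = e_l`, `u_l = 0` -/
theorem AA_norm : ∀ p ∈ PP k m l, ∀ a ∈ AA k m l, p⁻¹ * a * p ∈ AA k m l := by
  intro p hp a ha
  refine ⟨(PP k m l).mul_mem ((PP k m l).mul_mem ((PP k m l).inv_mem hp) ha.1) hp, ?_⟩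
  intro i hi j
  have hp' := (mem_PP.1 ((PP k m l).inv_mem hp)).2 i
  rw [Matrix.one_apply_ne hi] at hp'
  have h1 : ∀ s, ((p⁻¹ * a : SLk k n) : Matrix (Fin n) (Fin n) k[X]) i s =
      ((p⁻¹ : SLk k n) : Matrix (Fin n) (Fin n) k[X]) i s := by
    intro s
    rw [Matrix.SpecialLinearGroup.coe_mul]
    exact d1_mul_row' _ _ l i (fun t ht => ha.2 t ht) hp' s
  rw [Matrix.SpecialLinearGroup.coe_mul, Matrix.mul_apply]
  simp only [h1]
  rw [← Matrix.mul_apply, d1_inv_mul]

/-- `p⁻¹ (1 + w e_l^T) p = 1 + (p⁻¹ w) e_l^T` for `e_l^T p = e_l^T`, `w_l = 0` -/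
theorem AR_norm : ∀ p ∈ PR k m l, ∀ a ∈ AR k m l, p⁻¹ * a * p ∈ AR k m l := by
  intro p hp a ha
  refine ⟨(PR k m l).mul_mem ((PR k m l).mul_mem ((PR k m l).inv_mem hp) ha.1) hp, ?_⟩
  intro j hj i
  have hp' := hp.2 j
  rw [Matrix.one_apply_ne hj.symm] at hp'
  have h1 : ∀ s, ((a * p : SLk k n) : Matrix (Fin n) (Fin n) k[X]) s j =
      (p : Matrix (Fin n) (Fin n) k[X]) s j := by
    intro s
    rw [Matrix.SpecialLinearGroup.coe_mul]
    exact d1_mul_col' _ _ l j (fun t ht => ha.2 t ht) hp' s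
  rw [mul_assoc, Matrix.SpecialLinearGroup.coe_mul, Matrix.mul_apply]
  simp only [h1]
  rw [← Matrix.mul_apply, d1_inv_mul]

theorem d1_good_poly [Finite k] (hk : Odd (Nat.card k)) :
    Good (Multiplicative (Fin n → k[X])) := by
  refine (locOdd_of_exp (Nat.card k) hk ?_).good
  intro a
  have : Fintype k := Fintype.ofFinite k
  have h0 : ((Nat.card k : ℕ) : k) = 0 := by
    rw [Nat.card_eq_fintype_card]
    exact Nat.cast_card_eq_zero k
  apply Multiplicative.toAdd.injective
  rw [toAdd_pow, toAdd_one]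
  funext i
  rw [Pi.smul_apply, Pi.zero_apply, nsmul_eq_mul]
  have h1 : ((Nat.card k : ℕ) : k[X]) = 0 := by
    rw [← Polynomial.C_eq_natCast, h0, map_zero]
  rw [h1, zero_mul]

/-- `a ↦ row l of a - 1` is an injective homomorphism from `AA` to the additive group of
`Fin n → k[X]`, which has exponent `p` (`p = char k` odd): `Good.of_injective` (into
`Multiplicative (Fin n → k[X])`), `locOdd_of_exp`, `LocOdd.good`. -/
theorem AA_good [Finite k] (hk : Odd (Nat.card k)) : Good ↥(AA k m l) := by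
  let φ : ↥(AA k m l) →* Multiplicative (Fin n → k[X]) :=
    { toFun := fun a => Multiplicative.ofAdd (fun j =>
        ((a : SLk k n) : Matrix (Fin n) (Fin n) k[X]) l j - (1 : Matrix (Fin n) (Fin n) k[X]) l j)
      map_one' := by
        apply Multiplicative.toAdd.injective
        funext j
        change ((1 : SLk k n) : Matrix (Fin n) (Fin n) k[X]) l j -
          (1 : Matrix (Fin n) (Fin n) k[X]) l j = 0
        rw [Matrix.SpecialLinearGroup.coe_one, sub_self]
      map_mul' := by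
        intro a b
        apply Multiplicative.toAdd.injective
        funext j
        change (((a : SLk k n) * (b : SLk k n) : SLk k n) : Matrix (Fin n) (Fin n) k[X]) l j -
          (1 : Matrix (Fin n) (Fin n) k[X]) l j =
          (((a : SLk k n) : Matrix (Fin n) (Fin n) k[X]) l j -
            (1 : Matrix (Fin n) (Fin n) k[X]) l j) +
          (((b : SLk k n) : Matrix (Fin n) (Fin n) k[X]) l j -
            (1 : Matrix (Fin n) (Fin n) k[X]) l j)
        have hal : ((a : SLk k n) : Matrix (Fin n) (Fin n) k[X]) l l = 1 := by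
          rw [(mem_PP.1 a.2.1).2 l, Matrix.one_apply_eq]
        have h1 : ∀ t, ((a : SLk k n) : Matrix (Fin n) (Fin n) k[X]) l t *
            (((b : SLk k n) : Matrix (Fin n) (Fin n) k[X]) t j -
              (1 : Matrix (Fin n) (Fin n) k[X]) t j) = if t = l then
            (((b : SLk k n) : Matrix (Fin n) (Fin n) k[X]) l j -
              (1 : Matrix (Fin n) (Fin n) k[X]) l j) else 0 := by
          intro t
          by_cases ht : t = l
          · rw [if_pos ht, ht, hal, one_mul]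
          · rw [if_neg ht, b.2.2 t ht, sub_self, mul_zero]
        have h2 : (((a : SLk k n) : Matrix (Fin n) (Fin n) k[X]) *
            ((b : SLk k n) : Matrix (Fin n) (Fin n) k[X])) l j =
            ((a : SLk k n) : Matrix (Fin n) (Fin n) k[X]) l j +
            (((b : SLk k n) : Matrix (Fin n) (Fin n) k[X]) l j -
            (1 : Matrix (Fin n) (Fin n) k[X]) l j) := by
          have h3 : ((a : SLk k n) : Matrix (Fin n) (Fin n) k[X]) l j =
              (((a : SLk k n) : Matrix (Fin n) (Fin n) k[X]) *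
                (1 : Matrix (Fin n) (Fin n) k[X])) l j := by rw [Matrix.mul_one]
          rw [h3, Matrix.mul_apply, Matrix.mul_apply, ← sub_eq_iff_eq_add',
            ← Finset.sum_sub_distrib]
          simp only [← mul_sub, h1, Finset.sum_ite_eq', Finset.mem_univ, if_true]
        rw [Matrix.SpecialLinearGroup.coe_mul, h2]
        ring }
  refine Good.of_injective φ ?_ (d1_good_poly hk)
  intro a b hab
  apply Subtype.ext
  apply Subtype.ext
  ext1 i j
  by_cases hi : i = l
  · subst hi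
    have := congrFun (congrArg Multiplicative.toAdd hab) j
    exact sub_left_injective this
  · exact (a.2.2 i hi j).trans (b.2.2 i hi j).symm

theorem AR_good [Finite k] (hk : Odd (Nat.card k)) : Good ↥(AR k m l) := by
  let φ : ↥(AR k m l) →* Multiplicative (Fin n → k[X]) :=
    { toFun := fun a => Multiplicative.ofAdd (fun i =>
        ((a : SLk k n) : Matrix (Fin n) (Fin n) k[X]) i l - (1 : Matrix (Fin n) (Fin n) k[X]) i l)
      map_one' := by
        apply Multiplicative.toAdd.injective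
        funext i
        change ((1 : SLk k n) : Matrix (Fin n) (Fin n) k[X]) i l -
          (1 : Matrix (Fin n) (Fin n) k[X]) i l = 0
        rw [Matrix.SpecialLinearGroup.coe_one, sub_self]
      map_mul' := by
        intro a b
        apply Multiplicative.toAdd.injective
        funext i
        change (((a : SLk k n) * (b : SLk k n) : SLk k n) : Matrix (Fin n) (Fin n) k[X]) i l -
          (1 : Matrix (Fin n) (Fin n) k[X]) i l =
          (((a : SLk k n) : Matrix (Fin n) (Fin n) k[X]) i l -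
            (1 : Matrix (Fin n) (Fin n) k[X]) i l) +
          (((b : SLk k n) : Matrix (Fin n) (Fin n) k[X]) i l -
            (1 : Matrix (Fin n) (Fin n) k[X]) i l)
        have hbl : ((b : SLk k n) : Matrix (Fin n) (Fin n) k[X]) l l = 1 := by
          rw [b.2.1.2 l, Matrix.one_apply_eq]
        have h1 : ∀ t, (((a : SLk k n) : Matrix (Fin n) (Fin n) k[X]) i t -
            (1 : Matrix (Fin n) (Fin n) k[X]) i t) *
            ((b : SLk k n) : Matrix (Fin n) (Fin n) k[X]) t l = if t = l then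
            (((a : SLk k n) : Matrix (Fin n) (Fin n) k[X]) i l -
              (1 : Matrix (Fin n) (Fin n) k[X]) i l) else 0 := by
          intro t
          by_cases ht : t = l
          · rw [if_pos ht, ht, hbl, mul_one]
          · rw [if_neg ht, a.2.2 t ht, sub_self, zero_mul]
        have h2 : (((a : SLk k n) : Matrix (Fin n) (Fin n) k[X]) *
            ((b : SLk k n) : Matrix (Fin n) (Fin n) k[X])) i l =
            ((b : SLk k n) : Matrix (Fin n) (Fin n) k[X]) i l +
            (((a : SLk k n) : Matrix (Fin n) (Fin n) k[X]) i l -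
            (1 : Matrix (Fin n) (Fin n) k[X]) i l) := by
          have h3 : ((b : SLk k n) : Matrix (Fin n) (Fin n) k[X]) i l =
              ((1 : Matrix (Fin n) (Fin n) k[X]) *
                ((b : SLk k n) : Matrix (Fin n) (Fin n) k[X])) i l := by rw [Matrix.one_mul]
          rw [h3, Matrix.mul_apply, Matrix.mul_apply, ← sub_eq_iff_eq_add',
            ← Finset.sum_sub_distrib]
          simp only [← sub_mul, h1, Finset.sum_ite_eq', Finset.mem_univ, if_true]
        rw [Matrix.SpecialLinearGroup.coe_mul, h2]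
        ring }
  refine Good.of_injective φ ?_ (d1_good_poly hk)
  intro a b hab
  apply Subtype.ext
  apply Subtype.ext
  ext1 i j
  by_cases hj : j = l
  · subst hj
    have := congrFun (congrArg Multiplicative.toAdd hab) i
    exact sub_left_injective this
  · exact (a.2.2 j hj i).trans (b.2.2 j hj i).symm

/-- `a = 1 + e_l (e_l^T - e_l^T p⁻¹)`, `h = a⁻¹ p` -/
theorem PP_eq : ∀ p ∈ PP k m l, ∃ a ∈ AA k m l, ∃ h ∈ PP k m l ⊓ PR k m l, p = a * h := by
  intro p hp
  have hpi := (PP k m l).inv_mem hp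
  have hpi' := mem_PP.1 hpi
  have hu : ((p⁻¹ : SLk k n) : Matrix (Fin n) (Fin n) k[X]) l l -
      (1 : Matrix (Fin n) (Fin n) k[X]) l l = 0 := by rw [hpi'.2 l, sub_self]
  let b : SLk k n := d1_mk l (fun j => ((p⁻¹ : SLk k n) : Matrix (Fin n) (Fin n) k[X]) l j -
      (1 : Matrix (Fin n) (Fin n) k[X]) l j) hu
  have hb : ∀ i j, (b : Matrix (Fin n) (Fin n) k[X]) i j =
      (1 : Matrix (Fin n) (Fin n) k[X]) i j + if i = l then
        (((p⁻¹ : SLk k n) : Matrix (Fin n) (Fin n) k[X]) l j -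
          (1 : Matrix (Fin n) (Fin n) k[X]) l j) else 0 := fun i j => d1_mk_apply l _ hu i j
  have hbAA : b ∈ AA k m l := by
    refine ⟨mem_PP.2 ⟨?_, ?_⟩, ?_⟩
    · intro i j
      rw [hb]
      split_ifs
      · rw [add_sub_cancel_left]
        exact hpi'.1 l j
      · rw [add_zero, sub_self]; exact dvd_zero _
    · intro i
      rw [hb, hu]
      simp
    · intro i hi j
      rw [hb, if_neg hi, add_zero]
  refine ⟨b⁻¹, (AA k m l).inv_mem hbAA, b * p, ⟨(PP k m l).mul_mem hbAA.1 hp, ?_⟩, ?_⟩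
  · refine ⟨(Ncg k n m).mul_mem (mem_PP.1 hbAA.1).1 (mem_PP.1 hp).1, fun j => ?_⟩
    rw [Matrix.SpecialLinearGroup.coe_mul, Matrix.mul_apply]
    have : ∀ t, (b : Matrix (Fin n) (Fin n) k[X]) l t =
        ((p⁻¹ : SLk k n) : Matrix (Fin n) (Fin n) k[X]) l t := by
      intro t
      rw [hb, if_pos rfl]; ring
    simp only [this]
    rw [← Matrix.mul_apply, d1_inv_mul]
  · rw [inv_mul_cancel_left]

theorem AA_disj : AA k m l ⊓ (PP k m l ⊓ PR k m l) = ⊥ := by
  rw [Subgroup.eq_bot_iff_forall]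
  rintro g ⟨h1, _, h2⟩
  apply Subtype.ext
  ext1 i j
  rw [Matrix.SpecialLinearGroup.coe_one]
  by_cases hi : i = l
  · rw [hi]; exact h2.2 j
  · exact h1.2 i hi j

/-- for `g = 1 + r e_l e_j^T` and `p e_l = e_l`: `p⁻¹ g⁻¹ p g = 1 + r e_l (e_j^T - e_j^T p)` -/
theorem tv_row (j : Fin n) (h : j ≠ l) (r : k[X]) : ∀ p ∈ PP k m l, ∃ a ∈ AA k m l,
    (D2.tv l j h.symm r)⁻¹ * p = (p * a) * (D2.tv l j h.symm r)⁻¹ := by
  intro p hp
  set g : SLk k n := D2.tv l j h.symm r with hg
  have hgc : ∀ i, (g : Matrix (Fin n) (Fin n) k[X]) i l =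
      (1 : Matrix (Fin n) (Fin n) k[X]) i l := by
    intro i
    rw [hg, d1_tv_apply, if_neg (fun hh => h hh.2), add_zero]
  have hgr : ∀ i, i ≠ l → ∀ s, (g : Matrix (Fin n) (Fin n) k[X]) i s =
      (1 : Matrix (Fin n) (Fin n) k[X]) i s := by
    intro i hi s
    rw [hg, d1_tv_apply, if_neg (fun hh => hi hh.1.symm), add_zero]
  have hp' := mem_PP.1 hp
  have hpi := mem_PP.1 ((PP k m l).inv_mem hp)
  refine ⟨p⁻¹ * (g⁻¹ * p * g), ⟨mem_PP.2 ⟨?_, ?_⟩, ?_⟩, by group⟩
  · refine (Ncg k n m).mul_mem hpi.1 ?_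
    have := (Ncg_normal k n m).conj_mem p hp'.1 g⁻¹
    rwa [inv_inv] at this
  · intro i
    rw [Matrix.SpecialLinearGroup.coe_mul, Matrix.SpecialLinearGroup.coe_mul,
      Matrix.SpecialLinearGroup.coe_mul, ← Matrix.mul_assoc, ← Matrix.mul_assoc,
      d1_mul_col _ _ l hgc, d1_mul_col _ _ l hp'.2, d1_mul_col _ _ l (d1_inv_col g l hgc), hpi.2]
  · intro i hi s
    have e1 : p⁻¹ * (g⁻¹ * p * g) = ((p⁻¹ * g⁻¹) * p) * g := by group
    have h0 : ((p⁻¹ : SLk k n) : Matrix (Fin n) (Fin n) k[X]) i l = 0 := by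
      rw [hpi.2, Matrix.one_apply_ne hi]
    have h1 : ∀ t, ((p⁻¹ * g⁻¹ : SLk k n) : Matrix (Fin n) (Fin n) k[X]) i t =
        ((p⁻¹ : SLk k n) : Matrix (Fin n) (Fin n) k[X]) i t := by
      intro t
      rw [Matrix.SpecialLinearGroup.coe_mul]
      exact d1_mul_row' _ _ l i (fun t ht => d1_inv_row g t (hgr t ht)) h0 t
    have h2 : ∀ t, (((p⁻¹ * g⁻¹) * p : SLk k n) : Matrix (Fin n) (Fin n) k[X]) i t =
        (1 : Matrix (Fin n) (Fin n) k[X]) i t := by
      intro t
      rw [Matrix.SpecialLinearGroup.coe_mul, Matrix.mul_apply]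
      simp only [h1]
      rw [← Matrix.mul_apply, d1_inv_mul]
    rw [e1, Matrix.SpecialLinearGroup.coe_mul, d1_mul_row _ _ i h2, hgr i hi]

/-- for `g = 1 + r e_j e_l^T` and `e_l^T p = e_l^T`: `p⁻¹ g⁻¹ p g = 1 + r (e_j - p⁻¹ e_j) e_l^T` -/
theorem tv_col (j : Fin n) (h : j ≠ l) (r : k[X]) : ∀ p ∈ PR k m l, ∃ a ∈ AR k m l,
    (D2.tv j l h r)⁻¹ * p = (p * a) * (D2.tv j l h r)⁻¹ := by
  intro p hp
  set g : SLk k n := D2.tv j l h r with hg
  have hgr : ∀ s, (g : Matrix (Fin n) (Fin n) k[X]) l s =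
      (1 : Matrix (Fin n) (Fin n) k[X]) l s := by
    intro s
    rw [hg, d1_tv_apply, if_neg (fun hh => h hh.1), add_zero]
  have hgc : ∀ s, s ≠ l → ∀ i, (g : Matrix (Fin n) (Fin n) k[X]) i s =
      (1 : Matrix (Fin n) (Fin n) k[X]) i s := by
    intro s hs i
    rw [hg, d1_tv_apply, if_neg (fun hh => hs hh.2.symm), add_zero]
  have hpi := (PR k m l).inv_mem hp
  refine ⟨p⁻¹ * (g⁻¹ * p * g), ⟨⟨?_, ?_⟩, ?_⟩, by group⟩
  · refine (Ncg k n m).mul_mem hpi.1 ?_
    have := (Ncg_normal k n m).conj_mem p hp.1 g⁻¹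
    rwa [inv_inv] at this
  · intro s
    rw [Matrix.SpecialLinearGroup.coe_mul, Matrix.SpecialLinearGroup.coe_mul,
      Matrix.SpecialLinearGroup.coe_mul, d1_mul_row _ _ l hpi.2, Matrix.mul_assoc,
      d1_mul_row _ _ l (d1_inv_row g l hgr), d1_mul_row _ _ l hp.2, hgr]
  · intro s hs i
    have h0 : ∀ t, ((p * g : SLk k n) : Matrix (Fin n) (Fin n) k[X]) t s =
        (p : Matrix (Fin n) (Fin n) k[X]) t s := by
      intro t
      rw [Matrix.SpecialLinearGroup.coe_mul]
      exact d1_mul_col _ _ s (hgc s hs) t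
    have h00 : ((p * g : SLk k n) : Matrix (Fin n) (Fin n) k[X]) l s = 0 := by
      rw [h0, hp.2, Matrix.one_apply_ne hs.symm]
    have h1 : ∀ t, ((g⁻¹ * p * g : SLk k n) : Matrix (Fin n) (Fin n) k[X]) t s =
        (p : Matrix (Fin n) (Fin n) k[X]) t s := by
      intro t
      rw [mul_assoc, Matrix.SpecialLinearGroup.coe_mul,
        d1_mul_col' _ _ l s (fun t ht => d1_inv_col g t (hgc t ht)) h00 t, h0]
    rw [Matrix.SpecialLinearGroup.coe_mul, Matrix.mul_apply]
    simp only [h1]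
    rw [← Matrix.mul_apply, d1_inv_mul]

end

end Vale.P067
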