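import Mathlib
import Vale.Agent.Lib.P067.D1.Sys

/-!
# P067, part D1: kernels and the lprism operator on tuples
-/

namespace Vale.P067

open scoped Classical

universe u v w

/-- kernels from `W` to `E` -/
abbrev Ker (W : Type u) (E : Type v) := W → ((E → ZMod 2) →ₗ[ZMod 2] ZMod 2)

/-- the Dirac kernel of a map -/
def dirac {W : Type u} {E : Type v} (f : W → E) : Ker W E := fun w => LinearMap.proj (f w)

/-- iterated integration -/
def lpull {W : Type u} {E : Type v} (K : Ker W E) : List W → (List E → ZMod 2) → ZMod 2
  | [], φ => φ []
  | w :: l, φ => K w (fun x => lpull K l (fun l' => φ (x :: l')))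

/-- coboundary on lists: sum over the faces -/
def ld {E : Type v} (φ : List E → ZMod 2) : List E → ZMod 2 := fun l => ((tbd l).map φ).sum

theorem ld_nil {E : Type v} (φ : List E → ZMod 2) : ld φ [] = 0 := by
  simp [ld, tbd]

theorem ld_cons {E : Type v} (φ : List E → ZMod 2) (x : E) (l : List E) :
    ld φ (x :: l) = φ l + ld (fun l' => φ (x :: l')) l := by
  simp only [ld, tbd_cons, Multiset.map_cons, Multiset.sum_cons, Multiset.map_map, Function.comp_def]

private theorem d1_ld_add {E : Type v} (φ φ' : List E → ZMod 2) (l : List E) :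
    ld (fun l' => φ l' + φ' l') l = ld φ l + ld φ' l := by
  simp only [ld, Multiset.sum_map_add]

private theorem d1_ld_comm {W : Type u} {E : Type v} (k : (E → ZMod 2) →ₗ[ZMod 2] ZMod 2)
    (ψ : E → List W → ZMod 2) (l : List W) :
    ld (fun l' => k (fun x => ψ x l')) l = k (fun x => ld (ψ x) l) := by
  simp only [ld]
  induction (tbd l) using Multiset.induction_on with
  | empty =>
    simp only [Multiset.map_zero, Multiset.sum_zero]
    exact (map_zero k).symm
  | cons a s ih =>
    simp only [Multiset.map_cons, Multiset.sum_cons]
    rw [ih]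
    exact (map_add k (fun x => ψ x a) (fun x => (s.map (ψ x)).sum)).symm

private theorem d1_const {E : Type v} (k : (E → ZMod 2) →ₗ[ZMod 2] ZMod 2)
    (hk : k (fun _ => 1) = 1) (c : ZMod 2) : k (fun _ => c) = c := by
  have h : (fun _ : E => c) = c • (fun _ : E => (1 : ZMod 2)) := by
    funext x; simp
  rw [h, map_smul, hk]; simp

private theorem d1_add {E : Type v} (k : (E → ZMod 2) →ₗ[ZMod 2] ZMod 2) (f f' : E → ZMod 2) :
    k (fun x => f x + f' x) = k f + k f' := map_add k f f'

theorem ld_map {W : Type u} {E : Type v} (f : W → E) (φ : List E → ZMod 2) (l : List W) :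
    ld (fun l' => φ (l'.map f)) l = ld φ (l.map f) := by
  simp only [ld, tbd_map, Multiset.map_map, Function.comp_def]

theorem pull_add {W : Type u} {E : Type v} (K : Ker W E) (l : List W) (φ φ' : List E → ZMod 2) :
    lpull K l (fun l' => φ l' + φ' l') = lpull K l φ + lpull K l φ' := by
  induction l generalizing φ φ' with
  | nil => rfl
  | cons w l ih =>
    simp only [lpull]
    simp only [ih]
    exact d1_add (K w) _ _

theorem pull_dirac {W : Type u} {E : Type v} (f : W → E) (l : List W) (φ : List E → ZMod 2) :
    lpull (dirac f) l φ = φ (l.map f) := by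
  induction l generalizing φ with
  | nil => rfl
  | cons w l ih =>
    simp only [lpull, dirac, LinearMap.proj_apply, List.map_cons]
    exact ih _

/-- integration commutes with the coboundary (induction on `l`; commute `ld` with the linear map
`K w` by linearity) -/
theorem ld_pull {W : Type u} {E : Type v} (K : Ker W E) (hK : ∀ w, K w (fun _ => 1) = 1)
    (φ : List E → ZMod 2) (l : List W) :
    ld (fun l' => lpull K l' φ) l = lpull K l (ld φ) := by
  induction l generalizing φ with
  | nil => rw [ld_nil]; exact (ld_nil φ).symm
  | cons w l ih =>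
    rw [ld_cons]
    simp only [lpull]
    rw [d1_ld_comm (K w) (fun x l' => lpull K l' (fun l'' => φ (x :: l''))) l]
    simp only [ih, ld_cons, pull_add]
    rw [d1_add (K w), d1_const (K w) (hK w)]

/-- the lprism operator between two kernels:
`h φ (x₀, …) = ∑_j φ (K x₀, …, K x_j, K' x_j, …)` -/
def lprism {W : Type u} {E : Type v} (K K' : Ker W E) : List W → (List E → ZMod 2) → ZMod 2
  | [], _ => 0
  | w :: l, φ => K w (fun x => K' w (fun x' => lpull K' l (fun l' => φ (x :: x' :: l')))) +
      K w (fun x => lprism K K' l (fun l' => φ (x :: l')))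

private theorem d1_prism_add {W : Type u} {E : Type v} (K K' : Ker W E) (l : List W)
    (φ φ' : List E → ZMod 2) :
    lprism K K' l (fun l' => φ l' + φ' l') = lprism K K' l φ + lprism K K' l φ' := by
  induction l generalizing φ φ' with
  | nil => simp [lprism]
  | cons w l ih =>
    simp only [lprism, pull_add, ih, d1_add]
    ring

/-- lprism identity.  Induction on `l` (all `φ`).  For maps: with `H φ l = lprism l φ`,
`d (H φ) (x :: l) = H φ l + d (φ (f x :: g x :: ·.map g)) l + d (H (φ (f x :: ·))) l` and
`H (d φ) (x :: l) = (d φ) (f x :: g x :: l.map g) + H ((d φ) (f x :: ·)) l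
= φ (g x :: l.map g) + φ (f x :: l.map g) + d (φ (f x :: g x :: ·)) (l.map g) + H φ l + H (d (φ (f x :: ·))) l`.
The same computation with `K`, `K'` (both kernels are normalized and linear) works. -/
theorem prism_id {W : Type u} {E : Type v} (K K' : Ker W E) (hK : ∀ w, K w (fun _ => 1) = 1)
    (hK' : ∀ w, K' w (fun _ => 1) = 1) (φ : List E → ZMod 2) (l : List W) :
    ld (fun l' => lprism K K' l' φ) l + lprism K K' l (ld φ) = lpull K l φ + lpull K' l φ := by
  induction l generalizing φ with
  | nil =>
    rw [ld_nil]
    simp only [lprism, lpull]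
    rw [CharTwo.add_self_eq_zero (φ []), zero_add]
  | cons w l ih =>
    rw [ld_cons]
    simp only [lprism]
    rw [d1_ld_add]
    rw [d1_ld_comm (K w) (fun x l' => K' w fun x' => lpull K' l' fun l'' => φ (x :: x' :: l'')) l]
    rw [d1_ld_comm (K w) (fun x l' => lprism K K' l' fun l'' => φ (x :: l'')) l]
    have e1 : (fun x => ld (fun l' => (K' w) fun x' => lpull K' l' fun l'' => φ (x :: x' :: l'')) l)
        = fun x => K' w (fun x' => lpull K' l (ld (fun l'' => φ (x :: x' :: l'')))) := by
      funext x
      rw [d1_ld_comm (K' w) (fun x' l' => lpull K' l' fun l'' => φ (x :: x' :: l'')) l]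
      congr 1
      funext x'
      exact ld_pull K' hK' _ l
    have e2 : (fun x => K' w fun x' => lpull K' l fun l' => ld φ (x :: x' :: l')) =
        fun x => lpull K' (w :: l) φ + (lpull K' l (fun l' => φ (x :: l')) +
          K' w (fun x' => lpull K' l (ld (fun l'' => φ (x :: x' :: l''))))) := by
      funext x
      simp only [ld_cons, pull_add]
      rw [d1_add (K' w), d1_add (K' w), d1_const (K' w) (hK' w)]
      rfl
    have e3 : (fun x => lprism K K' l fun l' => ld φ (x :: l')) =
        fun x => lprism K K' l φ + lprism K K' l (ld (fun l' => φ (x :: l'))) := by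
      funext x
      simp only [ld_cons]
      exact d1_prism_add K K' l _ _
    rw [e1, e2, e3]
    rw [d1_add (K w), d1_add (K w), d1_add (K w), d1_const (K w) (hK w), d1_const (K w) (hK w)]
    have e4 : K w (fun x => ld (fun l' => lprism K K' l' fun l'' => φ (x :: l'')) l) +
        K w (fun x => lprism K K' l (ld (fun l' => φ (x :: l')))) =
        lpull K (w :: l) φ + K w (fun x => lpull K' l (fun l' => φ (x :: l'))) := by
      rw [← d1_add (K w)]
      have e5 : (fun x => ld (fun l' => lprism K K' l' fun l'' => φ (x :: l'')) l +
          lprism K K' l (ld (fun l' => φ (x :: l')))) = fun x =>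
          lpull K l (fun l' => φ (x :: l')) + lpull K' l (fun l' => φ (x :: l')) := by
        funext x
        exact ih _
      rw [e5, d1_add (K w)]
      rfl
    have key : ∀ a b c d e f g h : ZMod 2, c + d = e + f →
        a + (b + c) + (g + (f + b) + (a + d)) = e + g := by decide
    exact key _ _ _ _ _ _ _ 0 e4

/-- transport of integration under maps: if `K (a w) θ = K w (θ ∘ β)` -/
theorem pull_map {W : Type u} {E : Type v} (K : Ker W E) (α : W → W) (β : E → E)
    (h : ∀ w θ, K (α w) θ = K w (fun x => θ (β x))) (l : List W) (φ : List E → ZMod 2) :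
    lpull K (l.map α) φ = lpull K l (fun l' => φ (l'.map β)) := by
  induction l generalizing φ with
  | nil => rfl
  | cons w l ih =>
    simp only [List.map_cons, lpull, h, ih]

theorem prism_map {W : Type u} {E : Type v} (K K' : Ker W E) (α : W → W) (β : E → E)
    (h : ∀ w θ, K (α w) θ = K w (fun x => θ (β x)))
    (h' : ∀ w θ, K' (α w) θ = K' w (fun x => θ (β x))) (l : List W) (φ : List E → ZMod 2) :
    lprism K K' (l.map α) φ = lprism K K' l (fun l' => φ (l'.map β)) := by
  induction l generalizing φ with
  | nil => rfl
  | cons w l ih =>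
    simp only [List.map_cons, lprism, h, h', ih, pull_map K' α β h']

/-- if `K x θ = K (s x) θ` for all `x` then `lpull K l φ` does not change when the entries of `l` are
replaced by `s`-images -/
theorem pull_map_self {W : Type u} {E : Type v} (K : Ker W E) (l l' : List W)
    (h : List.Forall₂ (fun w w' => K w = K w') l l') (φ : List E → ZMod 2) :
    lpull K l φ = lpull K l' φ := by
  induction h generalizing φ with
  | nil => rfl
  | cons hw _ ih =>
    simp only [lpull, hw, ih]

private theorem d1_pull_congr {W : Type u} {E : Type v} (K : Ker W E) (l : List W)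
    (φ φ' : List E → ZMod 2) (h : ∀ l', l'.length = l.length → φ l' = φ' l') :
    lpull K l φ = lpull K l φ' := by
  induction l generalizing φ φ' with
  | nil => exact h [] rfl
  | cons w l ih =>
    simp only [lpull]
    have e : ∀ x, lpull K l (fun l' => φ (x :: l')) = lpull K l (fun l' => φ' (x :: l')) := by
      intro x
      refine ih _ _ fun l' hl' => h _ ?_
      simp only [List.length_cons, hl']
    simp only [e]

/-- vanishing on lists of length `n`: `lprism` at length `n` only uses `φ` at length `n + 1` -/
theorem prism_congr {W : Type u} {E : Type v} (K K' : Ker W E) (n : ℕ) (l : List W)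
    (hl : l.length = n) (φ φ' : List E → ZMod 2) (h : ∀ l', l'.length = n + 1 → φ l' = φ' l') :
    lprism K K' l φ = lprism K K' l φ' := by
  induction l generalizing n φ φ' with
  | nil => rfl
  | cons w l ih =>
    simp only [List.length_cons] at hl
    simp only [lprism]
    have e1 : ∀ x x', lpull K' l (fun l' => φ (x :: x' :: l')) =
        lpull K' l (fun l' => φ' (x :: x' :: l')) := by
      intro x x'
      refine d1_pull_congr K' l _ _ fun l' hl' => h _ ?_
      simp only [List.length_cons]; omega
    have e2 : ∀ x, lprism K K' l (fun l' => φ (x :: l')) = lprism K K' l (fun l' => φ' (x :: l')) := by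
      intro x
      refine ih l.length rfl _ _ fun l' hl' => h _ ?_
      simp only [List.length_cons]; omega
    simp only [e1, e2]

theorem pull_congr {W : Type u} {E : Type v} (K : Ker W E) (n : ℕ) (l : List W)
    (hl : l.length = n) (φ φ' : List E → ZMod 2) (h : ∀ l', l'.length = n → φ l' = φ' l') :
    lpull K l φ = lpull K l φ' := by
  subst hl
  exact d1_pull_congr K l φ φ' h

theorem ld_congr {E : Type v} (n : ℕ) (l : List E) (hl : l.length = n + 1)
    (φ φ' : List E → ZMod 2) (h : ∀ l', l'.length = n → φ l' = φ' l') : ld φ l = ld φ' l := by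
  unfold ld
  congr 1
  refine Multiset.map_congr rfl fun l' hl' => h l' ?_
  have := tbd_len l l' hl'
  omega

end Vale.P067
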