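import Mathlib
import Vale.Agent.Lib.P067.D1.Sys
import Vale.Agent.Lib.P067.D1.Choice
import Vale.Agent.Lib.P067.D1.Pull

/-!
# P067, part D1: normal subgroups with a mean do not change the cohomology
-/

namespace Vale.P067

open scoped Classical

universe u v w

section

variable {Γ : Type u} [Group Γ] {E : Type v} [MulAction Γ E]

/-- with a free action the representing elements are equivariant -/
theorem d1_t_smul {P : Subgroup Γ} (hfree : ∀ (g : Γ) (x : E), g • x = x → g = 1)
    {r : E → E} {t : E → Γ} (htr : ∀ x, t x • r x = x) (hr : ∀ g ∈ P, ∀ x : E, r (g • x) = r x)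
    {p : Γ} (hp : p ∈ P) (x : E) : t (p • x) = p * t x := by
  have h1 : t (p • x) • r x = (p * t x) • r x := by
    have h2 := htr (p • x)
    rw [hr p hp] at h2
    rw [h2, mul_smul, htr]
  have h3 : ((p * t x)⁻¹ * t (p • x)) • r x = r x := by
    rw [mul_smul, h1, inv_smul_smul]
  have h4 := hfree _ _ h3
  exact (inv_mul_eq_one.1 h4).symm

theorem d1_pull_zero {W : Type u} {E : Type v} (K : Ker W E) (l : List W) :
    lpull K l (fun _ => (0 : ZMod 2)) = 0 := by
  have h := pull_add K l (fun _ => (0 : ZMod 2)) (fun _ => 0)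
  have h2 : (fun _ : List E => (0 : ZMod 2) + 0) = fun _ => 0 := by
    funext _
    exact add_zero 0
  rw [h2] at h
  have h3 := CharTwo.add_self_eq_zero (lpull K l (fun _ => (0 : ZMod 2)))
  rw [h3] at h
  exact h

theorem d1_prism_zero {W : Type u} {E : Type v} (K K' : Ker W E) :
    ∀ (l : List W), lprism K K' l (fun _ => (0 : ZMod 2)) = 0
  | [] => rfl
  | w :: l => by
    change K w (fun _ => K' w (fun _ => lpull K' l (fun _ => (0 : ZMod 2)))) +
      K w (fun _ => lprism K K' l (fun _ => (0 : ZMod 2))) = 0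
    rw [d1_pull_zero K' l, d1_prism_zero K K' l]
    have h1 : K' w (fun _ => (0 : ZMod 2)) = 0 := map_zero (K' w)
    have h2 : K w (fun _ => (0 : ZMod 2)) = 0 := map_zero (K w)
    rw [h1, h2, add_zero]

theorem d1_ld_add {E : Type v} (φ ψ : List E → ZMod 2) (l : List E) :
    ld (fun l' => φ l' + ψ l') l = ld φ l + ld ψ l := by
  unfold ld
  exact Multiset.sum_map_add

/-- lprism identity for a cocycle and `dirac id` as first kernel -/
theorem d1_prism_cocycle {E : Type v} (K : Ker E E) (hK : ∀ w, K w (fun _ => 1) = 1)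
    (φ : List E → ZMod 2) (n : ℕ) (hc : ∀ l : List E, l.length = n + 1 → ld φ l = 0)
    (l : List E) (hl : l.length = n) :
    φ l + lpull K l φ = ld (fun l' => lprism (dirac (fun x : E => x)) K l' φ) l := by
  have h1 := prism_id (dirac (fun x : E => x)) K (fun w => rfl) hK φ l
  have h2 : lprism (dirac (fun x : E => x)) K l (ld φ) = 0 := by
    rw [prism_congr (dirac (fun x : E => x)) K n l hl (ld φ) (fun _ => 0) (fun l' hl' => hc l' hl')]
    exact d1_prism_zero _ _ l
  rw [h2, add_zero, pull_dirac] at h1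
  rw [h1, List.map_id']

/-- invariance of the lprism between `id` and `γ` -/
theorem d1_prism_inv {E : Type v} (γ α β : E → E) (hγ : ∀ x, γ (α x) = β (γ x)) :
    ∀ (l : List E) (ψ ψ' : List E → ZMod 2),
      (∀ l1 l2 : List E, ψ (l1.map α ++ (l2.map γ).map β) = ψ' (l1 ++ l2.map γ)) →
      lprism (dirac (fun x : E => x)) (dirac γ) (l.map α) ψ =
        lprism (dirac (fun x : E => x)) (dirac γ) l ψ'
  | [], _, _, _ => rfl
  | w :: l, ψ, ψ', h => by
    have h1 := d1_prism_inv γ α β hγ l (fun l' => ψ (α w :: l')) (fun l' => ψ' (w :: l')) (by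
      intro l1 l2
      exact h (w :: l1) l2)
    have h2 : ∀ (l0 : List E) (w0 : E) (χ : List E → ZMod 2),
        lprism (dirac (fun x : E => x)) (dirac γ) (w0 :: l0) χ = χ (w0 :: γ w0 :: l0.map γ) +
          lprism (dirac (fun x : E => x)) (dirac γ) l0 (fun l' => χ (w0 :: l')) := by
      intro l0 w0 χ
      conv_lhs => unfold lprism
      change lpull (dirac γ) l0 (fun l' => χ (w0 :: γ w0 :: l')) + _ = _
      rw [pull_dirac]
      rfl
    rw [List.map_cons, h2, h2, h1]
    congr 1
    have h3 := h [w] (w :: l)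
    simp only [List.map_cons, List.map_nil, List.cons_append, List.nil_append, List.map_map] at h3
    rw [← h3, List.map_map]
    congr 1
    rw [hγ w]
    congr 2
    apply List.map_congr_left
    intro x _
    exact hγ x

theorem d1_forall_map {W : Type u} {E : Type v} {F : Type w} (K : Ker W E) (f g : F → W)
    (h : ∀ x, K (f x) = K (g x)) :
    ∀ l : List F, List.Forall₂ (fun w w' => K w = K w') (l.map f) (l.map g)
  | [] => List.Forall₂.nil
  | x :: l => List.Forall₂.cons (h x) (d1_forall_map K f g h l)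

theorem d1_forall_append {W : Type u} {R : W → W → Prop} {l2 l2' : List W}
    (h2 : List.Forall₂ R l2 l2') : ∀ {l1 l1' : List W}, List.Forall₂ R l1 l1' →
      List.Forall₂ R (l1 ++ l2) (l1' ++ l2')
  | _, _, List.Forall₂.nil => h2
  | _, _, List.Forall₂.cons h h1 => List.Forall₂.cons h (d1_forall_append h2 h1)

/-- an equivariant kernel transports invariant cochains to invariant cochains -/
theorem d1_inv_pull {P : Subgroup Γ} {K : Ker E E}
    (hKP : ∀ p ∈ P, ∀ x θ, K (p • x) θ = K x (fun y => θ (p • y)))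
    {φ : List E → ZMod 2} (hφ : Inv P φ) : Inv P (fun l => lpull K l φ) := by
  intro p hp l
  change lpull K (l.map (fun x => p • x)) φ = lpull K l φ
  rw [pull_map K (fun x => p • x) (fun x => p • x) (fun w θ => hKP p hp w θ)]
  congr 1
  funext l'
  exact hφ p hp l'

theorem d1_inv_prism {P : Subgroup Γ} {K : Ker E E}
    (hKP : ∀ p ∈ P, ∀ x θ, K (p • x) θ = K x (fun y => θ (p • y)))
    {φ : List E → ZMod 2} (hφ : Inv P φ) :
    Inv P (fun l => lprism (dirac (fun x : E => x)) K l φ) := by
  intro p hp l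
  change lprism (dirac (fun x : E => x)) K (l.map (fun x => p • x)) φ = lprism _ K l φ
  rw [prism_map (dirac (fun x : E => x)) K (fun x => p • x) (fun x => p • x) (fun w θ => rfl)
    (fun w θ => hKP p hp w θ)]
  congr 1
  funext l'
  exact hφ p hp l'

/-- An equivariant kernel which is invariant under the good normal subgroup `A` of `P`.
Proof: `r, t` from `exists_rep_sub P E`; `K x θ = m (fun a : A => θ (t x • (a • r x)))`.
Because the action is free, `t (p • x) = p * t x` for `p ∈ P` (both send `r x` to `p • x`).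
`K (a' • x)`: `a' * t x = t x * ((t x)⁻¹ * a' * t x)` and left invariance of `m`. -/
theorem exists_kernel (P A : Subgroup Γ) (hA : A ≤ P) (hn : ∀ p ∈ P, ∀ a ∈ A, p⁻¹ * a * p ∈ A)
    (hfree : ∀ (g : Γ) (x : E), g • x = x → g = 1) (hg : Good A) :
    ∃ K : Ker E E, (∀ x, K x (fun _ => 1) = 1) ∧
      (∀ p ∈ P, ∀ x θ, K (p • x) θ = K x (fun y => θ (p • y))) ∧
      (∀ a ∈ A, ∀ x, K (a • x) = K x) := by
  obtain ⟨m, hm1, hmi⟩ := hg
  obtain ⟨r, t, htP, htr, hr⟩ := exists_rep_sub P E
  have hts : ∀ p ∈ P, ∀ x, t (p • x) = p * t x := fun p hp x => d1_t_smul hfree htr hr hp x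
  refine ⟨fun x => m ∘ₗ LinearMap.funLeft (ZMod 2) (ZMod 2) (fun a : A => t x • ((a : Γ) • r x)),
    ?_, ?_, ?_⟩
  · intro x
    exact hm1
  · intro p hp x θ
    change m (fun a : A => θ (t (p • x) • ((a : Γ) • r (p • x)))) =
      m (fun a : A => θ (p • (t x • ((a : Γ) • r x))))
    rw [hts p hp x, hr p hp x]
    congr 1
    funext a
    rw [mul_smul]
  · intro a' ha' x
    refine LinearMap.ext fun θ => ?_
    change m (fun a : A => θ (t (a' • x) • ((a : Γ) • r (a' • x)))) =
      m (fun a : A => θ (t x • ((a : Γ) • r x)))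
    rw [hts a' (hA ha') x, hr a' (hA ha') x]
    have h1 := hmi ⟨(t x)⁻¹ * a' * t x, hn (t x) (htP x) a' ha'⟩
      (fun a : A => θ (t x • ((a : Γ) • r x)))
    rw [← h1]
    congr 1
    funext a
    congr 1
    rw [← mul_smul, ← mul_smul]
    congr 1
    change a' * t x * (a : Γ) = t x * ((t x)⁻¹ * a' * t x * (a : Γ))
    group

/-- (PK2) Let `A ≤ P` be good and normal in `P`, `γ : E → E` with `γ (p • x) = (p * a) • γ x` for all
`x` (`a ∈ A` depending only on `p`).  For a `P`-invariant cocycle `φ` on tuples of length `n`,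
`φ ∘ γ + φ` is the coboundary of a `P`-invariant cochain.
Proof: `K` from `exists_kernel`, `φ' l = lpull K l φ`, `φ'` is `P`-invariant and unchanged when entries
of `l` are moved by elements of `A` (`pull_map_self`), and a cocycle (`ld_pull`).  `prism_id` for
`dirac id`, `K`: `φ + φ' = d h`, `h l = lprism (dirac id) K l φ`, `P`-invariant (`prism_map`).  Hence
`φ ∘ γ + φ' ∘ γ = d (h ∘ γ)` and `h ∘ γ` is `P`-invariant because `γ (p • x) = (p * a) • γ x` and
`p * a ∈ P`.  `prism_id` for `dirac id`, `dirac γ` and the cocycle `φ'`: `φ' + φ' ∘ γ = d h'` with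
`h' l = lprism (dirac id) (dirac γ) l φ'`, `P`-invariant: entries `γ (p • x) = (p * a) • γ x
= (p * a * p⁻¹) • p • γ x` can be replaced by `p • γ x` in `φ'`.
(One may prove invariance of `h'` via an auxiliary lemma on lists.) -/
theorem pk2 (P A : Subgroup Γ) (hA : A ≤ P) (hn : ∀ p ∈ P, ∀ a ∈ A, p⁻¹ * a * p ∈ A)
    (hfree : ∀ (g : Γ) (x : E), g • x = x → g = 1) (hg : Good A) (γ : E → E)
    (hγ : ∀ p ∈ P, ∃ a ∈ A, ∀ x, γ (p • x) = (p * a) • γ x) (n : ℕ) (φ : List E → ZMod 2)
    (hφ : Inv P φ) (hc : ∀ l : List E, l.length = n + 1 → (tup Γ E).d φ l = 0) :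
    (tup Γ E).Triv P n (fun l => φ (l.map γ) + φ l) := by
  obtain ⟨K, hK1, hKP, hKA⟩ := exists_kernel P A hA hn hfree hg
  have hc' : ∀ l : List E, l.length = n + 1 → ld φ l = 0 := fun l hl => hc l hl
  have hF1 : Inv P (fun l => lpull K l φ) := d1_inv_pull hKP hφ
  have hF3 : ∀ l : List E, l.length = n + 1 → ld (fun l' => lpull K l' φ) l = 0 := by
    intro l hl
    rw [ld_pull K hK1 φ l, pull_congr K (n + 1) l hl (ld φ) (fun _ => 0) (fun l' hl' => hc' l' hl')]
    exact d1_pull_zero K l
  have hh : Inv P (fun l => lprism (dirac (fun x : E => x)) K l φ) := d1_inv_prism hKP hφ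
  refine ⟨fun l => (lprism (dirac (fun x : E => x)) K (l.map γ) φ +
    lprism (dirac (fun x : E => x)) K l φ) +
    lprism (dirac (fun x : E => x)) (dirac γ) l (fun l' => lpull K l' φ), ?_, ?_⟩
  · intro p hp l
    obtain ⟨a, ha, hγa⟩ := hγ p hp
    have e1 : lprism (dirac (fun x : E => x)) K ((p • l).map γ) φ =
        lprism (dirac (fun x : E => x)) K (l.map γ) φ := by
      have h1 : (p • l).map γ = (p * a) • (l.map γ) := by
        rw [list_smul, list_smul, List.map_map, List.map_map]
        apply List.map_congr_left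
        intro x _
        exact hγa x
      rw [h1]
      exact hh (p * a) (P.mul_mem hp (hA ha)) (l.map γ)
    have e2 : lprism (dirac (fun x : E => x)) K (p • l) φ =
        lprism (dirac (fun x : E => x)) K l φ := hh p hp l
    have e3 : lprism (dirac (fun x : E => x)) (dirac γ) (p • l) (fun l' => lpull K l' φ) =
        lprism (dirac (fun x : E => x)) (dirac γ) l (fun l' => lpull K l' φ) := by
      rw [list_smul]
      apply d1_prism_inv γ (fun x => p • x) (fun x => (p * a) • x) hγa
      intro l1 l2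
      have h5 : List.Forall₂ (fun w w' => K w = K w')
          (l1.map (fun x => p • x) ++ (l2.map γ).map (fun x => (p * a) • x))
          (l1.map (fun x => p • x) ++ (l2.map γ).map (fun x => p • x)) := by
        apply d1_forall_append
        · apply d1_forall_map K
          intro x
          have h6 : (p * a) • x = (p * a * p⁻¹) • (p • x) := by
            rw [← mul_smul, inv_mul_cancel_right]
          rw [h6]
          refine hKA _ ?_ _
          have h7 := hn p⁻¹ (P.inv_mem hp) a ha
          rwa [inv_inv] at h7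
        · apply d1_forall_map K
          intro x
          rfl
      rw [pull_map_self K _ _ h5, ← List.map_append]
      exact hF1 p hp (l1 ++ l2.map γ)
    change (lprism (dirac (fun x : E => x)) K ((p • l).map γ) φ +
      lprism (dirac (fun x : E => x)) K (p • l) φ) +
      lprism (dirac (fun x : E => x)) (dirac γ) (p • l) (fun l' => lpull K l' φ) = _
    rw [e1, e2, e3]
  · intro l hl
    have hl' : l.length = n := hl
    have a1 := d1_prism_cocycle K hK1 φ n hc' l hl'
    have a2 := d1_prism_cocycle K hK1 φ n hc' (l.map γ) (by rw [List.length_map]; exact hl')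
    have a3 := d1_prism_cocycle (dirac γ) (fun w => rfl) (fun l' => lpull K l' φ) n hF3 l hl'
    rw [pull_dirac] at a3
    rw [← ld_map] at a2
    change φ (l.map γ) + φ l = ld (fun l => (lprism (dirac (fun x : E => x)) K (l.map γ) φ +
      lprism (dirac (fun x : E => x)) K l φ) +
      lprism (dirac (fun x : E => x)) (dirac γ) l (fun l' => lpull K l' φ)) l
    rw [d1_ld_add, d1_ld_add, ← a1, ← a2, ← a3]
    have c1 := CharTwo.add_self_eq_zero (lpull K l φ)
    have c2 := CharTwo.add_self_eq_zero (lpull K (l.map γ) φ)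
    calc φ (l.map γ) + φ l = φ (l.map γ) + φ l + (lpull K l φ + lpull K l φ) +
          (lpull K (l.map γ) φ + lpull K (l.map γ) φ) := by rw [c1, c2, add_zero, add_zero]
      _ = _ := by ring

/-- (PK3) If moreover `P = A H`, `A ⊓ H = ⊥` and the `P`-invariant cocycle `φ` is an `H`-invariant
coboundary, then it is a `P`-invariant coboundary.
Proof: `φ'` and `h` as in `pk2`: `φ' = d χ'` with `χ'` `H`-invariant (`χ' = χ + h`).  There is
`s : E → E` with `s (a • x) = s x`, `s (h • x) = h • s x`, `x ∈ A • s x`: for `x = t x • r x`,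
`t x = a * h'` (unique) put `s x = h' • r x`.  Then `b l = χ' (l.map s)` is `P`-invariant and
`d b l = (d χ') (l.map s) = φ' (l.map s) = φ' l`.  Finally `φ = φ' + d h`. -/
theorem pk3 (P A H : Subgroup Γ) (hA : A ≤ P) (hn : ∀ p ∈ P, ∀ a ∈ A, p⁻¹ * a * p ∈ A)
    (hfree : ∀ (g : Γ) (x : E), g • x = x → g = 1) (hg : Good A) (hH : H ≤ P)
    (hAH : ∀ p ∈ P, ∃ a ∈ A, ∃ h ∈ H, p = a * h) (hdisj : A ⊓ H = ⊥) (n : ℕ)
    (φ : List E → ZMod 2) (hφ : Inv P φ)
    (hc : ∀ l : List E, l.length = n + 1 → (tup Γ E).d φ l = 0)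
    (ht : (tup Γ E).Triv H n φ) : (tup Γ E).Triv P n φ := by
  obtain ⟨K, hK1, hKP, hKA⟩ := exists_kernel P A hA hn hfree hg
  obtain ⟨χ, hχ, hφχ⟩ := ht
  have hc' : ∀ l : List E, l.length = n + 1 → ld φ l = 0 := fun l hl => hc l hl
  have hφχ' : ∀ l : List E, l.length = n → φ l = ld χ l := fun l hl => hφχ l hl
  have hh : Inv P (fun l => lprism (dirac (fun x : E => x)) K l φ) := d1_inv_prism hKP hφ
  obtain ⟨r, t, htP, htr, hr⟩ := exists_rep_sub P E
  have hts : ∀ p ∈ P, ∀ x, t (p • x) = p * t x := fun p hp x => d1_t_smul hfree htr hr hp x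
  have hdec : ∀ x : E, ∃ q : Γ × Γ, q.1 ∈ A ∧ q.2 ∈ H ∧ t x = q.1 * q.2 := by
    intro x
    obtain ⟨a, ha, h, hh', he⟩ := hAH (t x) (htP x)
    exact ⟨(a, h), ha, hh', he⟩
  choose q hqA hqH hq using hdec
  have huniq : ∀ a1 ∈ A, ∀ a2 ∈ A, ∀ h1 ∈ H, ∀ h2 ∈ H, a1 * h1 = a2 * h2 → h1 = h2 := by
    intro a1 ha1 a2 ha2 h1 hh1 h2 hh2 he
    have e1 : a2⁻¹ * a1 = h2 * h1⁻¹ := by
      rw [eq_mul_inv_iff_mul_eq, mul_assoc, he, inv_mul_cancel_left]
    have e2 : a2⁻¹ * a1 ∈ A ⊓ H := by
      refine Subgroup.mem_inf.2 ⟨A.mul_mem (A.inv_mem ha2) ha1, ?_⟩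
      rw [e1]
      exact H.mul_mem hh2 (H.inv_mem hh1)
    rw [hdisj, Subgroup.mem_bot, e1] at e2
    exact (mul_inv_eq_one.1 e2).symm
  have hsA : ∀ a ∈ A, ∀ x, (q (a • x)).2 = (q x).2 := by
    intro a ha x
    apply huniq (q (a • x)).1 (hqA _) (a * (q x).1) (A.mul_mem ha (hqA x)) _ (hqH _) _ (hqH _)
    rw [← hq, hts a (hA ha) x, hq x, mul_assoc]
  have hsH : ∀ h ∈ H, ∀ x, (q (h • x)).2 = h * (q x).2 := by
    intro h hh' x
    have hn' : h * (q x).1 * h⁻¹ ∈ A := by
      have h7 := hn h⁻¹ (P.inv_mem (hH hh')) (q x).1 (hqA x)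
      rwa [inv_inv] at h7
    apply huniq (q (h • x)).1 (hqA _) (h * (q x).1 * h⁻¹) hn' _ (hqH _) _
      (H.mul_mem hh' (hqH _))
    rw [← hq, hts h (hH hh') x, hq x]
    group
  have hKs : ∀ x, K x = K ((q x).2 • r x) := by
    intro x
    have h8 : (q x).1 • ((q x).2 • r x) = x := by
      rw [← mul_smul, ← hq x, htr]
    have h9 := hKA (q x).1 (hqA x) ((q x).2 • r x)
    rw [h8] at h9
    exact h9
  refine ⟨fun l => (χ (l.map (fun x => (q x).2 • r x)) +
    lprism (dirac (fun x : E => x)) K (l.map (fun x => (q x).2 • r x)) φ) +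
    lprism (dirac (fun x : E => x)) K l φ, ?_, ?_⟩
  · intro p hp l
    obtain ⟨a, ha, h, hh', hpah⟩ := hAH p hp
    have hs : (p • l).map (fun x => (q x).2 • r x) = h • (l.map (fun x => (q x).2 • r x)) := by
      rw [list_smul, list_smul, List.map_map, List.map_map]
      apply List.map_congr_left
      intro x _
      change (q (p • x)).2 • r (p • x) = h • ((q x).2 • r x)
      rw [hr p hp x, hpah, mul_smul, hsA a ha, hsH h hh', mul_smul]
    change (χ ((p • l).map (fun x => (q x).2 • r x)) +
      lprism (dirac (fun x : E => x)) K ((p • l).map (fun x => (q x).2 • r x)) φ) +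
      lprism (dirac (fun x : E => x)) K (p • l) φ = _
    have e2 : lprism (dirac (fun x : E => x)) K (p • l) φ =
        lprism (dirac (fun x : E => x)) K l φ := hh p hp l
    have e3 : lprism (dirac (fun x : E => x)) K (h • (l.map (fun x => (q x).2 • r x))) φ =
        lprism (dirac (fun x : E => x)) K (l.map (fun x => (q x).2 • r x)) φ := hh h (hH hh') _
    rw [e2, hs, hχ h hh', e3]
  · intro l hl
    have hl' : l.length = n := hl
    have hls : (l.map (fun x => (q x).2 • r x)).length = n := by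
      rw [List.length_map]
      exact hl'
    have a1 := d1_prism_cocycle K hK1 φ n hc' l hl'
    have a2 := d1_prism_cocycle K hK1 φ n hc' (l.map (fun x => (q x).2 • r x)) hls
    have a4 := hφχ' (l.map (fun x => (q x).2 • r x)) hls
    rw [← ld_map] at a2 a4
    have a5 : lpull K (l.map (fun x => (q x).2 • r x)) φ = lpull K l φ := by
      have h10 := d1_forall_map K (fun x => (q x).2 • r x) (fun x : E => x)
        (fun x => (hKs x).symm) l
      rw [pull_map_self K _ _ h10, List.map_id']
    rw [a5] at a2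
    change φ l = ld (fun l => (χ (l.map (fun x => (q x).2 • r x)) +
      lprism (dirac (fun x : E => x)) K (l.map (fun x => (q x).2 • r x)) φ) +
      lprism (dirac (fun x : E => x)) K l φ) l
    rw [d1_ld_add, d1_ld_add, ← a1, ← a2, ← a4]
    have c1 := CharTwo.add_self_eq_zero (lpull K l φ)
    have c2 := CharTwo.add_self_eq_zero (φ (l.map (fun x => (q x).2 • r x)))
    calc φ l = φ l + (lpull K l φ + lpull K l φ) +
          (φ (l.map (fun x => (q x).2 • r x)) + φ (l.map (fun x => (q x).2 • r x))) := by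
            rw [c1, c2, add_zero, add_zero]
      _ = _ := by ring

end

end Vale.P067
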