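import Mathlib
import Vale.Agent.Lib.P067.D1.MatA
import Vale.Agent.Lib.P067.D1.PK
import Vale.Agent.Lib.P067.D1.Cmp
import Vale.Agent.Lib.P067.D2.Out
import Vale.Agent.Lib.P067.Dec

/-!
# P067, part D1: conjugation by `SL_n(k[X])` acts trivially on the cohomology of the congruence
subgroup after restriction to the stabilizer of a vector

`SL_n(k[X])` acts on itself by left multiplication (`g • x = g * x`).
-/

namespace Vale.P067

open scoped Classical
open Polynomial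

section

variable {k : Type*} [Field k] {n : ℕ} {m : ℕ}

theorem d1_list_smul_smul {Γ : Type*} [Group Γ] {E : Type*} [MulAction Γ E] (a b : Γ)
    (y : List E) : (a * b) • y = a • (b • y) := mul_smul a b y

theorem d1_inv_shift (g : SLk k n) {φ : List (SLk k n) → ZMod 2} (hφ : Inv (Ncg k n m) φ) :
    Inv (Ncg k n m) (fun y => φ (g • y)) := by
  intro p hp y
  change φ (g • (p • y)) = φ (g • y)
  have h1 : g • (p • y) = (g * p * g⁻¹) • (g • y) := by
    rw [← mul_smul, ← mul_smul, inv_mul_cancel_right]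
  rw [h1]
  exact hφ _ ((Ncg_normal k n m).conj_mem p hp g) _

theorem d1_inv_add {P : Subgroup (SLk k n)} {φ ψ : List (SLk k n) → ZMod 2} (hφ : Inv P φ)
    (hψ : Inv P ψ) : Inv P (fun y => φ y + ψ y) := by
  intro p hp y
  change φ (p • y) + ψ (p • y) = φ y + ψ y
  rw [hφ p hp, hψ p hp]

theorem d1_inv_mono {P Q : Subgroup (SLk k n)} (h : Q ≤ P) {φ : List (SLk k n) → ZMod 2}
    (hφ : Inv P φ) : Inv Q φ := fun p hp y => hφ p (h hp) y

theorem d1_coc_shift (g : SLk k n) {q : ℕ} {φ : List (SLk k n) → ZMod 2}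
    (hc : ∀ y : List (SLk k n), y.length = q + 1 → (tup (SLk k n) (SLk k n)).d φ y = 0)
    (y : List (SLk k n)) (hy : y.length = q + 1) :
    (tup (SLk k n) (SLk k n)).d (fun y' => φ (g • y')) y = 0 := by
  rw [← Sys.d_smul]
  apply hc
  rw [list_smul, List.length_map]
  exact hy

theorem d1_coc_add {q : ℕ} {φ ψ : List (SLk k n) → ZMod 2}
    (hc : ∀ y : List (SLk k n), y.length = q + 1 → (tup (SLk k n) (SLk k n)).d φ y = 0)
    (hc' : ∀ y : List (SLk k n), y.length = q + 1 → (tup (SLk k n) (SLk k n)).d ψ y = 0)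
    (y : List (SLk k n)) (hy : y.length = q + 1) :
    (tup (SLk k n) (SLk k n)).d (fun y' => φ y' + ψ y') y = 0 := by
  rw [Sys.d_add, hc y hy, hc' y hy, add_zero]

theorem d1_free_self (g x : SLk k n) (h : g • x = x) : g = 1 := by
  have h1 : g * x = x := h
  exact mul_eq_right.mp h1

theorem d1_smul_eq_map (g : SLk k n) (y : List (SLk k n)) : g • y = y.map (fun x => g * x) := rfl

/-- Both kinds of transvections.
Row: `pk2` for `P = PP`, `A = AA`, `γ x = g⁻¹ * x`, `hγ` from `tv_row`.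
Column: `pk2` for `P = PR`, `A = AR` gives `Triv PR`, hence `Triv (PP ⊓ PR)` (`Sys.Triv.mono`); then
`pk3` with `P = PP`, `A = AA`, `H = PP ⊓ PR` for the cocycle `φ (g⁻¹ * ·) + φ`, which is invariant
under `Ncg k n m` (normal subgroup). -/
theorem triv_gen [Finite k] (hk : Odd (Nat.card k)) (l j : Fin n) (h : j ≠ l) (r : k[X]) (q : ℕ)
    (φ : List (SLk k n) → ZMod 2) (hφ : Inv (Ncg k n m) φ)
    (hc : ∀ y : List (SLk k n), y.length = q + 1 → (tup (SLk k n) (SLk k n)).d φ y = 0) :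
    (tup (SLk k n) (SLk k n)).Triv (PP k m l) q
      (fun y => φ ((D2.tv l j h.symm r)⁻¹ • y) + φ y) ∧
    (tup (SLk k n) (SLk k n)).Triv (PP k m l) q
      (fun y => φ ((D2.tv j l h r)⁻¹ • y) + φ y) := by
  have hPP : PP k m l ≤ Ncg k n m := fun g hg => hg.1
  have hPR : PR k m l ≤ Ncg k n m := fun g hg => hg.1
  constructor
  · have h1 := pk2 (PP k m l) (AA k m l) AA_le AA_norm d1_free_self (AA_good hk)
      (fun x : SLk k n => (D2.tv l j h.symm r)⁻¹ * x) (by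
        intro p hp
        obtain ⟨a, ha, he⟩ := tv_row j h r p hp
        refine ⟨a, ha, fun x => ?_⟩
        change (D2.tv l j h.symm r)⁻¹ * (p * x) = (p * a) * ((D2.tv l j h.symm r)⁻¹ * x)
        rw [← mul_assoc, he, mul_assoc]) q φ (d1_inv_mono hPP hφ) hc
    exact h1
  · have h1 := pk2 (PR k m l) (AR k m l) AR_le AR_norm d1_free_self (AR_good hk)
      (fun x : SLk k n => (D2.tv j l h r)⁻¹ * x) (by
        intro p hp
        obtain ⟨a, ha, he⟩ := tv_col j h r p hp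
        refine ⟨a, ha, fun x => ?_⟩
        change (D2.tv j l h r)⁻¹ * (p * x) = (p * a) * ((D2.tv j l h r)⁻¹ * x)
        rw [← mul_assoc, he, mul_assoc]) q φ (d1_inv_mono hPR hφ) hc
    have h2 : (tup (SLk k n) (SLk k n)).Triv (PP k m l ⊓ PR k m l) q
        (fun y => φ ((D2.tv j l h r)⁻¹ • y) + φ y) := Sys.Triv.mono inf_le_right h1
    exact pk3 (PP k m l) (AA k m l) (PP k m l ⊓ PR k m l) AA_le AA_norm d1_free_self (AA_good hk)
      inf_le_left PP_eq AA_disj q _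
      (d1_inv_mono hPP (d1_inv_add (d1_inv_shift _ hφ) hφ))
      (d1_coc_add (d1_coc_shift _ hc) hc) h2

theorem d1_triv_zero {P : Subgroup (SLk k n)} {q : ℕ} {f : List (SLk k n) → ZMod 2}
    (hf : ∀ y, f y = 0) : (tup (SLk k n) (SLk k n)).Triv P q f :=
  ⟨fun _ => 0, fun _ _ _ => rfl, fun y _ => by rw [hf y, d1_d_zero]⟩

/-- All `g`: the set of `g` such that for all invariant cocycles `φ` the cochain
`φ (g⁻¹ • ·) + φ` is trivial for `PP` is closed under products (apply the property of `g` to the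
cocycle `φ (g'⁻¹ • ·)`, invariant because `Ncg` is normal) and inverses, and contains the
transvections (`triv_gen`), which generate (`D2.SL_gen`). -/
theorem triv_all [Finite k] (hk : Odd (Nat.card k)) (l : Fin n) (q : ℕ) (g : SLk k n)
    (φ : List (SLk k n) → ZMod 2) (hφ : Inv (Ncg k n m) φ)
    (hc : ∀ y : List (SLk k n), y.length = q + 1 → (tup (SLk k n) (SLk k n)).d φ y = 0) :
    (tup (SLk k n) (SLk k n)).Triv (PP k m l) q (fun y => φ (g⁻¹ • y) + φ y) := by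
  have hg : g ∈ Subgroup.closure {g : SLk k n |
      ∃ (j : Fin n) (h : j ≠ l) (r : k[X]), g = D2.tv l j h.symm r ∨ g = D2.tv j l h r} := by
    rw [D2.SL_gen k l]
    exact Subgroup.mem_top g
  induction hg using Subgroup.closure_induction generalizing φ with
  | mem x hx =>
    obtain ⟨j, h, r, hx | hx⟩ := hx
    · rw [hx]
      exact (triv_gen hk l j h r q φ hφ hc).1
    · rw [hx]
      exact (triv_gen hk l j h r q φ hφ hc).2
  | one =>
    apply d1_triv_zero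
    intro y
    rw [inv_one, one_smul]
    exact CharTwo.add_self_eq_zero _
  | mul x y _ _ hx hy =>
    have h1 := hx (fun z => φ (y⁻¹ • z)) (d1_inv_shift _ hφ) (d1_coc_shift _ hc)
    have h2 := hy φ hφ hc
    refine (h1.add h2).congr fun z _ => ?_
    change φ (y⁻¹ • (x⁻¹ • z)) + φ (y⁻¹ • z) + (φ (y⁻¹ • z) + φ z) = φ ((x * y)⁻¹ • z) + φ z
    rw [mul_inv_rev, mul_smul]
    have h3 := CharTwo.add_self_eq_zero (φ (y⁻¹ • z))
    calc φ (y⁻¹ • (x⁻¹ • z)) + φ (y⁻¹ • z) + (φ (y⁻¹ • z) + φ z)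
        = φ (y⁻¹ • (x⁻¹ • z)) + (φ (y⁻¹ • z) + φ (y⁻¹ • z)) + φ z := by ring
      _ = _ := by rw [h3, add_zero]
  | inv x _ hx =>
    have h1 := hx (fun z => φ (x • z)) (d1_inv_shift _ hφ) (d1_coc_shift _ hc)
    refine h1.congr fun z _ => ?_
    change φ (x • (x⁻¹ • z)) + φ (x • z) = φ ((x⁻¹)⁻¹ • z) + φ z
    rw [smul_inv_smul, inv_inv, add_comm]

/-- The same for the stabilizer of any partial basis with one element `{v}`, `v = h e_l`:
`Ncg ⊓ stabilizer {v} ≤ h PP h⁻¹` (`pb_trans_one`, `pb_stab`, normality), and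
`φ (g⁻¹ • ·) + φ = θ (h⁻¹ • ·)` with `θ = φ ((h⁻¹ g)⁻¹ • ·) + φ (h • ·)
= [φ ((h⁻¹ g)⁻¹ • ·) + φ] + [φ ((h⁻¹)⁻¹ • ·) + φ]`, trivial for `PP` by `triv_all`; `triv_conj`. -/
theorem triv_vertex [Finite k] (hk : Odd (Nat.card k)) (hn : 2 ≤ n) (hm : 1 ≤ m) (q : ℕ)
    (g : SLk k n) (φ : List (SLk k n) → ZMod 2) (hφ : Inv (Ncg k n m) φ)
    (hc : ∀ y : List (SLk k n), y.length = q + 1 → (tup (SLk k n) (SLk k n)).d φ y = 0)
    (σ : (pbCx k n).Cell) (hσ : (pbCx k n).sys.deg σ = 1) :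
    (tup (SLk k n) (SLk k n)).Triv (Ncg k n m ⊓ MulAction.stabilizer (SLk k n) σ) q
      (fun y => φ (g⁻¹ • y) + φ y) := by
  have hσ1 : σ.1.card = 1 := hσ
  set l : Fin n := ⟨0, by omega⟩ with hl
  obtain ⟨h, hh⟩ := pb_trans_one k n hn l σ.1 σ.2 hσ1
  have h1 := triv_all hk l q (h⁻¹ * g) φ hφ hc
  have h2 := triv_all hk l q (h⁻¹) φ hφ hc
  have h3 := triv_conj (tup (SLk k n) (SLk k n)) h (PP k m l) q _ (h1.add h2)
  have h4 : Ncg k n m ⊓ MulAction.stabilizer (SLk k n) σ ≤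
      (PP k m l).map (MulAut.conj h).toMonoidHom := by
    intro p hp
    obtain ⟨hp1, hp2⟩ := Subgroup.mem_inf.1 hp
    have hp3 : p • σ = σ := MulAction.mem_stabilizer_iff.1 hp2
    have hp4 : σ.1.image (fun v => p • v) = σ.1 := by
      have h6 := congrArg (fun τ : (pbCx k n).Cell => τ.1) hp3
      change (p • σ).1 = σ.1 at h6
      rw [Cx.smul_coe] at h6
      exact (dec_image _ _ _ _).trans h6
    have hp5 := pb_stab k n hm p hp1 σ.1 σ.2 hp4 (h • (Pi.single l 1 : Fin n → k[X]))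
      (by rw [hh]; exact Finset.mem_singleton_self _)
    refine Subgroup.mem_map.2 ⟨h⁻¹ * p * h, ?_, ?_⟩
    · refine Subgroup.mem_inf.2 ⟨?_, ?_⟩
      · have h5 := (Ncg_normal k n m).conj_mem p hp1 h⁻¹
        rwa [inv_inv] at h5
      · rw [MulAction.mem_stabilizer_iff, mul_smul, mul_smul, hp5, inv_smul_smul]
    · change h * (h⁻¹ * p * h) * h⁻¹ = p
      group
  refine (h3.mono h4).congr fun y _ => ?_
  change (φ ((h⁻¹ * g)⁻¹ • (h⁻¹ • y)) + φ (h⁻¹ • y)) + (φ ((h⁻¹)⁻¹ • (h⁻¹ • y)) + φ (h⁻¹ • y)) =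
    φ (g⁻¹ • y) + φ y
  have e1 : (h⁻¹ * g)⁻¹ • (h⁻¹ • y) = g⁻¹ • y := by
    rw [mul_inv_rev, inv_inv, mul_smul, smul_inv_smul]
  have e2 : (h⁻¹)⁻¹ • (h⁻¹ • y) = y := by
    rw [inv_inv, smul_inv_smul]
  rw [e1, e2]
  have h3 := CharTwo.add_self_eq_zero (φ (h⁻¹ • y))
  calc φ (g⁻¹ • y) + φ (h⁻¹ • y) + (φ y + φ (h⁻¹ • y))
      = φ (g⁻¹ • y) + φ y + (φ (h⁻¹ • y) + φ (h⁻¹ • y)) := by ring
    _ = _ := by rw [h3, add_zero]

end

end Vale.P067
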