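import Mathlib
import Vale.Agent.Lib.P067.D1.StabB
import Vale.Agent.Lib.P067.D1.MatB
import Vale.Agent.Lib.P067.D1.Zig

/-!
# P067, part D1: the induction (first half)
-/

namespace Vale.P067

open scoped Classical
open Polynomial

section

variable (k : Type*) [Field k]

/-- `H^i(N; F_2) = 0` for all congruence subgroups in `SL_n(k[X])`, `2 i + 3 ≤ n ≤ n₁`, level `m ≥ 1`
(`n₁` is a bound for the sizes which are considered) -/
def AAx (n₁ i : ℕ) : Prop := ∀ n m, n ≤ n₁ → 2 * i + 3 ≤ n → 1 ≤ m →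
  (tup (SLk k n) (SLk k n)).Ex (Ncg k n m) (i + 1)

variable {k}

/-- `SL_n(k[X])` acts trivially on the cohomology: `zig_inj` with `SY = (pbCx k n).sys`,
`SZ = tup`, `P = Ncg k n m`, `f = φ (g⁻¹ • ·) + φ` (invariant since `Ncg` is normal).
* `hne`: `pb_one`.
* `hY p q`, `p + q = i + 1`, `p ≥ 1`: `q = 0`: `z = []`, its stabilizer is `⊤`, `pb_ex_N` (`p = i + 1`,
  `i + 3 ≤ n`).  `q ≥ 1`: the stabilizer of a nonempty list is trivial, so the group is `⊥`, `pb_ex`.
* `hZ p q`, `p + q = i + 2`, `p ≥ 2`: `q ≤ 1`: `ex_zero_one`.  `q = j + 1`, `j ≥ 1`: then `j = i + 1 - p < i`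
  and `2 * j + 3 ≤ n - p`; `stab_ex` with `IH j`.
* `hy`: `triv_vertex`. -/
theorem triv_N [Finite k] (hk : Odd (Nat.card k)) {n₁ i n m : ℕ} (hi : 1 ≤ i)
    (hn1 : n ≤ n₁) (hn : 2 * i + 3 ≤ n)
    (hm : 1 ≤ m) (IH : ∀ j, 1 ≤ j → j < i → AAx k n₁ j) (g : SLk k n)
    (φ : List (SLk k n) → ZMod 2) (hφ : Inv (Ncg k n m) φ)
    (hc : ∀ y : List (SLk k n), y.length = i + 2 → (tup (SLk k n) (SLk k n)).d φ y = 0) :
    (tup (SLk k n) (SLk k n)).Triv (Ncg k n m) (i + 1) (fun y => φ (g⁻¹ • y) + φ y) := by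
  refine zig_inj (pbCx k n).sys (tup (SLk k n) (SLk k n)) (Ncg k n m) i (pb_one k n (by omega)) ?_ ?_
    (fun y => φ (g⁻¹ • y) + φ y) ?_ ?_
  · intro p q hpq hp z hz
    cases z with
    | nil =>
      have hq : q = 0 := hz.symm
      subst hq
      rw [d1_stab_nil]
      exact pb_ex_N k n hm hp (by omega)
    | cons x l =>
      have hq : q = l.length + 1 := hz.symm
      have hbot : Ncg k n m ⊓ MulAction.stabilizer (SLk k n) (x :: l) = ⊥ := by
        refine eq_bot_iff.2 fun a ha => ?_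
        have h1 := (d1_stab_cons_le (Ncg k n m) x l ha).2
        have h2 : a * x = x := MulAction.mem_stabilizer_iff.1 h1
        exact Subgroup.mem_bot.2 (mul_eq_right.1 h2)
      rw [hbot]
      exact pb_ex k n (by omega)
  · intro p q hpq hp σ hσ
    rcases Nat.lt_or_ge 1 q with hq | hq
    · obtain ⟨j, rfl⟩ : ∃ j, q = j + 1 := ⟨q - 1, by omega⟩
      exact stab_ex hk hm (by omega) (IH j (by omega) (by omega) (n - p) m (by omega) (by omega) hm) σ hσ
    · exact ex_zero_one _ hq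
  · intro a ha y
    have h1 : g⁻¹ • (a • y) = (g⁻¹ * a * g⁻¹⁻¹) • (g⁻¹ • y) := by
      rw [smul_smul, smul_smul]
      congr 1
      group
    change φ (g⁻¹ • (a • y)) + φ (a • y) = φ (g⁻¹ • y) + φ y
    rw [h1, hφ _ ((Ncg_normal (k := k) (n := n) m).conj_mem a ha g⁻¹), hφ a ha]
  · intro σ hσ
    exact triv_vertex hk (by omega) hm (i + 1) g φ hφ hc σ hσ

end

end Vale.P067
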