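import Mathlib
import Vale.Agent.Lib.P067.D1.IndA

/-!
# P067, part D1: the induction (transfer)
-/

namespace Vale.P067

open scoped Classical
open Polynomial

section

variable {k : Type*} [Field k]

/-- finite sums of coboundaries of invariant cochains -/
theorem d1_triv_sum {Γ : Type*} [Group Γ] {Y : Type*} [MulAction Γ Y] (S : Sys Γ Y)
    (P : Subgroup Γ) (p : ℕ) {ι : Type*} (s : Finset ι) (F : ι → Y → ZMod 2)
    (h : ∀ q ∈ s, S.Triv P p (F q)) : S.Triv P p (fun y => ∑ q ∈ s, F q y) := by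
  induction s using Finset.induction_on with
  | empty =>
    refine ⟨fun _ => 0, fun _ _ _ => rfl, fun y _ => ?_⟩
    simp [Sys.d]
  | insert a s ha ih =>
    obtain ⟨b, hb, hb'⟩ := h a (Finset.mem_insert_self a s)
    obtain ⟨c, hc, hc'⟩ := ih fun q hq => h q (Finset.mem_insert_of_mem hq)
    refine ⟨fun y => b y + c y, fun g hg y => ?_, fun y hy => ?_⟩
    · change b (g • y) + c (g • y) = b y + c y
      rw [hb g hg, hc g hg]
    · change ∑ q ∈ insert a s, F q y = S.d (fun y' => b y' + c y') y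
      rw [Sys.d_add, Finset.sum_insert ha, hb' y hy]
      congr 1
      exact hc' y hy

theorem d1_d_sum {Γ : Type*} [Group Γ] {Y : Type*} [MulAction Γ Y] (S : Sys Γ Y) {ι : Type*}
    (s : Finset ι) (F : ι → Y → ZMod 2) (y : Y) :
    S.d (fun y' => ∑ q ∈ s, F q y') y = ∑ q ∈ s, S.d (F q) y := by
  induction s using Finset.induction_on with
  | empty => simp [Sys.d]
  | insert a s ha ih =>
    rw [Finset.sum_insert ha, ← ih, ← Sys.d_add]
    congr 1
    funext y'
    exact Finset.sum_insert ha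

/-- transfer, general form -/
theorem d1_transfer {Γ : Type*} [Group Γ] {Y : Type*} [MulAction Γ Y] (S : Sys Γ Y)
    (N P : Subgroup Γ) (hNP : N ≤ P) (hodd : Odd (N.subgroupOf P).index) (p : ℕ)
    (HU : S.Ex P p)
    (htriv : ∀ (g : Γ) (φ : Y → ZMod 2), Inv N φ → (∀ y : Y, S.deg y = p + 1 → S.d φ y = 0) →
      S.Triv N p (fun y => φ (g⁻¹ • y) + φ y)) : S.Ex N p := by
  intro φ hφ hc
  have hne : (N.subgroupOf P).index ≠ 0 := by
    intro h0
    rw [h0] at hodd
    exact absurd hodd (by decide)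
  have hfin : Finite (P ⧸ N.subgroupOf P) := Nat.finite_of_card_ne_zero hne
  have hfin' : Fintype (P ⧸ N.subgroupOf P) := Fintype.ofFinite _
  have hcard : Odd (Fintype.card (P ⧸ N.subgroupOf P)) := by
    have h1 : (N.subgroupOf P).index = Fintype.card (P ⧸ N.subgroupOf P) := by
      rw [Subgroup.index, Nat.card_eq_fintype_card]
    rwa [h1] at hodd
  -- the value at a coset
  have hwd : ∀ (y : Y) (u v : P), QuotientGroup.leftRel (N.subgroupOf P) u v →
      φ ((u : Γ)⁻¹ • y) = φ ((v : Γ)⁻¹ • y) := by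
    intro y u v huv
    rw [QuotientGroup.leftRel_apply, Subgroup.mem_subgroupOf] at huv
    have h1 := hφ _ huv ((v : Γ)⁻¹ • y)
    rw [← h1, smul_smul]
    congr 2
    push_cast
    group
  obtain ⟨F, hF⟩ : ∃ F : P ⧸ N.subgroupOf P → Y → ZMod 2,
      ∀ (u : P) (y : Y), F (QuotientGroup.mk u) y = φ ((u : Γ)⁻¹ • y) :=
    ⟨fun q y => Quotient.lift (fun u : P => φ ((u : Γ)⁻¹ • y)) (hwd y) q, fun _ _ => rfl⟩
  have hFq : ∀ q : P ⧸ N.subgroupOf P, F q = fun y => φ (((Quotient.out q : P) : Γ)⁻¹ • y) := by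
    intro q
    funext y
    rw [← hF]
    congr 1
    exact (QuotientGroup.out_eq' q).symm
  have htr : Inv P (fun y => ∑ q, F q y) := by
    intro g hg y
    change ∑ q, F q (g • y) = ∑ q, F q y
    refine Fintype.sum_equiv (MulAction.toPerm ((⟨g, hg⟩ : P)⁻¹)) _ _ fun q => ?_
    induction q using QuotientGroup.induction_on with
    | H u =>
      have h1 : (MulAction.toPerm ((⟨g, hg⟩ : P)⁻¹)) (QuotientGroup.mk u : P ⧸ N.subgroupOf P) =
          QuotientGroup.mk ((⟨g, hg⟩ : P)⁻¹ * u) := rfl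
      rw [h1, hF, hF, smul_smul]
      congr 2
      push_cast
      group
  have hdt : ∀ y, S.deg y = p + 1 → S.d (fun y => ∑ q, F q y) y = 0 := by
    intro y hy
    rw [d1_d_sum]
    refine Finset.sum_eq_zero fun q _ => ?_
    rw [hFq]
    rw [← Sys.d_smul]
    exact hc _ (by rw [S.deg_smul]; exact hy)
  obtain ⟨ψ, hψ, hψ'⟩ := HU _ htr hdt
  obtain ⟨χ, hχ, hχ'⟩ := d1_triv_sum S N p Finset.univ
    (fun (q : P ⧸ N.subgroupOf P) y => φ (((Quotient.out q : P) : Γ)⁻¹ • y) + φ y)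
    (fun q _ => htriv _ φ hφ hc)
  refine ⟨fun y => ψ y + χ y, fun g hg y => ?_, fun y hy => ?_⟩
  · change ψ (g • y) + χ (g • y) = ψ y + χ y
    rw [hψ g (hNP hg), hχ g hg]
  · change φ y = S.d (fun y' => ψ y' + χ y') y
    rw [Sys.d_add, ← hψ' y hy, ← hχ' y hy]
    change φ y = ∑ q, F q y + ∑ q : P ⧸ N.subgroupOf P,
      (φ (((Quotient.out q : P) : Γ)⁻¹ • y) + φ y)
    rw [Finset.sum_add_distrib, Finset.sum_const, Finset.card_univ]
    have h1 : ∑ q, F q y = ∑ q : P ⧸ N.subgroupOf P, φ (((Quotient.out q : P) : Γ)⁻¹ • y) :=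
      Finset.sum_congr rfl fun q _ => by rw [hFq]
    rw [h1, ← add_assoc, CharTwo.add_self_eq_zero, zero_add]
    obtain ⟨r, hr⟩ := hcard
    rw [hr, nsmul_eq_mul]
    push_cast
    have h2 : (2 : ZMod 2) = 0 := rfl
    rw [h2, zero_mul, zero_add, one_mul]

/-- Transfer.  `φ` an `Ncg`-invariant cocycle (degree `i + 1`).  Let `T` be a finite set of
representatives of the cosets of `Ncg k n m` in `Umat k n` (`|T|` odd, `hodd`), `tr y = ∑_{u ∈ T} φ (u⁻¹ • y)`;
it does not depend on the representatives (`φ (u⁻¹ • y)` depends only on the coset of `u`, because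
`φ` is invariant and `Ncg` is normal), so it is `Umat`-invariant, and a cocycle; so `tr = d ψ`, `ψ`
`Umat`-invariant, in particular `Ncg`-invariant (`Ncg_le_Umat`).  `tr y = φ y + ∑_{u ∈ T} (φ (u⁻¹ • y) + φ y)`
as `|T|` is odd, and each summand is trivial (`htriv`). -/
theorem transfer {i n m : ℕ} (hm : 1 ≤ m)
    (hodd : Odd ((Ncg k n m).subgroupOf (Umat k n)).index)
    (HU : (tup (SLk k n) (SLk k n)).Ex (Umat k n) (i + 1))
    (htriv : ∀ (g : SLk k n) (φ : List (SLk k n) → ZMod 2), Inv (Ncg k n m) φ →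
      (∀ y : List (SLk k n), y.length = i + 2 → (tup (SLk k n) (SLk k n)).d φ y = 0) →
      (tup (SLk k n) (SLk k n)).Triv (Ncg k n m) (i + 1) (fun y => φ (g⁻¹ • y) + φ y)) :
    (tup (SLk k n) (SLk k n)).Ex (Ncg k n m) (i + 1) := by
  exact d1_transfer (tup (SLk k n) (SLk k n)) (Ncg k n m) (Umat k n) (Ncg_le_Umat k n hm) hodd
    (i + 1) HU (fun g φ hφ hc => htriv g φ hφ hc)

/-- strong induction on `i` with `triv_N` and `transfer` -/
theorem AAx_all [Finite k] (hk : Odd (Nat.card k)) (n₁ : ℕ)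
    (hodd : ∀ n m, n ≤ n₁ → 1 ≤ n → 1 ≤ m → Odd ((Ncg k n m).subgroupOf (Umat k n)).index)
    (HU : ∀ n i, n ≤ n₁ → 1 ≤ i → 2 * i + 3 ≤ n →
      (tup (SLk k n) (SLk k n)).Ex (Umat k n) (i + 1)) :
    ∀ i, 1 ≤ i → AAx k n₁ i := by
  intro i
  induction i using Nat.strong_induction_on with
  | _ i ih =>
    intro hi n m hn1 hn hm
    exact transfer hm (hodd n m hn1 (by omega) hm) (HU n i hn1 hi hn) fun g φ hφ hc =>
      triv_N hk hi hn1 hn hm (fun j hj hji => ih j hji hj) g φ hφ hc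

end

end Vale.P067
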