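import Mathlib
import Vale.Agent.Lib.P067.D1.HU
import Vale.Agent.Lib.P067.D1.IndB

/-!
# P067, part D1: the cohomology of the congruence subgroups of `U`
-/

namespace Vale.P067

open scoped Classical
open Polynomial

section

variable {k : Type} [Field k] {n : ℕ}

/-- the cohomology of `Nc`, by `AAx_all` and `ex_transport` with `P = Nc k n m`, `Q = Ncg k n m`
(`n₁ = n`, `index_odd` from D2/Out, `HU_mat`; for `j = 0` it is `ex_zero_one`). -/
theorem HNc [Finite k] (hk : Odd (Nat.card k)) (hV : ∀ n' j, j + 3 ≤ n' → n' ≤ n → Van (Hs k n') j)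
    {m j : ℕ} (hm : 1 ≤ m) (hj : 2 * j + 3 ≤ n) : (tup (U k n) (U k n)).Ex (Nc k n m) (j + 1) := by
  have hn : 0 < n := by omega
  rw [ex_transport hn (Nc k n m) (Ncg k n m) (Ncg_le_Umat k n hm) (kap_Nc hm hn) j]
  rcases Nat.eq_zero_or_pos j with hj0 | hj0
  · subst hj0
    exact ex_zero_one _ le_rfl
  · exact AAx_all hk n (fun n' m' _ _ hm' => index_odd k n' hk hm')
      (fun n' i hn' hi h2 => HU_mat hk (fun j' h3 => hV n' j' h3 hn') hi (by omega))
      j hj0 n m le_rfl hj hm

end

end Vale.P067
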