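import Mathlib
import Vale.Agent.Lib.P067.D1.HNc

/-!
# P067, part D1: invariants of the congruence subgroups in the coset complex
-/

namespace Vale.P067

open scoped Classical
open Polynomial

section

variable {k : Type} [Field k] {n : ℕ}

/-- the stabilizer of a nonempty list of elements of the group is trivial -/
theorem d1_stab_list {Γ : Type*} [Group Γ] (y : List Γ) (hy : 1 ≤ y.length) :
    MulAction.stabilizer Γ y = ⊥ := by
  rw [eq_bot_iff]
  intro g hg
  rw [MulAction.mem_stabilizer_iff] at hg
  rw [Subgroup.mem_bot]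
  cases y with
  | nil => simp at hy
  | cons x l =>
    rw [list_smul_cons] at hg
    have h1 : g • x = x := (List.cons.inj hg).1
    rw [smul_eq_mul] at h1
    exact mul_eq_right.1 h1

/-- invariants of `Nc` in the building complex: `zig_ex` with `SY = tup U U`, `SZ = cosSys (Hs k n)`,
`P = Nc k n m`, `i = j`.  `hY p q`: `q = 0`: the stabilizer of `pt` is `⊤`, `HNc`; `q ≥ 1`: `cell_good`.
`hZ p q`, `p ≥ 1`: the stabilizer of a nonempty list is trivial: `cos_ex_zero` for `q = 0`, `cos_ex_bot` for `q ≥ 1`. -/
theorem cos_Nc [Finite k] (hk : Odd (Nat.card k)) (hV : ∀ n' j, j + 3 ≤ n' → n' ≤ n → Van (Hs k n') j)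
    {m j : ℕ} (hm : 1 ≤ m) (hj : 2 * j + 3 ≤ n) : (cosSys (Hs k n)).Ex (Nc k n m) (j + 1) := by
  have hn : 0 < n := by omega
  have : Nonempty (Fin n) := ⟨⟨0, hn⟩⟩
  refine zig_ex (tup (U k n) (U k n)) (cosSys (Hs k n)) (Nc k n m) j ⟨[1], rfl⟩ ?_ ?_
  · intro p q hpq hp z hz
    rcases Nat.eq_zero_or_pos q with hq | hq
    · subst hq
      have hp' : p = j + 1 := by omega
      subst hp'
      have h1 : MulAction.stabilizer (U k n) z = ⊤ := by
        rw [eq_top_iff]
        intro g _
        rw [MulAction.mem_stabilizer_iff, (cosSys (Hs k n)).eq_pt z hz]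
        exact d1_smul_pt _ g
      rw [h1, inf_top_eq]
      exact HNc hk hV hm hj
    · exact good_ex _ (Good.of_le inf_le_right (cell_good hk hn z (by rw [hz]; exact hq))) p
  · intro p q hpq hp y hy
    have h1 : MulAction.stabilizer (U k n) y = ⊥ := d1_stab_list y (by
      have h2 : y.length = p := hy
      omega)
    rw [h1, inf_bot_eq]
    cases q with
    | zero => exact cos_ex_zero _ _
    | succ q => exact cos_ex_bot _ q (hV n q (by omega) le_rfl)

end

end Vale.P067
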