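import Mathlib
import Vale.Agent.Lib.P067.UMk
import Vale.Agent.Lib.P067.DDefs

/-!
# P067, part D1.8: the isomorphism between `Umat k n` and `U k n`

`E k` has the basis `e_{b+1+n q}`, `b : Fin n`, `q : ℤ`, `e_{b+1+n q} = t^q e_{b+1}`.
A matrix `A` over `k[X]` acts by `T A` (commutes with the shift, `e_{b+1} ↦ ` column `b`).
-/

namespace Vale.P067.D1

open scoped Classical
open Polynomial

variable {k : Type*} [Field k] {n : ℕ}

theorem iso_sh_sh (a b : ℤ) (v : E k) : sh k a (sh k b v) = sh k (a + b) v := by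
  ext c
  rw [sh_apply, sh_apply, sh_apply]
  congr 1
  ring

theorem iso_sh_zero (v : E k) : sh k 0 v = v := by
  ext c
  rw [sh_apply, sub_zero]

theorem iso_sh_ee (l b : ℤ) : sh k l (ee k b) = ee k (b + l) := by
  ext c
  rw [sh_apply]
  simp only [ee, Finsupp.single_apply]
  by_cases h : b = c - l
  · rw [if_pos h, if_pos (by omega)]
  · rw [if_neg h, if_neg (by omega)]

/-- commuting with the shift by `n` implies commuting with the shift by `n q` -/
theorem iso_comm {f : E k →ₗ[k] E k} (hf : ∀ v, f (sh k n v) = sh k n (f v)) (q : ℤ) (v : E k) :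
    f (sh k (n * q) v) = sh k (n * q) (f v) := by
  have hnat : ∀ (c : ℕ) (w : E k), f (sh k (n * c) w) = sh k (n * c) (f w) := by
    intro c
    induction c with
    | zero =>
      intro w
      rw [Nat.cast_zero, mul_zero, iso_sh_zero, iso_sh_zero]
    | succ c ih =>
      intro w
      have h : (n : ℤ) * ((c + 1 : ℕ) : ℤ) = n + n * c := by push_cast; ring
      rw [h, ← iso_sh_sh, hf, ih, iso_sh_sh]
  rcases le_total 0 q with h | h
  · obtain ⟨c, rfl⟩ := Int.eq_ofNat_of_zero_le h
    exact hnat c v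
  · obtain ⟨c, hc⟩ := Int.eq_ofNat_of_zero_le (neg_nonneg.2 h)
    have hq : q = -(c : ℤ) := by
      have : -q = (c : ℤ) := hc
      omega
    subst hq
    apply (sh k ((n : ℤ) * c)).injective
    rw [← hnat, iso_sh_sh, iso_sh_sh]
    have h0 : (n : ℤ) * c + n * -(c : ℤ) = 0 := by ring
    rw [h0, iso_sh_zero, iso_sh_zero]

theorem iso_repr (hn : 0 < n) (c : ℤ) : ∃ (b : Fin n) (q : ℤ), c = (b : ℤ) + 1 + n * q := by
  have hn' : (0 : ℤ) < n := by exact_mod_cast hn
  have h1 := Int.emod_nonneg (c - 1) hn'.ne'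
  have h2 := Int.emod_lt_of_pos (c - 1) hn'
  have h3 := Int.emod_add_mul_ediv (c - 1) n
  refine ⟨⟨((c - 1) % n).toNat, by omega⟩, (c - 1) / n, ?_⟩
  have h4 : ((((c - 1) % n).toNat : ℕ) : ℤ) = (c - 1) % n := Int.toNat_of_nonneg h1
  simp only [h4]
  linarith

theorem iso_repr_pos (hn : 0 < n) (c : ℤ) (hc : 0 < c) :
    ∃ (b : Fin n) (l : ℕ), c = (b : ℤ) + 1 + n * l := by
  obtain ⟨b, q, hq⟩ := iso_repr hn c
  have hn' : (0 : ℤ) < n := by exact_mod_cast hn
  have hb : ((b : ℕ) : ℤ) < n := by exact_mod_cast b.2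
  have hq0 : 0 ≤ q := by
    by_contra hcon
    have h1 : q ≤ -1 := by omega
    have h2 : (n : ℤ) * q ≤ n * (-1) := mul_le_mul_of_nonneg_left h1 hn'.le
    linarith
  obtain ⟨l, rfl⟩ := Int.eq_ofNat_of_zero_le hq0
  exact ⟨b, l, hq⟩

theorem iso_ext (hn : 0 < n) {f g : E k →ₗ[k] E k} (hf : ∀ v, f (sh k n v) = sh k n (f v))
    (hg : ∀ v, g (sh k n v) = sh k n (g v))
    (h : ∀ b : Fin n, f (ee k ((b : ℤ) + 1)) = g (ee k ((b : ℤ) + 1))) : f = g := by
  refine Finsupp.lhom_ext' fun c => LinearMap.ext_ring ?_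
  change f (ee k c) = g (ee k c)
  obtain ⟨b, q, rfl⟩ := iso_repr hn c
  rw [← iso_sh_ee, iso_comm hf, iso_comm hg, h b]

/-- `p ↦ ∑_l (coeff p l) e_{b+1+n l}` -/
noncomputable def lmap (k : Type*) [Field k] (n : ℕ) (b : Fin n) : k[X] →ₗ[k] E k :=
  Polynomial.lsum fun l => Finsupp.lsingle ((b : ℤ) + 1 + n * l)

theorem lmap_monomial (b : Fin n) (l : ℕ) (a : k) :
    lmap k n b (monomial l a) = Finsupp.single ((b : ℤ) + 1 + n * l) a := by
  rw [lmap, Polynomial.lsum_apply, Polynomial.sum_monomial_index]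
  · rfl
  · simp

/-- the embedding of `k[X]^n` in `E k` -/
noncomputable def phi (k : Type*) [Field k] (n : ℕ) : (Fin n → k[X]) →ₗ[k] E k :=
  ∑ b : Fin n, (lmap k n b).comp (LinearMap.proj b)

theorem phi_eq (v : Fin n → k[X]) : phi k n v = ∑ b, lmap k n b (v b) := by
  simp [phi, LinearMap.sum_apply]

theorem phi_single (b : Fin n) (p : k[X]) : phi k n (Pi.single b p) = lmap k n b p := by
  rw [phi_eq, Finset.sum_eq_single b]
  · rw [Pi.single_eq_same]
  · intro c _ hc
    rw [Pi.single_eq_of_ne hc, map_zero]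
  · intro h
    exact absurd (Finset.mem_univ b) h

theorem lmap_apply (b b' : Fin n) (l : ℕ) (p : k[X]) :
    lmap k n b' p ((b : ℤ) + 1 + n * l) = if b' = b then p.coeff l else 0 := by
  have hb : ((b : ℕ) : ℤ) < n := by exact_mod_cast b.2
  have hb' : ((b' : ℕ) : ℤ) < n := by exact_mod_cast b'.2
  induction p using Polynomial.induction_on' with
  | add p q hp hq =>
    rw [(lmap k n b').map_add, Finsupp.add_apply, hp, hq, coeff_add]
    split_ifs <;> simp
  | monomial l' a =>
    rw [lmap_monomial, Finsupp.single_apply, coeff_monomial]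
    by_cases h1 : b' = b
    · subst h1
      rw [if_pos rfl]
      by_cases h2 : l' = l
      · rw [if_pos (by rw [h2]), if_pos h2]
      · rw [if_neg, if_neg h2]
        intro h3
        have hn : (n : ℤ) ≠ 0 := by omega
        have h4 : (n : ℤ) * l' = n * l := by linarith
        exact h2 (by exact_mod_cast mul_left_cancel₀ hn h4)
    · rw [if_neg h1, if_neg]
      intro h3
      apply h1
      have h4 : (b' : ℤ) % n = (b : ℤ) % n := by
        have h5 : (b' : ℤ) = b + n * ((l : ℤ) - l') := by linarith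
        rw [h5, Int.add_mul_emod_self_left]
      rw [Int.emod_eq_of_lt (by positivity) hb', Int.emod_eq_of_lt (by positivity) hb] at h4
      exact Fin.ext (by exact_mod_cast h4)

theorem lmap_nonpos (b : Fin n) (p : k[X]) {c : ℤ} (hc : c ≤ 0) : lmap k n b p c = 0 := by
  induction p using Polynomial.induction_on' with
  | add p q hp hq => rw [map_add, Finsupp.add_apply, hp, hq, add_zero]
  | monomial l a =>
    rw [lmap_monomial, Finsupp.single_apply, if_neg]
    intro h
    have h1 : (0 : ℤ) ≤ n * l := by positivity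
    have h2 : (0 : ℤ) ≤ (b : ℤ) := by positivity
    omega

theorem phi_apply (v : Fin n → k[X]) (b : Fin n) (l : ℕ) :
    phi k n v ((b : ℤ) + 1 + n * l) = (v b).coeff l := by
  rw [phi_eq, Finsupp.finsetSum_apply, Finset.sum_eq_single b]
  · rw [lmap_apply, if_pos rfl]
  · intro c _ hc
    rw [lmap_apply, if_neg hc]
  · intro h
    exact absurd (Finset.mem_univ b) h

theorem phi_nonpos (v : Fin n → k[X]) {c : ℤ} (hc : c ≤ 0) : phi k n v c = 0 := by
  rw [phi_eq, Finsupp.finsetSum_apply]
  exact Finset.sum_eq_zero fun b _ => lmap_nonpos b _ hc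

theorem phi_injective {v w : Fin n → k[X]} (h : phi k n v = phi k n w) : v = w := by
  funext b
  ext l
  rw [← phi_apply, ← phi_apply, h]

theorem phi_X (hn : 0 < n) (l : ℕ) (v : Fin n → k[X]) :
    phi k n (fun i => X ^ l * v i) = sh k (n * l) (phi k n v) := by
  have hn' : (0 : ℤ) < n := by exact_mod_cast hn
  ext c
  rw [sh_apply]
  rcases le_or_gt c 0 with hc | hc
  · rw [phi_nonpos _ hc, phi_nonpos]
    have : (0 : ℤ) ≤ n * l := by positivity
    omega
  · obtain ⟨b, l', rfl⟩ := iso_repr_pos hn c hc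
    rw [phi_apply, Polynomial.coeff_X_pow_mul']
    split_ifs with h
    · have h1 : (b : ℤ) + 1 + n * l' - n * l = b + 1 + n * ((l' - l : ℕ) : ℤ) := by
        rw [Nat.cast_sub h]
        ring
      rw [h1, phi_apply]
    · rw [phi_nonpos]
      have h2 : (l' : ℤ) + 1 ≤ l := by
        have : l' < l := not_le.1 h
        exact_mod_cast this
      have h3 : (n : ℤ) * (l' + 1) ≤ n * l := mul_le_mul_of_nonneg_left h2 hn'.le
      have hb : ((b : ℕ) : ℤ) < n := by exact_mod_cast b.2
      linarith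

theorem phi_single_one (b : Fin n) : phi k n (Pi.single b 1) = ee k ((b : ℤ) + 1) := by
  rw [phi_single, ← Polynomial.monomial_zero_one, lmap_monomial]
  simp

/-- the image of `phi` is `M 0` -/
theorem phi_surj (hn : 0 < n) (v : E k) (hv : v ∈ M k 0) : ∃ w, phi k n w = v := by
  have h : v ∈ LinearMap.range (phi k n) := by
    have h1 : v = ∑ c ∈ v.support, v c • ee k c := by
      conv_lhs => rw [← Finsupp.sum_single v]
      rw [Finsupp.sum]
      refine Finset.sum_congr rfl fun c _ => ?_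
      simp [ee]
    rw [h1]
    refine Submodule.sum_mem _ fun c hc => Submodule.smul_mem _ _ ?_
    have hc0 : 0 < c := by
      by_contra hcon
      exact (Finsupp.mem_support_iff.mp hc) (hv c (not_lt.mp hcon))
    obtain ⟨b, l, rfl⟩ := iso_repr_pos hn c hc0
    refine ⟨Pi.single b (monomial l 1), ?_⟩
    rw [phi_single, lmap_monomial]
  exact h

/-- the action of a matrix -/
noncomputable def T (A : Matrix (Fin n) (Fin n) k[X]) : E k →ₗ[k] E k :=
  UMkAux.gg 0 n fun l => if h : 0 < l ∧ l ≤ n then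
    phi k n (fun i => A i ⟨(l - 1).toNat, by omega⟩) else 0

theorem T_comm (hn : 0 < n) (A : Matrix (Fin n) (Fin n) k[X]) (v : E k) :
    T A (sh k n v) = sh k n (T A v) := UMkAux.gg_comm hn v

theorem T_ee (A : Matrix (Fin n) (Fin n) k[X]) (b : Fin n) :
    T A (ee k ((b : ℤ) + 1)) = phi k n (fun i => A i b) := by
  have hb : ((b : ℕ) : ℤ) < n := by exact_mod_cast b.2
  have hb0 : (0 : ℤ) ≤ (b : ℤ) := by positivity
  rw [T, UMkAux.gg_ee, UMkAux.g0_base _ (by omega) (by omega), dif_pos ⟨by omega, by omega⟩]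
  congr 1
  funext i
  congr 1
  apply Fin.ext
  change ((b : ℤ) + 1 - 1).toNat = b
  rw [add_sub_cancel_right]
  exact Int.toNat_natCast _

theorem T_phi (hn : 0 < n) (A : Matrix (Fin n) (Fin n) k[X]) (v : Fin n → k[X]) :
    T A (phi k n v) = phi k n (A.mulVec v) := by
  have h1 : ∀ (b : Fin n) (p : k[X]), T A (phi k n (Pi.single b p)) =
      phi k n (A.mulVec (Pi.single b p)) := by
    intro b p
    induction p using Polynomial.induction_on' with
    | add p q hp hq => rw [Pi.single_add, map_add, map_add, hp, hq, Matrix.mulVec_add, map_add]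
    | monomial l a =>
      have h2 : A.mulVec (Pi.single b (monomial l a)) =
          a • (fun i => X ^ l * A i b : Fin n → k[X]) := by
        funext i
        rw [Matrix.mulVec, dotProduct, Finset.sum_eq_single b]
        · rw [Pi.single_eq_same, Pi.smul_apply, ← Polynomial.C_mul_X_pow_eq_monomial,
            Polynomial.smul_eq_C_mul]
          ring
        · intro c _ hc
          rw [Pi.single_eq_of_ne hc, mul_zero]
        · intro h
          exact absurd (Finset.mem_univ b) h
      have h3 : (Finsupp.single ((b : ℤ) + 1 + n * l) a : E k) =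
          a • sh k (n * l) (ee k ((b : ℤ) + 1)) := by
        rw [iso_sh_ee]
        simp [ee]
      rw [h2, map_smul, phi_X hn, phi_single, lmap_monomial, h3, map_smul,
        iso_comm (T_comm hn A), T_ee]
  have h4 : v = ∑ b, Pi.single b (v b) := (Finset.univ_sum_single v).symm
  have h5 : A.mulVec v = ∑ b, A.mulVec (Pi.single b (v b)) := by
    conv_lhs => rw [h4]
    rw [← Matrix.mulVecLin_apply, map_sum]
    rfl
  conv_lhs => rw [h4]
  rw [h5, map_sum, map_sum, map_sum]
  exact Finset.sum_congr rfl fun b _ => h1 b _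

theorem T_one (hn : 0 < n) : T (1 : Matrix (Fin n) (Fin n) k[X]) = LinearMap.id := by
  refine iso_ext hn (T_comm hn _) (fun v => rfl) fun b => ?_
  rw [T_ee, LinearMap.id_apply, ← phi_single_one]
  congr 1
  funext i
  rw [Matrix.one_apply, Pi.single_apply]

theorem T_mul (hn : 0 < n) (A B : Matrix (Fin n) (Fin n) k[X]) : T (A * B) = T A ∘ₗ T B := by
  refine iso_ext hn (T_comm hn _) (fun v => ?_) fun b => ?_
  · rw [LinearMap.comp_apply, LinearMap.comp_apply, T_comm hn, T_comm hn]
  · rw [T_ee, LinearMap.comp_apply, T_ee, T_phi hn]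
    congr 1

theorem T_injective {A B : Matrix (Fin n) (Fin n) k[X]} (h : T A = T B) : A = B := by
  ext1 i j
  have h1 : phi k n (fun i => A i j) = phi k n (fun i => B i j) := by
    rw [← T_ee, ← T_ee, h]
  exact congrFun (phi_injective h1) i

/-- `T A e_c - e_c ∈ M c` for all `c` iff `A(0)` is lower unitriangular -/
theorem T_lowU (hn : 0 < n) {A : Matrix (Fin n) (Fin n) k[X]}
    (hA : ∀ i j, i ≤ j → X ∣ A i j - (1 : Matrix (Fin n) (Fin n) k[X]) i j) (c : ℤ) :
    T A (ee k c) - ee k c ∈ M k c := by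
  obtain ⟨b, q, rfl⟩ := iso_repr hn c
  have hn' : (0 : ℤ) < n := by exact_mod_cast hn
  rw [← iso_sh_ee, iso_comm (T_comm hn A), T_ee, ← phi_single_one, ← map_sub, ← map_sub]
  intro d hd
  rw [sh_apply]
  set d' : ℤ := d - n * q with hd'
  have h1 : d' ≤ b + 1 := by omega
  rcases le_or_gt d' 0 with h2 | h2
  · exact phi_nonpos _ h2
  · obtain ⟨i, l, hl⟩ := iso_repr_pos hn d' h2
    have hb : ((b : ℕ) : ℤ) < n := by exact_mod_cast b.2
    have hi0 : (0 : ℤ) ≤ (i : ℤ) := by positivity
    have hl0 : l = 0 := by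
      by_contra hne
      have h3 : (1 : ℤ) ≤ l := by exact_mod_cast Nat.one_le_iff_ne_zero.2 hne
      have h4 : (n : ℤ) * 1 ≤ n * l := mul_le_mul_of_nonneg_left h3 hn'.le
      omega
    have hib : i ≤ b := by
      rw [Fin.le_def]
      rw [hl0, Nat.cast_zero, mul_zero] at hl
      omega
    rw [hl, phi_apply, hl0, Pi.sub_apply, Pi.single_apply]
    have h5 := hA i b hib
    rw [Polynomial.X_dvd_iff, Matrix.one_apply] at h5
    exact h5

theorem T_lowU_conv {A : Matrix (Fin n) (Fin n) k[X]}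
    (hA : ∀ c : ℤ, T A (ee k c) - ee k c ∈ M k c) :
    ∀ i j, i ≤ j → X ∣ A i j - (1 : Matrix (Fin n) (Fin n) k[X]) i j := by
  intro i j hij
  have h1 := hA ((j : ℤ) + 1)
  rw [T_ee, ← phi_single_one, ← map_sub] at h1
  have hij' : ((i : ℕ) : ℤ) ≤ ((j : ℕ) : ℤ) := by exact_mod_cast hij
  have h2 := h1 ((i : ℤ) + 1 + n * (0 : ℕ)) (by simpa using hij')
  rw [phi_apply, Pi.sub_apply, Pi.single_apply] at h2
  rw [Polynomial.X_dvd_iff, Matrix.one_apply]
  exact h2

/-- congruence modulo `X^m` -/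
theorem T_cong (hn : 0 < n) {A : Matrix (Fin n) (Fin n) k[X]} (m : ℕ) :
    (∀ i j, X ^ m ∣ A i j - (1 : Matrix (Fin n) (Fin n) k[X]) i j) ↔
      ∀ v ∈ M k 0, T A v - v ∈ M k (m * n) := by
  have hn' : (0 : ℤ) < n := by exact_mod_cast hn
  constructor
  · intro h v hv
    obtain ⟨w, rfl⟩ := phi_surj hn v hv
    rw [T_phi hn, ← map_sub]
    intro c hc
    rcases le_or_gt c 0 with h2 | h2
    · exact phi_nonpos _ h2
    · obtain ⟨i, l, rfl⟩ := iso_repr_pos hn c h2
      rw [phi_apply]
      have hi0 : (0 : ℤ) ≤ (i : ℤ) := by positivity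
      have hlm : l < m := by
        by_contra hcon
        have h3 : (m : ℤ) ≤ l := by exact_mod_cast not_lt.1 hcon
        have h4 : (n : ℤ) * m ≤ n * l := mul_le_mul_of_nonneg_left h3 hn'.le
        have h5 : (m : ℤ) * n = n * m := mul_comm _ _
        omega
      have h6 : X ^ m ∣ (A.mulVec w - w) i := by
        have h7 : (A.mulVec w - w) i = ∑ j, (A i j - (1 : Matrix (Fin n) (Fin n) k[X]) i j) *
            w j := by
          simp only [sub_mul, Finset.sum_sub_distrib]
          have h8 : ∑ j, (1 : Matrix (Fin n) (Fin n) k[X]) i j * w j = w i := by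
            have := congrFun (Matrix.one_mulVec w) i
            rw [Matrix.mulVec, dotProduct] at this
            exact this
          rw [h8]
          rfl
        rw [h7]
        exact Finset.dvd_sum fun j _ => Dvd.dvd.mul_right (h i j) _
      exact Polynomial.X_pow_dvd_iff.1 h6 l hlm
  · intro h i j
    have h1 := h (ee k ((j : ℤ) + 1)) (ee_mem_M k (by positivity))
    rw [T_ee, ← phi_single_one, ← map_sub] at h1
    rw [Polynomial.X_pow_dvd_iff]
    intro l hl
    have h2 := h1 ((i : ℤ) + 1 + n * l) (by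
      have h3 : (l : ℤ) + 1 ≤ m := by exact_mod_cast hl
      have h4 : (n : ℤ) * (l + 1) ≤ n * m := mul_le_mul_of_nonneg_left h3 hn'.le
      have hi : ((i : ℕ) : ℤ) < n := by exact_mod_cast i.2
      have h5 : (m : ℤ) * n = n * m := mul_comm _ _
      rw [h5]
      linarith)
    rw [phi_apply, Pi.sub_apply, Pi.single_apply] at h2
    rw [Matrix.one_apply]
    exact h2

/-- the automorphism of `E k` given by an element of `SL_n(k[X])` -/
noncomputable def TE (hn : 0 < n) (g : SLk k n) : E k ≃ₗ[k] E k :=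
  LinearEquiv.ofLinearMap (T (g : Matrix (Fin n) (Fin n) k[X]))
    (T ((g⁻¹ : SLk k n) : Matrix (Fin n) (Fin n) k[X]))
    (by
      rw [← T_mul hn, ← Matrix.SpecialLinearGroup.coe_mul, mul_inv_cancel,
        Matrix.SpecialLinearGroup.coe_one, T_one hn])
    (by
      rw [← T_mul hn, ← Matrix.SpecialLinearGroup.coe_mul, inv_mul_cancel,
        Matrix.SpecialLinearGroup.coe_one, T_one hn])

theorem TE_apply (hn : 0 < n) (g : SLk k n) (v : E k) :
    TE hn g v = T (g : Matrix (Fin n) (Fin n) k[X]) v := rfl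

theorem TE_mem (hn : 0 < n) (g : SLk k n) (hg : g ∈ Umat k n) : TE hn g ∈ U k n :=
  mem_U_of (fun v => T_comm hn _ v) (fun a => T_lowU hn hg.1 a)

/-- the homomorphism `Umat → U` -/
noncomputable def toU (hn : 0 < n) : Umat k n →* U k n :=
  MonoidHom.mk' (fun g => ⟨TE hn (g : SLk k n), TE_mem hn _ g.2⟩) (by
    intro a b
    apply Subtype.ext
    refine LinearEquiv.ext fun v => ?_
    change T ((a : SLk k n) * (b : SLk k n) : SLk k n).1 v =
      T (a : SLk k n).1 (T (b : SLk k n).1 v)
    have h := T_mul hn (a : SLk k n).1 (b : SLk k n).1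
    exact congrArg (fun f => f v) h)

theorem toU_apply (hn : 0 < n) (g : Umat k n) (v : E k) :
    ((toU hn g : U k n) : E k ≃ₗ[k] E k) v =
      T (((g : SLk k n)) : Matrix (Fin n) (Fin n) k[X]) v := rfl

theorem toU_injective (hn : 0 < n) : Function.Injective (toU (k := k) hn) := by
  intro a b h
  apply Subtype.ext
  apply Matrix.SpecialLinearGroup.ext
  have h1 : T (((a : SLk k n)) : Matrix (Fin n) (Fin n) k[X]) =
      T (((b : SLk k n)) : Matrix (Fin n) (Fin n) k[X]) := by
    refine LinearMap.ext fun v => ?_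
    rw [← toU_apply hn, ← toU_apply hn, h]
  have h2 := T_injective h1
  intro i j
  rw [h2]

theorem exists_T (hn : 0 < n) {u : E k ≃ₗ[k] E k} (hu : u ∈ U k n) :
    ∃ A : Matrix (Fin n) (Fin n) k[X], T A = (u : E k →ₗ[k] E k) ∧
      ∀ i j, i ≤ j → X ∣ A i j - (1 : Matrix (Fin n) (Fin n) k[X]) i j := by
  have h1 : ∀ b : Fin n, ∃ w, phi k n w = u (ee k ((b : ℤ) + 1)) := fun b =>
    phi_surj hn _ (U_sub_mem hu 0 (ee_mem_M k (by positivity)))
  choose w hw using h1
  have h2 : T (Matrix.of fun i j => w j i) = (u : E k →ₗ[k] E k) := by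
    refine iso_ext hn (T_comm hn _) hu.1 fun b => ?_
    rw [T_ee]
    exact hw b
  refine ⟨Matrix.of fun i j => w j i, h2, T_lowU_conv fun c => ?_⟩
  rw [h2]
  exact hu.2.1 c

/-- determinant one -/
theorem det_one_of {A B : Matrix (Fin n) (Fin n) k[X]} (hAB : A * B = 1)
    (hA : ∀ i j, i ≤ j → X ∣ A i j - (1 : Matrix (Fin n) (Fin n) k[X]) i j) : A.det = 1 := by
  have h1 : IsUnit A.det := by
    have h2 := congrArg Matrix.det hAB
    rw [Matrix.det_mul, Matrix.det_one] at h2
    exact IsUnit.of_mul_eq_one _ h2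
  obtain ⟨c, -, hc⟩ := Polynomial.isUnit_iff.1 h1
  have h3 : (A.map (Polynomial.constantCoeff : k[X] →+* k)).det = 1 := by
    rw [Matrix.det_of_isLowerTriangular]
    · refine Finset.prod_eq_one fun i _ => ?_
      have h4 := hA i i le_rfl
      rw [Polynomial.X_dvd_iff, Matrix.one_apply_eq, coeff_sub, coeff_one_zero, sub_eq_zero] at h4
      exact h4
    · intro i j hij
      have hij' : i < j := hij
      have h4 := hA i j hij'.le
      rw [Polynomial.X_dvd_iff, Matrix.one_apply_ne hij'.ne, sub_zero] at h4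
      exact h4
  have h5 : (A.map (Polynomial.constantCoeff : k[X] →+* k)).det =
      Polynomial.constantCoeff A.det := by
    rw [RingHom.map_det]
    rfl
  rw [h5, ← hc] at h3
  have h6 : c = 1 := by simpa using h3
  rw [← hc, h6, C_1]

theorem toU_surjective (hn : 0 < n) : Function.Surjective (toU (k := k) hn) := by
  rintro ⟨u, hu⟩
  obtain ⟨A, hA1, hA2⟩ := exists_T hn hu
  obtain ⟨B, hB1, hB2⟩ := exists_T hn ((U k n).inv_mem hu)
  have hAB : A * B = 1 := by
    apply T_injective
    rw [T_mul hn, hA1, hB1, T_one hn]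
    refine LinearMap.ext fun v => ?_
    exact u.apply_symm_apply v
  have hBA : B * A = 1 := by
    apply T_injective
    rw [T_mul hn, hA1, hB1, T_one hn]
    refine LinearMap.ext fun v => ?_
    exact u.symm_apply_apply v
  let g : SLk k n := ⟨A, det_one_of hAB hA2⟩
  let h : SLk k n := ⟨B, det_one_of hBA hB2⟩
  have hgh : g⁻¹ = h := by
    rw [inv_eq_iff_mul_eq_one]
    apply Subtype.ext
    exact hAB
  refine ⟨⟨g, hA2, ?_⟩, ?_⟩
  · rw [hgh]
    exact hB2
  · apply Subtype.ext
    refine LinearEquiv.ext fun v => ?_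
    rw [toU_apply]
    change T A v = u v
    rw [hA1]
    rfl

/-- the isomorphism -/
noncomputable def isoU (k : Type*) [Field k] (n : ℕ) (hn : 0 < n) : Umat k n ≃* U k n :=
  MulEquiv.ofBijective (toU hn) ⟨toU_injective hn, toU_surjective hn⟩

theorem isoU_apply (hn : 0 < n) (g : Umat k n) (v : E k) :
    ((isoU k n hn g : U k n) : E k ≃ₗ[k] E k) v =
      T (((g : SLk k n)) : Matrix (Fin n) (Fin n) k[X]) v := rfl

theorem mem_Ncg_iff (hn : 0 < n) (m : ℕ) (g : Umat k n) :
    (g : SLk k n) ∈ Ncg k n m ↔ isoU k n hn g ∈ Nc k n m :=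
  T_cong hn m

theorem exists_iso (hn : 0 < n) : ∃ e : Umat k n ≃* U k n, ∀ (m : ℕ) (g : Umat k n),
    (g : SLk k n) ∈ Ncg k n m ↔ e g ∈ Nc k n m :=
  ⟨isoU k n hn, fun m g => mem_Ncg_iff hn m g⟩

end Vale.P067.D1
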