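import Mathlib
import Vale.Agent.Lib.P067.Interface
import Vale.Agent.Lib.P067.D1.HNcB
import Vale.Agent.Lib.P067.D1.Desc

/-!
# P067: part D from part C
-/

namespace Vale.P067

open scoped Classical

/-- Part D.  `q0` = maximum over `n' ≤ n` of the constants of part C. -/
theorem partD (hC : PartC) : PartD := by
  intro n
  choose q hq using hC
  refine ⟨(Finset.range (n + 1)).sup q, ?_⟩
  intro k _ _ hk hodd m hm j hj
  have hfin : Finite k := inferInstance
  have hodd' : Odd (Nat.card k) := by rwa [Nat.card_eq_fintype_card]
  refine van_of_ex hm (cos_Nc hodd' ?_ (by omega) hj)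
  intro n' j' hj' hn'
  refine hq n' k ((Finset.le_sup (f := q) (Finset.mem_range.2 (by omega))).trans hk) j' hj'

end Vale.P067
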